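import Crest.Statements.S0001
import Crest.Agent.S0022
import Crest.Agent.R26.Psi
import Crest.Agent.R26.PrimeAP
import Crest.Agent.R1.Main

set_option autoImplicit false
open Crest Crest.NumberTheoryR

namespace Crest.Agent.S0001

/-- There is an absolute constant C > 0 such that, for every integer k ≥ 1 and every positive integer n with at most k distinct prime factors, every block of m consecutive integers a, a+1, …, a+m-1 whose length satisfies m ≥ C·k²/(log log(3k))² contains an integer coprime to n (natural logarithms). -/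
theorem result :
    ∃ C : ℝ, 0 < C ∧ ∀ (k : ℕ), 1 ≤ k → ∀ (n : ℕ), 0 < n → n.primeFactors.card ≤ k →
      ∀ (a : ℤ) (m : ℕ), C * (k : ℝ) ^ 2 / (Real.log (Real.log (3 * (k : ℝ)))) ^ 2 ≤ (m : ℝ) →
        ∃ x : ℤ, a ≤ x ∧ x < a + m ∧ Int.gcd x n = 1 := by
  have hθ : R1.ThetaStmt :=
    R26.PrimeAP.theta_ap (R26.psi fun _ _ χ s h₁ h₂ => Crest.Agent.S0022.result χ s h₁ h₂)
  obtain ⟨m0, h⟩ := Filter.eventually_atTop.1 (R1.main hθ)
  refine ⟨(m0 : ℝ) + 12, by positivity, fun k hk n hn hc a m hm => ?_⟩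
  have hk1 : (1 : ℝ) ≤ k := by exact_mod_cast hk
  have h3 : 1 < Real.log 3 := by
    rw [Real.lt_log_iff_exp_lt (by norm_num)]
    linarith [Real.exp_one_lt_d9]
  have h3' : Real.log 3 ≤ 2 := by linarith [Real.log_le_sub_one_of_pos (x := 3) (by norm_num)]
  have h1 : 1 < Real.log (3 * k) := h3.trans_le (Real.log_le_log (by norm_num) (by linarith))
  have hl0 : 0 < Real.log (Real.log (3 * k)) := Real.log_pos h1
  have hl1 : Real.log (Real.log (3 * k)) ≤ Real.log (3 * k) - 1 :=
    Real.log_le_sub_one_of_pos (by linarith)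
  have hl2 : Real.log (3 * k) = Real.log 3 + Real.log k := Real.log_mul (by norm_num) (by linarith)
  have hl3 : Real.log k ≤ k - 1 := Real.log_le_sub_one_of_pos (by linarith)
  have hl4 : Real.log (3 * k) ≤ 2 * √(3 * k) := by
    have := Real.log_le_sub_one_of_pos (Real.sqrt_pos.2 (show (0 : ℝ) < 3 * k by linarith))
    rw [Real.log_sqrt (by linarith)] at this
    linarith
  set l := Real.log (Real.log (3 * k)) with hl
  rw [div_le_iff₀ (by positivity)] at hm
  have hm0 : (0 : ℝ) ≤ m := Nat.cast_nonneg m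
  have hm00 : (0 : ℝ) ≤ m0 := Nat.cast_nonneg m0
  have a1 : l ^ 2 ≤ (k : ℝ) ^ 2 := pow_le_pow_left₀ hl0.le (by linarith) 2
  have a2 : (m0 : ℝ) + 12 ≤ m :=
    le_of_mul_le_mul_right (hm.trans (mul_le_mul_of_nonneg_left a1 hm0)) (by positivity)
  have a3 : l ^ 2 ≤ 12 * k := by
    have := pow_le_pow_left₀ hl0.le (show l ≤ 2 * √(3 * k) by linarith) 2
    rw [mul_pow, Real.sq_sqrt (by linarith)] at this
    linarith
  have a4 : (k : ℝ) ≤ m := by
    have := hm.trans (mul_le_mul_of_nonneg_left a3 hm0)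
    have h5 : (k : ℝ) * (12 * k) ≤ m * (12 * k) := by
      nlinarith [mul_nonneg hm00 (sq_nonneg (k : ℝ))]
    exact le_of_mul_le_mul_right h5 (by positivity)
  have a5 : Real.log 3 ≤ Real.log m := Real.log_le_log (by norm_num) (by linarith)
  have a6 : Real.log k ≤ Real.log m := Real.log_le_log (by linarith) a4
  have a7 : l ^ 2 ≤ (2 * Real.log m) ^ 2 := pow_le_pow_left₀ hl0.le (by linarith) 2
  have a8 : (k : ℝ) ≤ √m * Real.log m := by
    refine (pow_le_pow_iff_left₀ (by linarith) (mul_nonneg (Real.sqrt_nonneg _) (by linarith))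
      two_ne_zero).1 ?_
    rw [mul_pow, Real.sq_sqrt hm0]
    have := hm.trans (mul_le_mul_of_nonneg_left a7 hm0)
    nlinarith [mul_nonneg hm00 (sq_nonneg (k : ℝ)), sq_nonneg (k : ℝ)]
  obtain ⟨j, hj, hB⟩ := h m (by exact_mod_cast (show (m0 : ℝ) ≤ m by linarith)) (a - 1) n.primeFactors
    (fun p hp => Nat.prime_of_mem_primeFactors hp) (le_trans (by exact_mod_cast hc) a8)
  rw [Finset.mem_Icc] at hj
  refine ⟨a - 1 + j, by omega, by omega, ?_⟩
  by_contra hg
  obtain ⟨p, hp, hd⟩ := Nat.exists_prime_and_dvd hg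
  have hd' : (p : ℤ) ∣ (Int.gcd (a - 1 + j) n : ℤ) := Int.natCast_dvd_natCast.2 hd
  exact hB p (Nat.mem_primeFactors.2 ⟨hp, Int.natCast_dvd_natCast.1 (hd'.trans (Int.gcd_dvd_right _ _)),
    hn.ne'⟩) (hd'.trans (Int.gcd_dvd_left _ _))

end Crest.Agent.S0001
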