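import Crest.Statements.S0003
import Crest.Agent.R3.Fin

set_option autoImplicit false
open Crest.NumberTheoryR.CharVarRel
open Crest Crest.NumberTheoryR

namespace Crest.Agent.S0003

open Crest.Agent.R3 Matrix in
/-- Let r ≥ 1, c_j ∈ SL_r(ℂ) (j < s) have all eigenvalues roots of unity, K ⊂ ℂ a number field containing them, p ≠ q primes greater than r, L = K(√2, pq-th roots of unity) with all r-th roots of all units of its integer ring adjoined. Among semisimple representations ρ of the genus-g, s-puncture surface group in SL_r(ℂ) with j-th boundary matrix conjugate to c_j, those with all integer invariants in L and integral over ℤ are Zariski dense: invariant polynomials vanishing there vanish at each ρ. -/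
theorem result (g s r : ℕ) (hr : 1 ≤ r)
    (c : Fin s → Matrix.SpecialLinearGroup (Fin r) ℂ) (hc : ∀ j, IsQuasiUnipotent (c j))
    (K : Subfield ℂ) (hK : FiniteDimensional ℚ K)
    (hcK : ∀ j, ∀ μ : ℂ, (c j).1.charpoly.IsRoot μ → μ ∈ K)
    (p q : ℕ) (hp : p.Prime) (hq : q.Prime) (hpq : p ≠ q) (hrp : r < p) (hrq : r < q)
    (f : MvPolynomial (RelVar g s r) ℂ) (hf : IsConjInvariantRel f)
    (hvan : ∀ T : RelGen g s → Matrix.SpecialLinearGroup (Fin r) ℂ, IsRelSurfaceRep g s r T →
      IsSemisimpleRep T → HasBoundaryClasses c T →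
      IsIntegrallyValuedIn (unitRootField (rootField K (p * q)) r) T → evalRep f T = 0)
    (T : RelGen g s → Matrix.SpecialLinearGroup (Fin r) ℂ) (hT : IsRelSurfaceRep g s r T)
    (hss : IsSemisimpleRep T) (hcl : HasBoundaryClasses c T) :
    evalRep f T = 0 := by
  classical
  have hN := nice_rootField K hK r p q hp hq hpq hrp hrq
  set F := rootField K (p * q) with hF
  have hKF : ∀ z ∈ K, z ∈ F := fun z hz => Subfield.subset_closure (Or.inl (Or.inl hz))
  have hFL : ∀ z ∈ F, z ∈ unitRootField F r := fun z hz => Subfield.subset_closure (Or.inl hz)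
  set T0 : RelGen g s → G r ℂ := fun v => Matrix.SpecialLinearGroup.toGL (T v) with hT0
  have hξ : ∀ j, ∃ ξ : List (intRing F)ˣ, qk (T0 (.inr j))⁻¹ ξ = 0 := by
    intro j
    refine fin_exists_xi _ fun ν hν => ?_
    obtain ⟨h0, h1⟩ := fin_root_inv _ ν hν
    obtain ⟨k, hk⟩ := hcl j
    have h2 : (T0 (.inr j)).val.charpoly = (c j).1.charpoly := by
      have : T0 (.inr j) = Matrix.SpecialLinearGroup.toGL k *
          Matrix.SpecialLinearGroup.toGL (c j) * (Matrix.SpecialLinearGroup.toGL k)⁻¹ := by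
        simp only [hT0, hk, map_mul, map_inv]
      rw [this, Units.val_mul, Units.val_mul, Matrix.coe_units_inv, Matrix.charpoly_units_conj]
      rfl
    rw [h2] at h1
    obtain ⟨m, hm, hm1⟩ := hc j _ h1
    refine unit_of_root F ν ?_ m hm ?_
    · simpa using F.inv_mem (hKF _ (hcK j _ h1))
    · rw [inv_pow] at hm1; exact inv_eq_one.1 hm1
  choose ξ hξ using hξ
  obtain ⟨L, T', Δ, hl, hrel, hΔ, hπ⟩ := ss_lift (pa'_main hN) (Nat.lt_succ_self r) T0
    ((fin_rel_iff T).1 hT) hss ξ hξ
  let δ : Fin g × Bool → L.A := fun v => ((T' (.inl v))⁻¹).val.det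
  have hδ : ∀ v, δ v * (T' (.inl v)).val.det = 1 := fun v => by
    simp only [δ]; rw [← det_mul, Units.inv_mul, det_one]
  have hent : ∀ v i j, L.θ ((T' v).val i j) = (T v).1 i j := fun v i j =>
    congrArg (fun M : G r ℂ => M.val i j) (hl v)
  have hdet : ∀ v, L.θ (T' v).val.det = 1 := fun v => by
    have h1 : L.t (T' v).val.det = (gmap L.t (T' v)).val.det := RingHom.map_det _ _
    rw [hl v] at h1
    exact h1.trans (T v).2
  have hZ := ZCl.root (r := r) hr δ L.good (by
      rintro _ ⟨π, rfl⟩ v h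
      have h1 : π (δ v) = 0 := Subtype.ext h
      have h2 := congrArg π (hδ v)
      rw [map_mul, h1, zero_mul, map_one] at h2
      exact zero_ne_one h2) (fun _ => 1) (fun v => by
      have h2 := congrArg L.θ (hδ v)
      rw [map_mul, hdet, mul_one, map_one] at h2
      rw [h2, one_pow])
  let Φ : RelVar g s r → MvPolynomial (L.A ⊕ (Fin g × Bool)) ℂ := fun v =>
    Sum.elim (fun u => MvPolynomial.X (.inr u)) (fun _ => 1) v.1 *
      MvPolynomial.X (.inl ((T' v.1).val v.2.1 v.2.2))
  have hev : ∀ w : L.A ⊕ (Fin g × Bool) → ℂ,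
      MvPolynomial.eval w (MvPolynomial.X (.inl Δ) * MvPolynomial.aeval Φ f) =
        w (.inl Δ) * MvPolynomial.aeval (fun v => MvPolynomial.eval w (Φ v)) f := by
    intro w
    rw [map_mul, MvPolynomial.eval_X, ← MvPolynomial.coe_aeval_eq_eval]
    congr 1
    exact congrArg (fun φ : MvPolynomial (RelVar g s r) ℂ →ₐ[ℂ] ℂ => φ f)
      (MvPolynomial.comp_aeval Φ (MvPolynomial.aeval w))
  have hmain := hZ (MvPolynomial.X (.inl Δ) * MvPolynomial.aeval Φ f) ?_
  · rw [hev] at hmain
    have h1 : (fun v => MvPolynomial.eval (Sum.elim (⇑L.θ) fun _ => (1 : ℂ)) (Φ v)) =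
        fun v : RelVar g s r => (T v.1).1 v.2.1 v.2.2 := by
      funext ⟨v, i, j⟩
      cases v <;> simp [Φ, hent]
    rw [h1] at hmain
    exact (mul_eq_zero.1 hmain).resolve_left hΔ
  rintro w ⟨⟨π, hw⟩, hz⟩
  have hw' : ∀ a, w (.inl a) = (π a : ℂ) := fun a => (congrFun hw a).symm
  rw [hev]
  by_cases h0 : w (.inl Δ) = 0
  · rw [h0, zero_mul]
  let π' : L.A →ₐ[intRing F] ℂ := (Algebra.ofId (intRing F) ℂ).comp π
  have hπ' : ∀ a, π' a = (π a : ℂ) := fun a => rfl
  obtain ⟨hs1, hc1⟩ := hπ π' (by rw [hπ', ← hw']; exact h0)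
  set S : RelGen g s → G r ℂ := fun v => gmap (π' : L.A →+* ℂ) (T' v) with hS
  have hSdet : ∀ v, (S v).val.det = (π (T' v).val.det : ℂ) := fun v =>
    (RingHom.map_det (π' : L.A →+* ℂ) _).symm
  have hzδ : ∀ v, w (.inr v) ^ r * (π (T' (.inl v)).val.det : ℂ) = 1 := fun v => by
    have h2 := congrArg (fun a => (π a : ℂ)) (hδ v)
    simp only [map_mul, map_one, Subring.coe_mul, Subring.coe_one] at h2
    rw [hz v, hw', h2]
  let z : RelGen g s → ℂ := Sum.elim (fun u => w (.inr u)) fun _ => 1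
  have hz0 : ∀ v, z v ≠ 0 := by
    rintro (u | j)
    · intro h
      have h2 := hzδ u
      rw [show w (.inr u) = 0 from h, zero_pow (by omega), zero_mul] at h2
      exact zero_ne_one h2
    · exact one_ne_zero
  have hzd : ∀ v, (z v • (S v).val).det = 1 := by
    rintro (u | j)
    · rw [det_smul, Fintype.card_fin, hSdet]; exact hzδ u
    · obtain ⟨P, hP⟩ := hc1 j
      rw [show z (.inr j) = 1 from rfl, one_smul, show S (.inr j) = _ from hP, Units.val_mul,
        Units.val_mul, det_mul, det_mul, mul_right_comm, ← det_mul, Units.mul_inv, det_one,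
        one_mul]
      exact (T (.inr j)).2
  let T2 : RelGen g s → Matrix.SpecialLinearGroup (Fin r) ℂ := fun v => ⟨z v • (S v).val, hzd v⟩
  let zz : RelGen g s → G r ℂ := fun v =>
    Matrix.GeneralLinearGroup.scalar (Fin r) (Units.mk0 (z v) (hz0 v))
  have hzz : ∀ v (M : Mat ℂ r r), (zz v).val * M = z v • M := fun v M => by
    simp [zz, Matrix.GeneralLinearGroup.scalar, ← Matrix.smul_eq_diagonal_mul]
  have hzz' : ∀ v (M : Mat ℂ r r), M * (zz v).val = z v • M := fun v M => by
    simp [zz, Matrix.GeneralLinearGroup.scalar, ← Matrix.smul_eq_mul_diagonal]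
  have hT2 : ∀ v, Matrix.SpecialLinearGroup.toGL (T2 v) = zz v * S v := fun v =>
    Units.ext (hzz v _).symm
  have hT2r : ∀ j, Matrix.SpecialLinearGroup.toGL (T2 (.inr j)) = S (.inr j) := fun j =>
    Units.ext (one_smul _ _)
  have key : evalRep f T2 = 0 := by
    refine hvan T2 ?_ ?_ ?_ ?_
    · rw [fin_rel_iff]
      have h1 : srel S = 1 := by rw [hS, ← srel_map, hrel, map_one]
      rw [← h1, srel, srel]
      simp only [hT2r]
      congr 1
      simp only [hT2]
      exact fin_cprod_central (fun v => zz (.inl v)) (fun v => S (.inl v)) fun v h =>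
        Units.ext ((hzz _ _).trans (hzz' _ _).symm)
    · intro W hW
      have hinv : ∀ W : Submodule ℂ (Fin r → ℂ),
          (∀ i, ∀ v ∈ W, (T2 i).1.mulVec v ∈ W) ↔ Inv S W := by
        intro W
        refine forall_congr' fun i => forall_congr' fun v => forall_congr' fun _ => ?_
        change (z i • (S i).val) *ᵥ v ∈ W ↔ _
        rw [Matrix.smul_mulVec, W.smul_mem_iff (hz0 i)]
      obtain ⟨W', h1, h2⟩ := hs1 W ((hinv W).1 hW)
      exact ⟨W', (hinv W').2 h1, h2⟩
    · intro j
      obtain ⟨P, hP⟩ := hc1 j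
      obtain ⟨k, hk⟩ := hcl j
      obtain ⟨k', hk'⟩ := fin_sl_conj hr (T2 (.inr j)) (T (.inr j)) P ((hT2r j).trans hP)
      exact ⟨k' * k, by rw [hk', hk]; group⟩
    · intro P _
      refine mem_intRing.1 (fin_eval_mem (intRing (unitRootField F r)) T2 ?_ P)
      intro v i j
      have h1 : (S v).val i j ∈ intRing (unitRootField F r) :=
        ⟨hFL _ (π ((T' v).val i j)).2.1, (π ((T' v).val i j)).2.2⟩
      refine mul_mem ?_ h1
      rcases v with u | j
      · have h2 : w (.inr u) ^ r = (π (δ u) : ℂ) := by rw [hz u, hw']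
        have h3 : IsIntegral ℤ (w (.inr u) ^ r) := by rw [h2]; exact (π (δ u)).2.2
        refine ⟨Subfield.subset_closure (Or.inr ⟨?_, pow_ne_zero _ (hz0 (.inl u)), h3, ?_⟩),
          IsIntegral.of_pow hr h3⟩
        · change w (.inr u) ^ r ∈ F
          rw [h2]; exact (π (δ u)).2.1
        · change IsIntegral ℤ (w (.inr u) ^ r)⁻¹
          rw [← eq_inv_of_mul_eq_one_right (hzδ u)]
          exact (π _).2.2
      · exact one_mem _
  have h1 : (fun v => MvPolynomial.eval w (Φ v)) =
      fun v : RelVar g s r => (T2 v.1).1 v.2.1 v.2.2 := by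
    funext ⟨v, i, j⟩
    cases v <;> simp [Φ, T2, z, hS, hw', hπ']
  rw [h1]
  exact mul_eq_zero_of_right _ key

end Crest.Agent.S0003
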