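import Crest.Statements.S0006
import Crest.Agent.R6.Series
import Crest.Agent.R6.Values
import Crest.Agent.R6.Integral
import Crest.Agent.R6.Andreief
import Crest.Agent.R6.HalfDisc
import Crest.Agent.R6.RowDet
import Crest.Agent.R6.EnergyA
import Crest.Agent.R6.EnergyB
import Crest.Agent.R6.Point
import Crest.Agent.R6.Pool
import Crest.Agent.R6.Two
import Crest.Agent.R6.Beta
import Crest.Agent.R6.Frob
import Crest.Agent.R6.Contr
import Crest.Agent.R6.OddBig
import Crest.Agent.R6.Arith
import Crest.Agent.R6.CertB
import Crest.Agent.R6.Nonvan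
import Crest.Agent.R6.Cert
import Crest.Agent.Lib.PNT.Main

set_option autoImplicit false
open Crest Crest.NumberTheoryR

namespace Crest.Agent.S0006

/-- Catalan's constant, the sum of the series whose j-th term (j = 0, 1, 2, …) is (-1)^j/(2j+1)^2, is an irrational real number. -/
theorem result :
    Irrational (∑' j : ℕ, (-1 : ℝ) ^ j / ((2 * j + 1 : ℝ) ^ 2)) := by
  have h : Irrational Crest.Agent.R6.cat :=
    R6.final
      (R6.real (R6.integral R6.series R6.zseries R6.cancel R6.values R6.mom) R6.andreief
        (R6.point R6.cauchy (R6.rowDet (R6.rowLin R6.halfDisc) R6.diam) (R6.energyA R6.qneg)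
          (R6.energyB R6.qneg) R6.cert))
      (R6.arith (R6.two R6.series R6.cancel R6.pool)
        (R6.oddBig R6.rowShape R6.pool (R6.contr R6.beta (R6.frob R6.beta))) R6.oddSmall
        (R6.primeSum Crest.Agent.Lib.PNT.theta_tendsto))
      (R6.nonvan R6.certB (R6.entMod R6.beta R6.rowShape (R6.contr R6.beta (R6.frob R6.beta))))
  exact h

end Crest.Agent.S0006
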