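import Crest.Statements.S0010
import Crest.Agent.R9.Main

set_option autoImplicit false
open Crest.NumberTheoryR.MilnorK
open Crest Crest.NumberTheoryR

namespace Crest.Agent.S0010

open Crest.Agent.R9

/-- Let K and L be fields of characteristic p that are finitely generated and of transcendence degree at least 2 over algebraically closed subfields k and l. Let Θ be a linear isomorphism, over the integers mod p, from Kˣ/(Kˣ)^p to Lˣ/(Lˣ)^p that maps the span of the Steinberg elements [f] ⊗ [1 - f] (f ≠ 0, 1) of K exactly onto that of L. Then there is exactly one field isomorphism α from K to L with α(k) = l such that, for some non-zero scalar c, Θ[u] = c · [α(u)] for every unit u of K. -/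
theorem result {p : ℕ} [Fact p.Prime]
    {K L : Type*} [Field K] [Field L] [CharP K p] [CharP L p] (k : Subfield K) (l : Subfield L)
    [IsAlgClosed k] [IsAlgClosed l]
    (hK : ∃ s : Finset K, Subfield.closure ((k : Set K) ∪ (s : Set K)) = ⊤)
    (hL : ∃ s : Finset L, Subfield.closure ((l : Set L) ∪ (s : Set L)) = ⊤)
    (hK2 : 2 ≤ Algebra.trdeg k K) (hL2 : 2 ≤ Algebra.trdeg l L)
    (Θ : KOne K p ≃ₗ[ZMod p] KOne L p) (hΘ : IsCompatible Θ) :
    ∃! α : K ≃+* L, k.map α.toRingHom = l ∧
      ∃ c : ZMod p, c ≠ 0 ∧ ∀ u : Kˣ, Θ (cls K p u) = c • cls L p (Units.map α.toRingHom.toMonoidHom u) := by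
  have eK := essFiniteType_of_closure k hK
  have eL := essFiniteType_of_closure l hL
  have HK : ∀ x : K, ∃ y, y ∉ gen (pw p K) x := exists_notMem_gen k hK2
  have HL : ∀ x : L, ∃ y, y ∉ gen (pw p L) x := exists_notMem_gen l hL2
  let Θ' : KK K p ≃ₗ[ZMod p] KK L p := Θ
  have hΘ' : (stb K p).map (TensorProduct.map Θ'.toLinearMap Θ'.toLinearMap) = stb L p := hΘ
  have h1 : ∀ A B, Ln A B → Wd (Θ' A) (Θ' B) := by
    intro A B h
    apply wd_of_steinberg
    rw [← hΘ']
    exact ⟨_, h.mem_steinberg, by simp⟩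
  have h2 : ∀ A B, Ln A B → Wd (Θ'.symm A) (Θ'.symm B) := by
    intro A B h
    apply wd_of_steinberg
    have h3 := h.mem_steinberg
    rw [← hΘ'] at h3
    obtain ⟨t, ht, e⟩ := h3
    have e2 : t = TensorProduct.tmul (ZMod p) (Θ'.symm A) (Θ'.symm B) := by
      apply (TensorProduct.congr Θ' Θ').injective
      change TensorProduct.map Θ'.toLinearMap Θ'.toLinearMap t = _
      rw [e]
      simp
    rw [← e2]
    exact ht
  have conv : ∀ (α : K ≃+* L) (c : ZMod p),
      (∀ u : Kˣ, Θ (cls K p u) = c • cls L p (Units.map α.toRingHom.toMonoidHom u)) ↔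
      (∀ x, x ≠ 0 → Θ' (c0 p x) = c • c0 p (α x)) := by
    intro α c
    constructor
    · intro h x x0
      have := h (Units.mk0 x x0)
      rw [c0_of_ne x0]
      exact this.trans (congrArg (fun A : KK L p => c • A)
        (c0_units (Units.map α.toRingHom.toMonoidHom (Units.mk0 x x0))).symm)
    · intro h u
      have := h u u.ne_zero
      rw [c0_units] at this
      exact this.trans (congrArg (fun A : KK L p => c • A)
        (c0_units (Units.map α.toRingHom.toMonoidHom u)))
  obtain ⟨α, c, hc, hα⟩ := exists_ringEquiv HK HL Θ' h1 h2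
  refine ⟨α, ⟨?_, c, hc, (conv α c).2 hα⟩, ?_⟩
  · apply le_antisymm (map_le_of_isAlgClosed p k l _)
    intro y hy
    exact ⟨α.symm y, map_le_of_isAlgClosed p l k α.symm.toRingHom ⟨y, hy, rfl⟩, by simp⟩
  · rintro β ⟨-, d, hd, hβ⟩
    exact ringEquiv_unique HK Θ' β α hd hc ((conv β d).1 hβ) hα

end Crest.Agent.S0010
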