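import Crest.Statements.S0027
import Crest.Agent.R20.All

set_option autoImplicit false
open Filter Topology Crest.NumberTheoryR.TotientScale
open Crest Crest.NumberTheoryR

namespace Crest.Agent.S0027

/-- Let 0 < ρ < 1 satisfy ∑_{j≥1} a_j ρ^j = 1 with a_j = (j+1)log(j+1) − j log j − 1, put λ = log(1/ρ), g_0 = 1, g_j = ∑_{d=1}^j a_d g_{j−d}, and for large x: B = log log x, m = ⌊(log B − log log B)/λ⌋, θ the fractional part, G = B^m/(m! g_1⋯g_m). Then there is a function A on [0,1), bounded between two positive constants, such that the number V(x) of values of Euler's function up to x satisfies V(x) ∼ (x / log x) · G · A(θ) as x → ∞. -/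
theorem result (ρ : ℝ) (hρ0 : 0 < ρ) (hρ1 : ρ < 1)
    (hρ : HasSum (fun j : ℕ => aCoef (j + 1) * ρ ^ (j + 1)) 1) :
    ∃ A : ℝ → ℝ, (∃ c₁ c₂ : ℝ, 0 < c₁ ∧ ∀ s ∈ Set.Ico (0 : ℝ) 1, c₁ ≤ A s ∧ A s ≤ c₂) ∧
      Tendsto (fun x : ℝ =>
          (totientCount x : ℝ) / (x / Real.log x * scaleG ρ x * A (phase ρ x)))
        atTop (𝓝 1) := by
  exact Crest.Agent.R20.final27 Crest.Agent.R20.main_all ρ hρ0 hρ1 hρ

end Crest.Agent.S0027
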