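import Crest.Statements.S0054
import Crest.Agent.R40.AAll
import Crest.Agent.R40.MAll
import Crest.Agent.R40.Loc

set_option autoImplicit false
open Crest Crest.CombinatoricsR

namespace Crest.Agent.S0054

/-- For every colouring of the Euclidean plane with five colours there are two points at distance one that receive the same colour. No measurability or other restriction is placed on the colour classes. -/
theorem result
    (c : EuclideanSpace ℝ (Fin 2) → Fin 5) :
    ∃ x y : EuclideanSpace ℝ (Fin 2), dist x y = 1 ∧ c x = c y := by
  by_contra hne
  refine Crest.Agent.R40.not_closedStmt (Crest.Agent.R40.M.closed_of_meas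
    (Crest.Agent.R40.A.meas_of_col ⟨fun z => c (Complex.orthonormalBasisOneI.repr z), ?_⟩))
  intro x y hxy hc
  refine hne ⟨_, _, ?_, hc⟩
  rw [LinearIsometryEquiv.dist_map, dist_eq_norm, hxy]

end Crest.Agent.S0054
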