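import Crest.Statements.S0065
import Crest.Agent.R46.Final
import Crest.Agent.R46.Part
import Crest.Agent.R46.Cast
import Crest.Agent.R46.Rigid

set_option autoImplicit false
open Crest.CombinatoricsR.Tiling
open Crest Crest.CombinatoricsR

namespace Crest.Agent.S0065

open Crest.Agent.R46

/-- There is a finite nonempty T ⊆ ℤ³ such that T tiles ℤ³ by translations (some set A of translations writes every lattice point uniquely as a + t with a ∈ A, t ∈ T) while no such A is invariant under a finite-index subgroup of ℤ³, and the union of the closed unit cubes z + [0,1]³, z ∈ T, tiles ℝ³ up to null sets by some set of real translation vectors (almost every point lies in exactly one translate) while no such set is invariant under a full-rank lattice, the integer span of a basis of ℝ³. -/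
theorem result :
    ∃ T : Finset (Fin 3 → ℤ), T.Nonempty ∧
      (∃ A : Set (Fin 3 → ℤ), IsTilingBy T A) ∧
      (∀ A : Set (Fin 3 → ℤ), IsTilingBy T A → ¬ IsFullyPeriodic A) ∧
      (∃ B : Set (Fin 3 → ℝ), IsAETilingBy (cubeThickening T) B) ∧
      ∀ B : Set (Fin 3 → ℝ), IsAETilingBy (cubeThickening T) B → ¬ IsLatticePeriodic B := by
  obtain ⟨𝓕, hne, ⟨A₀, hA₀⟩, hno⟩ := aperSys3
  have hM : 0 < 𝓕.card := Finset.card_pos.2 hne
  obtain ⟨L, E, hE⟩ := exists_rigid hM
  let F : Fin 𝓕.card → Finset (Fin 3 → ℤ) := fun m => (𝓕.equivFin.symm m).1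
  have hF0 : ∀ m, IsTilingBy (F m) A₀ := fun m => hA₀ _ (𝓕.equivFin.symm m).2
  have hFne : ∀ m, (F m).Nonempty := fun m => by
    obtain ⟨p, ⟨-, hp, -⟩, -⟩ := hF0 m 0
    exact ⟨_, hp⟩
  have hT := bigT_tiles hE F A₀ hF0
  have hreal : ∀ B : Set (Fin 3 → ℝ), IsAETilingBy (cubeThickening (bigT L F E)) B →
      ¬ IsLatticePeriodic B := by
    intro B hB hper
    obtain ⟨c, A, hA, rfl⟩ := real_rigid hE F hFne hB
    have hAne : A.Nonempty := by
      obtain ⟨p, ⟨hp, -⟩, -⟩ := hA ⟨0, hM⟩ 0
      exact ⟨_, hp⟩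
    refine hno A (fun F' hF' => ?_) (per3_of_lattice (lt_of_lt_of_le two_pos hE.two_le) c A hAne hper)
    have := hA (𝓕.equivFin ⟨F', hF'⟩)
    simpa [F] using this
  refine ⟨bigT L F E, ?_, ⟨_, hT⟩, fun A hA hper => hreal _ (cast_tiling _ A hA) (cast_per A hper),
    ⟨_, cast_tiling _ _ hT⟩, hreal⟩
  obtain ⟨p, ⟨-, hp, -⟩, -⟩ := hT 0
  exact ⟨_, hp⟩

end Crest.Agent.S0065
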