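import Crest.Statements.S0069
import Crest.Agent.R50.Final

set_option autoImplicit false
open Crest Crest.CombinatoricsR

namespace Crest.Agent.S0069

open scoped RealInnerProductSpace in
/-- the rotation matrix of a quaternion, as a point of `ℝ⁹` -/
noncomputable def rot (q : EuclideanSpace ℝ (Fin 4)) : EuclideanSpace ℝ (Fin 9) :=
  !₂[q 0 ^ 2 + q 1 ^ 2 - q 2 ^ 2 - q 3 ^ 2, 2 * (q 1 * q 2 - q 0 * q 3), 2 * (q 1 * q 3 + q 0 * q 2),
    2 * (q 1 * q 2 + q 0 * q 3), q 0 ^ 2 - q 1 ^ 2 + q 2 ^ 2 - q 3 ^ 2, 2 * (q 2 * q 3 - q 0 * q 1),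
    2 * (q 1 * q 3 - q 0 * q 2), 2 * (q 2 * q 3 + q 0 * q 1), q 0 ^ 2 - q 1 ^ 2 - q 2 ^ 2 + q 3 ^ 2]

theorem rot_neg (q : EuclideanSpace ℝ (Fin 4)) : rot (-q) = rot q := by
  simp [rot]

open scoped RealInnerProductSpace in
theorem rot_dist (p q : EuclideanSpace ℝ (Fin 4)) (hp : ‖p‖ = 1) (hq : ‖q‖ = 1) :
    dist (rot p) (rot q) ^ 2 = 8 - 8 * ⟪p, q⟫ ^ 2 := by
  have hp' : p 0 ^ 2 + p 1 ^ 2 + p 2 ^ 2 + p 3 ^ 2 = 1 := by
    have := EuclideanSpace.real_norm_sq_eq p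
    rw [hp, Fin.sum_univ_four] at this
    linarith
  have hq' : q 0 ^ 2 + q 1 ^ 2 + q 2 ^ 2 + q 3 ^ 2 = 1 := by
    have := EuclideanSpace.real_norm_sq_eq q
    rw [hq, Fin.sum_univ_four] at this
    linarith
  have hi : ⟪p, q⟫ = p 0 * q 0 + p 1 * q 1 + p 2 * q 2 + p 3 * q 3 := by
    simp [PiLp.inner_apply, Fin.sum_univ_four, mul_comm]
  rw [EuclideanSpace.dist_sq_eq, hi]
  simp only [rot, Fin.sum_univ_succ, Real.dist_eq, sq_abs]
  simp
  linear_combination (3 * (p 0 ^ 2 + p 1 ^ 2 + p 2 ^ 2 + p 3 ^ 2) + 3 +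
    2 * (q 0 ^ 2 + q 1 ^ 2 + q 2 ^ 2 + q 3 ^ 2)) * hp' +
    (3 * (q 0 ^ 2 + q 1 ^ 2 + q 2 ^ 2 + q 3 ^ 2) + 5) * hq'

/-- Some bounded subset of nine-dimensional Euclidean space with at least two points cannot be split into ten parts of strictly smaller diameter: however its points are assigned to ten classes, some class has diameter at least that of the whole set. -/
theorem result :
    ∃ S : Set (EuclideanSpace ℝ (Fin 9)), Bornology.IsBounded S ∧ S.Nontrivial ∧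
      ∀ c : EuclideanSpace ℝ (Fin 9) → Fin 10, ∃ i : Fin 10,
        Metric.diam S ≤ Metric.diam (S ∩ c ⁻¹' {i}) := by
  have hle : ∀ x ∈ rot '' Metric.sphere 0 1, ∀ y ∈ rot '' Metric.sphere 0 1,
      dist x y ≤ Real.sqrt 8 := by
    rintro _ ⟨p, hp, rfl⟩ _ ⟨q, hq, rfl⟩
    apply Real.le_sqrt_of_sq_le
    rw [rot_dist p q (by simpa using hp) (by simpa using hq)]
    nlinarith [sq_nonneg (inner ℝ p q)]
  have hb : Bornology.IsBounded (rot '' Metric.sphere 0 1) :=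
    Metric.isBounded_iff.2 ⟨Real.sqrt 8, fun x hx y hy => hle x hx y hy⟩
  refine ⟨rot '' Metric.sphere 0 1, hb, ?_, ?_⟩
  · refine ⟨_, ⟨EuclideanSpace.single 0 1, by simp, rfl⟩, _, ⟨EuclideanSpace.single 1 1, by simp, rfl⟩, ?_⟩
    intro h
    have := rot_dist (EuclideanSpace.single 0 1) (EuclideanSpace.single 1 1) (by simp) (by simp)
    rw [h, dist_self] at this
    simp [EuclideanSpace.inner_single_left] at this
  · intro c
    by_contra hc
    push Not at hc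
    have hd : Metric.diam (rot '' Metric.sphere 0 1) ≤ Real.sqrt 8 :=
      Metric.diam_le_of_forall_dist_le (Real.sqrt_nonneg _) hle
    obtain ⟨i₀, -, hi₀⟩ := Finset.exists_max_image Finset.univ
      (fun i : Fin 10 => Metric.diam (rot '' Metric.sphere 0 1 ∩ c ⁻¹' {i})) Finset.univ_nonempty
    set ρ := Metric.diam (rot '' Metric.sphere 0 1 ∩ c ⁻¹' {i₀}) with hρ
    have hρ0 : 0 ≤ ρ := Metric.diam_nonneg
    have hρ8 : ρ ^ 2 < 8 := by
      have h1 : ρ < Real.sqrt 8 := (hc i₀).trans_le hd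
      have h2 : Real.sqrt 8 ^ 2 = 8 := Real.sq_sqrt (by norm_num)
      nlinarith
    refine Crest.Agent.R50.no_colouring (E := EuclideanSpace ℝ (Fin 4)) (by simp)
      (fun x => c (rot x)) (fun x => by rw [rot_neg]) (δ := 1 - ρ ^ 2 / 8) (by linarith) ?_
    intro x y hx hy hxy
    have h1 : dist (rot x) (rot y) ≤ ρ := by
      refine le_trans ?_ (hi₀ (c (rot x)) (Finset.mem_univ _))
      exact Metric.dist_le_diam_of_mem (hb.subset Set.inter_subset_left)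
        ⟨⟨x, by simpa using hx, rfl⟩, rfl⟩ ⟨⟨y, by simpa using hy, rfl⟩, hxy.symm⟩
    have h2 := rot_dist x y hx hy
    have h3 : dist (rot x) (rot y) ^ 2 ≤ ρ ^ 2 := pow_le_pow_left₀ dist_nonneg h1 2
    linarith

end Crest.Agent.S0069
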