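import Crest.Statements.S0075
import Crest.Agent.R54.Main

set_option autoImplicit false
open Crest Crest.CombinatoricsR

namespace Crest.Agent.S0075

/-- Let m ≥ n ≥ 3 be natural numbers with (m, n) ≠ (3, 3), and let G be a simple graph on a finite vertex type with exactly (m - 1)(n - 1) + 1 vertices. Then G contains a cycle of length exactly m (a closed walk of length m repeating no vertex or edge) or n vertices that are pairwise non-adjacent in G. -/
theorem result (m n : ℕ) (hn : 3 ≤ n) (hnm : n ≤ m)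
    (h33 : ¬ (m = 3 ∧ n = 3)) (V : Type) [Fintype V] [DecidableEq V]
    (hV : Fintype.card V = (m - 1) * (n - 1) + 1) (G : SimpleGraph V) :
    (∃ v : V, ∃ p : G.Walk v v, p.IsCycle ∧ p.length = m) ∨ (∃ s : Finset V, Gᶜ.IsNClique n s) := by
  classical
  by_contra hcon
  rw [not_or] at hcon
  obtain ⟨h1, h2⟩ := hcon
  obtain ⟨k, rfl⟩ : ∃ k, m = k + 1 := ⟨m - 1, by omega⟩
  have ha : ∀ I, R54.Ind G I → I.card ≤ n - 1 := by
    intro I hI
    by_contra hlt
    obtain ⟨J, hJ, hc⟩ := Finset.exists_subset_card_eq (s := I) (n := n) (by omega)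
    refine h2 ⟨J, ?_, hc⟩
    intro a ha b hb hab
    exact (G.compl_adj a b).2 ⟨hab, hI a (hJ ha) b (hJ hb)⟩
  obtain ⟨I, -, hI, hc⟩ := R54.good_of_no_cycle (G := G) (k := k) (by omega)
    (fun h => h1 (h.walk (by omega))) (fun I hI => (ha I hI).trans (by omega)) Finset.univ
  rw [Finset.card_univ, hV, Nat.add_sub_cancel] at hc
  have := Nat.mul_le_mul_left k (ha I hI)
  omega

end Crest.Agent.S0075
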