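import Crest.Statements.S0077
import Crest.Agent.R56.Graph

set_option autoImplicit false
open Crest Crest.CombinatoricsR
open Crest.Agent.Lib.BoolCube Crest.Agent.R56 Crest.CombinatoricsR.RandomGraph

namespace Crest.Agent.S0077

/-- Let n ≥ 2 and let P be a family of simple graphs on n labelled vertices that is invariant under renaming vertices, closed under adding edges, non-empty and not everything; let 0 < ε < 1/2. If the binomial random graph with edge probability p ∈ [0, 1] lies in P with probability at least ε, then at every edge probability q ∈ [0, 1] with q ≥ p + 2^19 · log(1/(2ε)) / (log n)² it lies in P with probability at least 1 - ε: the threshold interval from ε to 1 - ε is at most that long. -/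
theorem result (n : ℕ) (hn : 2 ≤ n)
    (P : Set (SimpleGraph (Fin n)))
    (hsymm : ∀ σ : Equiv.Perm (Fin n), ∀ G : SimpleGraph (Fin n), G ∈ P → G.map σ.toEmbedding ∈ P)
    (hmono : ∀ G G' : SimpleGraph (Fin n), G ≤ G' → G ∈ P → G' ∈ P)
    (hne : P.Nonempty) (hnu : P ≠ Set.univ) (ε : ℝ) (hε0 : 0 < ε) (hε : ε < 1 / 2)
    (p q : ℝ) (hp0 : 0 ≤ p) (hp1 : p ≤ 1) (hq0 : 0 ≤ q) (hq1 : q ≤ 1)
    (hp : ε ≤ Crest.CombinatoricsR.RandomGraph.gnpProb n p P)
    (hq : p + 2 ^ 19 / Real.log n ^ 2 * Real.log (1 / (2 * ε)) ≤ q) :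
    1 - ε ≤ Crest.CombinatoricsR.RandomGraph.gnpProb n q P := by
  classical
  let F : (EdgeSlot n → Bool) → ℝ := fun ω => if graphOf ω ∈ P then 1 else 0
  have hF01 : ∀ x, F x = 0 ∨ F x = 1 := fun x => by by_cases h : graphOf x ∈ P <;> simp [F, h]
  have hprob : ∀ t, gnpProb n t P = E t F := fun t => by
    unfold gnpProb
    rw [bernoulliProb_eq_E]
    rfl
  have hinv : ∀ (σ : Equiv.Perm (Fin n)) (x : EdgeSlot n → Bool), F (x ∘ edgeAct σ) = F x := by
    have one : ∀ (σ : Equiv.Perm (Fin n)) (x : EdgeSlot n → Bool),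
        graphOf (x ∘ edgeAct σ) ∈ P → graphOf x ∈ P := fun σ x h => by
      rw [← graphOf_comp σ x]; exact hsymm σ _ h
    intro σ x
    have : graphOf (x ∘ edgeAct σ) ∈ P ↔ graphOf x ∈ P := by
      refine ⟨one σ x, fun h => one σ.symm _ ?_⟩
      have : (x ∘ edgeAct σ) ∘ edgeAct σ.symm = x := by
        funext e
        exact congrArg x ((edgeAct σ).right_inv e)
      rw [this]; exact h
    simp only [F, this]
  have htop : F (fun _ => true) = 1 := by
    obtain ⟨G, hG⟩ := hne
    simp [F, hmono _ _ (graphOf_true G) hG]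
  have hbot : F (fun _ => false) = 0 := by
    have : graphOf (fun _ : EdgeSlot n => false) ∉ P := fun h =>
      hnu (Set.eq_univ_of_forall fun G => hmono _ _ (graphOf_false G) h)
    simp [F, this]
  have hD : ∀ e x, D e F x ^ 2 = D e F x := by
    intro e x
    have hle : graphOf (Function.update x e false) ≤ graphOf (Function.update x e true) := by
      refine graphOf_mono fun e' h => ?_
      by_cases he : e' = e
      · subst he; simp
      · rwa [Function.update_of_ne he] at h ⊢
    by_cases a : graphOf (Function.update x e false) ∈ P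
    · simp [D, F, a, hmono _ _ hle a]
    · by_cases b : graphOf (Function.update x e true) ∈ P <;> simp [D, F, a, b]
  rw [hprob] at hp ⊢
  have hn2 : (2 : ℝ) ≤ n := by exact_mod_cast hn
  have hL : 0 < Real.log n := Real.log_pos (by linarith)
  have hlog : 0 < Real.log (1 / (2 * ε)) :=
    Real.log_pos (by rw [lt_div_iff₀ (by positivity)]; linarith)
  have hpq : p ≤ q := by
    have : 0 ≤ 2 ^ 19 / Real.log n ^ 2 * Real.log (1 / (2 * ε)) := by positivity
    linarith
  rcases hp0.eq_or_lt with rfl | hp0'
  · rw [E_at_zero, hbot] at hp; linarith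
  rcases hq1.eq_or_lt with rfl | hq1'
  · rw [E_at_one, htop]; linarith
  have hpos : ∀ t, 0 < t → t < 1 → 0 < E t F := fun t a b =>
    E_pos a b F (fun x => by rcases hF01 x with h | h <;> rw [h] <;> norm_num) (fun _ => true)
      (by rw [htop]; norm_num)
  have hlt : ∀ t, 0 < t → t < 1 → E t F < 1 := fun t a b => by
    have := E_pos a b (fun x => 1 - F x)
      (fun x => by rcases hF01 x with h | h <;> rw [h] <;> norm_num) (fun _ => false)
      (by rw [hbot]; norm_num)
    rw [E_sub, E_const] at this
    linarith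
  have hg := logit_growth (fun t => E t F) (fun t => ∑ e, E t (D e F)) (2 ^ 17 / Real.log n ^ 2)
    (by positivity) (fun t a b => hasDerivAt_E a b F) hpos hlt
    (fun t a b => by
      have hm := main (p := t) a b hn (vs := fun e : EdgeSlot n => e.1.toFinset) (act := edgeAct)
        (r := 2) le_rfl
        (fun e e' h => Subtype.ext (Sym2.ext fun v => by
          simpa using Finset.ext_iff.1 h v))
        (fun e => Sym2.card_toFinset_of_not_isDiag _ e.2)
        (fun σ e => by ext v; simp [edgeAct])
        F hF01 hinv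
      have e1 : ∑ e, infl t F e = ∑ e, E t (D e F) :=
        Finset.sum_congr rfl fun e _ => E_congr fun x => hD e x
      have e2 : ((2 : ℕ) : ℝ) / (((2 : ℕ) : ℝ) - 1) = 2 := by norm_num
      rw [e2, Real.rpow_two] at hm
      refine hm.trans ?_
      rw [← e1]
      refine mul_le_mul_of_nonneg_right (div_le_div_of_nonneg_right (by norm_num) (by positivity))
        (Finset.sum_nonneg fun e _ => infl_nonneg a.le b.le F e))
    hp0' hpq hq1'
  have h4 : 4 * Real.log (1 / (2 * ε)) ≤ (q - p) / (2 ^ 17 / Real.log n ^ 2) := by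
    rw [le_div_iff₀ (by positivity)]
    have : 4 * Real.log (1 / (2 * ε)) * (2 ^ 17 / Real.log n ^ 2)
        = 2 ^ 19 / Real.log n ^ 2 * Real.log (1 / (2 * ε)) := by ring
    linarith
  have hp1' : p < 1 := lt_of_le_of_lt hpq hq1'
  have hq0' : 0 < q := lt_of_lt_of_le hp0' hpq
  have a1 : Real.log ε ≤ Real.log (E p F) := Real.log_le_log hε0 hp
  have a2 : Real.log (1 - E p F) ≤ Real.log (1 - ε) :=
    Real.log_le_log (by linarith [hlt p hp0' hp1']) (by linarith)
  have a3 : Real.log (1 - ε) - Real.log ε ≤ 2 * Real.log (1 / (2 * ε)) := by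
    rw [← Real.log_div (by linarith) hε0.ne', show (2 : ℝ) * Real.log (1 / (2 * ε)) =
      Real.log ((1 / (2 * ε)) ^ 2) by rw [Real.log_pow]; norm_num]
    refine Real.log_le_log (div_pos (by linarith) hε0) ?_
    rw [div_pow, div_le_div_iff₀ hε0 (by positivity)]
    nlinarith [mul_nonneg hε0.le (sq_nonneg (2 * ε - 1))]
  by_contra hc
  push Not at hc
  have b1 : Real.log (E q F) < Real.log (1 - ε) := Real.log_lt_log (hpos q hq0' hq1') hc
  have b2 : Real.log ε < Real.log (1 - E q F) := Real.log_lt_log hε0 (by linarith)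
  linarith

end Crest.Agent.S0077
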