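import Crest.Statements.S0078
import Crest.Agent.R56.Main

set_option autoImplicit false
open Crest Crest.CombinatoricsR

namespace Crest.Agent.S0078

/-- For every r ≥ 3 there is a real constant C such that for all n ≥ r, all 0 < p < 1 and every Boolean function f of the simple r-uniform hypergraph on n labelled vertices that is invariant under renaming the vertices (no monotonicity assumed), the variance of f under independent edge-coins of bias p, namely P(f = true) · (1 - P(f = true)), is at most C · (log n)^(-r/(r-1)) times the total pivotal influence of f at bias p (natural logarithm). -/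
theorem result (r : ℕ) (hr : 3 ≤ r) :
    ∃ C : ℝ, ∀ n : ℕ, r ≤ n → ∀ p : ℝ, 0 < p → p < 1 →
      ∀ f : (Crest.CombinatoricsR.HypergraphCube.HyperedgeSlot n r → Bool) → Bool,
        Crest.CombinatoricsR.HypergraphCube.IsSymmetric f →
          Crest.CombinatoricsR.HypergraphCube.probTrue p f *
              (1 - Crest.CombinatoricsR.HypergraphCube.probTrue p f) ≤
            C / Real.log n ^ ((r : ℝ) / ((r : ℝ) - 1)) *
              Crest.CombinatoricsR.HypergraphCube.totalInfluence p f := by
  classical
  refine ⟨512 * r + (256 + r) ^ 2, fun n hn p h0 h1 f hf => ?_⟩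
  let act : Equiv.Perm (Fin n) → Equiv.Perm (HypergraphCube.HyperedgeSlot n r) := fun σ =>
    { toFun := HypergraphCube.relabelSlot σ
      invFun := HypergraphCube.relabelSlot σ.symm
      left_inv := fun e => Subtype.ext (by
        simp [HypergraphCube.relabelSlot, Finset.map_map])
      right_inv := fun e => Subtype.ext (by
        simp [HypergraphCube.relabelSlot, Finset.map_map]) }
  let F : (HypergraphCube.HyperedgeSlot n r → Bool) → ℝ := fun x => if f x = true then 1 else 0
  have hmain := Crest.Agent.R56.main (p := p) h0 h1 (n := n) (by omega)
    (vs := fun e : HypergraphCube.HyperedgeSlot n r => e.1) (act := act) (r := r) (by omega)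
    Subtype.val_injective (fun e => e.2)
    (fun σ e => by simp [act, HypergraphCube.relabelSlot, Finset.map_eq_image])
    F (fun x => by by_cases h : f x = true <;> simp [F, h])
    (fun σ x => by
      have : f (x ∘ act σ) = f x := hf σ x
      simp only [F, this])
  have e1 : HypergraphCube.probTrue p f = Crest.Agent.Lib.BoolCube.E p F := by
    unfold HypergraphCube.probTrue
    rw [Crest.Agent.Lib.BoolCube.bernoulliProb_eq_E]
    rfl
  have e2 : HypergraphCube.totalInfluence p f = ∑ e, Crest.Agent.Lib.BoolCube.infl p F e := by
    unfold HypergraphCube.totalInfluence HypergraphCube.pivotalInfluence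
    refine Finset.sum_congr rfl fun e _ => ?_
    rw [Crest.Agent.Lib.BoolCube.bernoulliProb_eq_E]
    refine Crest.Agent.Lib.BoolCube.E_congr fun x => ?_
    simp only [Set.mem_ofPred_eq, Crest.Agent.Lib.BoolCube.D, F]
    rcases Bool.eq_false_or_eq_true (f (Function.update x e true)) with a | a <;>
      rcases Bool.eq_false_or_eq_true (f (Function.update x e false)) with b | b <;> simp [a, b]
  rw [e1, e2]
  exact hmain

end Crest.Agent.S0078
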