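import Crest.Statements.S0084
import Crest.Agent.R62.Iter
import Crest.Agent.R62.Cast
import Crest.Agent.R62.Alg

set_option autoImplicit false
open Classical
open scoped Matrix
open Crest Crest.CombinatoricsR

namespace Crest.Agent.S0084

/-- For every d ≥ 3 there are a threshold n₀ and a polynomial-time map F on bit strings such that for every even n ≥ n₀, reading the output of F on the unary string of length n as an n × n adjacency bit matrix gives a simple d-regular graph on n vertices all of whose adjacency eigenvalues on the space orthogonal to the constant vector lie strictly between -2√(d-1) and 2√(d-1): for every non-zero real vector x with zero coordinate sum, the absolute value of xᵀ A x is less than 2√(d-1) · xᵀ x. -/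
theorem result (d : ℕ) (hd : 3 ≤ d) :
    ∃ n₀ : ℕ, ∃ F : List Bool → List Bool, Crest.Complexity.PolyTime F ∧
      ∀ n : ℕ, n₀ ≤ n → Even n →
        (Crest.CombinatoricsR.GraphCode.adjGraph n
            (F (Crest.CombinatoricsR.GraphCode.unary n))).IsRegularOfDegree d ∧
        ∀ x : Fin n → ℝ, ∑ i, x i = 0 → x ≠ 0 →
          |x ⬝ᵥ ((Crest.CombinatoricsR.GraphCode.adjGraph n
              (F (Crest.CombinatoricsR.GraphCode.unary n))).adjMatrix ℝ *ᵥ x)| <
            2 * Real.sqrt ((d : ℝ) - 1) * (x ⬝ᵥ x) := by
  obtain ⟨F, hF, hrun⟩ := Crest.Agent.R62.exists_alg d hd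
  obtain ⟨m0, hfin⟩ := Crest.Agent.R62.run_final d hd
  obtain ⟨n0, hn0⟩ := Crest.Agent.R62.mOf_large m0
  refine ⟨n0, F, hF, fun n hn he => ?_⟩
  obtain ⟨seq, h0, hnext, hG⟩ := hrun n
  obtain ⟨hm, hsc⟩ := hn0 n hn
  have key := hfin _ hm n hsc he Fin.divNat (fun t => (seq t).toR) (Crest.Agent.R62.ginv_divNat n d)
    (by simp only [h0]; exact Crest.Agent.R62.st0_toR n d _) (fun t => (hnext t).toR)
  have hG' : (seq (n * d)).toR.G = GraphCode.adjGraph n (F (GraphCode.unary n)) := hG.symm
  simp only [hG'] at key
  obtain ⟨k1, k2⟩ := key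
  refine ⟨fun v => ?_, fun x hx hx0 => ?_⟩
  · have := k1 v
    rw [← this, Crest.Agent.R62.dg, SimpleGraph.degree, SimpleGraph.neighborFinset_eq_filter]
  · have := k2 x hx hx0
    convert this using 2
    simp only [Crest.Agent.R62.aq, dotProduct, Matrix.mulVec, SimpleGraph.adjMatrix_apply, Finset.mul_sum]
    refine Finset.sum_congr rfl fun u _ => Finset.sum_congr rfl fun v _ => ?_
    split_ifs <;> simp

end Crest.Agent.S0084
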