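import Crest.Statements.S0085
import Crest.Agent.R63.Gain

set_option autoImplicit false
open Crest Crest.CombinatoricsR

namespace Crest.Agent.S0085

/-- For every real C > 0 there are a natural number n, a Boolean function f on the n-dimensional Boolean cube and a natural number d such that: f is non-constant; every Fourier–Walsh coefficient of f (values and inputs read as signs +1 for true and -1 for false, averaged over the uniform cube) indexed by a set of more than d coordinates vanishes, so f has degree at most d; and the sum of the n singleton Fourier–Walsh coefficients of f exceeds C times the square root of d. -/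
theorem result (C : ℝ) (hC : 0 < C) :
    ∃ n : ℕ, ∃ f : (Fin n → Bool) → Bool, ∃ d : ℕ,
      (∃ x y, f x ≠ f y) ∧
      (∀ S : Finset (Fin n), d < S.card →
        ∑ x : Fin n → Bool, ((if f x then (1 : ℝ) else -1) * ∏ i ∈ S, (if x i then (1 : ℝ) else -1)) = 0) ∧
      C * Real.sqrt d <
        ∑ i : Fin n, (∑ x : Fin n → Bool, ((if f x then (1 : ℝ) else -1) * (if x i then (1 : ℝ) else -1))) / 2 ^ n := by
  classical
  obtain ⟨ι, K, _, _, G, v, d, hG, hd, hv, hv4, -⟩ :=
    (R63.good_all (4 * C ^ 2 + 1)).nice (by positivity)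
  have hdr : (1 : ℝ) ≤ d := by exact_mod_cast hd
  have hσ2 : 0 < R63.E (fun x => v (G x) ^ 2) := lt_of_lt_of_le (by positivity) hv
  set σ := Real.sqrt (R63.E (fun x => v (G x) ^ 2)) with hσ
  have hσ0 : 0 < σ := Real.sqrt_pos.mpr hσ2
  have h2 : R63.E (fun x => v (G x) ^ 2) = σ ^ 2 := (Real.sq_sqrt hσ2.le).symm
  have h4 : R63.E (fun x => v (G x) ^ 4) ≤ 4 * σ ^ 4 := by
    rw [h2] at hv4
    calc _ ≤ _ := hv4
      _ = _ := by ring
  have habs := R63.E_abs_ge (fun x => v (G x)) σ hσ0 h2 h4
  let e : ι ≃ Fin (Fintype.card ι) := Fintype.equivFin ι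
  let φ : K → Bool := fun a => decide (0 ≤ v a)
  let ec : (Fin (Fintype.card ι) → Bool) ≃ (ι → Bool) := Equiv.arrowCongr e.symm (Equiv.refl Bool)
  have hφ : ∀ a, v a * R63.sg (φ a) = |v a| := by
    intro a
    by_cases h : 0 ≤ v a
    · simp [φ, h, R63.sg, abs_of_nonneg h]
    · simp [φ, h, R63.sg, abs_of_neg (not_le.mp h)]
  have hL : R63.E (fun x : Fin (Fintype.card ι) → Bool => R63.Ssum x * R63.sg (φ (G (ec x)))) =
      R63.E (fun x => |v (G x)|) := by
    have h5 : ∀ x, R63.Ssum x = R63.Ssum (ec x) := fun x =>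
      (Equiv.sum_comp e (fun i => R63.sg (x i))).symm
    simp only [h5]
    rw [R63.E_equiv ec (fun y => R63.Ssum y * R63.sg (φ (G y))), hG.mean (fun a => R63.sg (φ a))]
    simp only [hφ]
  have hlt : C * Real.sqrt d < σ / 2 := by
    have h5 : (C * Real.sqrt d) ^ 2 < (σ / 2) ^ 2 := by
      rw [mul_pow, Real.sq_sqrt (by positivity), div_pow, ← h2]
      nlinarith
    exact lt_of_pow_lt_pow_left₀ 2 (by positivity) h5
  refine ⟨Fintype.card ι, fun x => φ (G (ec x)), d, ?_, ?_, ?_⟩
  · by_contra hcon
    push Not at hcon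
    have h5 : ∀ x, R63.sg (φ (G (ec x))) = R63.sg (φ (G (ec fun _ => true))) :=
      fun x => by rw [hcon x (fun _ => true)]
    simp only [h5, R63.E_mul_const, R63.E_Ssum, zero_mul] at hL
    linarith
  · intro S hS
    have h5 := R63.orth_of_mem (R63.reindex_mem e (hG.comp_mem (fun a => R63.sg (φ a)))) S hS
    unfold R63.E at h5
    rcases div_eq_zero_iff.mp h5 with h6 | h6
    · exact h6
    · exact absurd h6 (by positivity)
  · refine lt_of_lt_of_le hlt (habs.trans (hL.symm.le.trans (le_of_eq ?_)))
    unfold R63.E R63.Ssum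
    rw [← Finset.sum_div, Finset.sum_comm]
    simp only [Finset.sum_mul, Fintype.card_fun, Fintype.card_bool, Fintype.card_fin]
    push_cast
    congr 1
    refine Finset.sum_congr rfl fun x _ => Finset.sum_congr rfl fun i _ => ?_
    exact mul_comm _ _

end Crest.Agent.S0085
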