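import Crest.Statements.S0087
import Crest.Agent.R65.Mn.Final
import Crest.Agent.R65.Mn.MB
import Crest.Agent.R65.KL.Flat
import Crest.Agent.R65.KB.Main
import Crest.Agent.R65.D3Final

set_option autoImplicit false
open Crest Crest.CombinatoricsR

namespace Crest.Agent.S0087

/-- For every dimension d ≥ 3 there is a constant c > 0, depending only on d, such that every finite set of n ≥ 2 points in Euclidean d-space determines at least c · n ^ (2 / d) distinct distances between pairs of distinct points of the set. -/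
theorem result (d : ℕ) (hd : 3 ≤ d) :
    ∃ c : ℝ, 0 < c ∧ ∀ P : Finset (EuclideanSpace ℝ (Fin d)), 2 ≤ P.card →
      c * (P.card : ℝ) ^ ((2 : ℝ) / d) ≤
        ({t : ℝ | ∃ p ∈ P, ∃ q ∈ P, p ≠ q ∧ dist p q = t}.ncard : ℝ) := by
  exact R65.Mn.final (fun d _ => R65.KL.flatStmt d) (fun d _ => R65.KB.klStmt d)
    (fun d _ => R65.Mn.mbStmt d) R65.D3.ri d hd

end Crest.Agent.S0087
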