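import Crest.Statements.S0099
import Crest.Agent.R74.Main

set_option autoImplicit false
open Crest Crest.AnalysisR

namespace Crest.Agent.S0099

/-- Let X and Y be nonzero real Banach spaces and let f be a surjective distance-preserving map from the unit sphere of X onto the unit sphere of Y. Then there is a surjective real-linear isometry T from X to Y that agrees with f on the unit sphere, and every real-linear map from X to Y that agrees with f on the unit sphere coincides with T. -/
theorem result
    {X Y : Type*} [NormedAddCommGroup X] [NormedSpace ℝ X] [CompleteSpace X] [Nontrivial X]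
    [NormedAddCommGroup Y] [NormedSpace ℝ Y] [CompleteSpace Y] [Nontrivial Y]
    (f : Metric.sphere (0 : X) 1 → Metric.sphere (0 : Y) 1) (hf₁ : Isometry f)
    (hf₂ : Function.Surjective f) :
    ∃ T : X ≃ₗᵢ[ℝ] Y, (∀ x : Metric.sphere (0 : X) 1, T x = f x) ∧
      ∀ T' : X →ₗ[ℝ] Y, (∀ x : Metric.sphere (0 : X) 1, T' x = f x) → ∀ x : X, T' x = T x := by
  classical
  have H : Crest.Agent.R74.Setup (fun a : Metric.sphere (0 : X) 1 => (a : X))
      (fun a : Metric.sphere (0 : X) 1 => (f a : Y)) :=
    { ni := fun a => by simpa using a.2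
      nj := fun a => by simpa using (f a).2
      iso := fun a b => by
        have := hf₁.dist_eq a b
        rw [Subtype.dist_eq, Subtype.dist_eq, dist_eq_norm, dist_eq_norm] at this
        exact this.symm
      si := fun v hv => ⟨⟨v, by simpa using hv⟩, rfl⟩
      sj := fun v hv => by
        obtain ⟨a, ha⟩ := hf₂ ⟨v, by simpa using hv⟩
        exact ⟨a, by simp [ha]⟩ }
  have hdir : ∀ v : X, ∃ a : Metric.sphere (0 : X) 1, v = ‖v‖ • (a : X) ∧
      (‖v‖ = 1 → (a : X) = v) := by
    intro v
    by_cases hv : v = 0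
    · obtain ⟨w, hw⟩ := exists_norm_eq X (zero_le_one (α := ℝ))
      refine ⟨⟨w, by simpa using hw⟩, by simp [hv], fun h => ?_⟩
      simp [hv] at h
    · have h0 : ‖v‖ ≠ 0 := norm_ne_zero_iff.mpr hv
      refine ⟨⟨‖v‖⁻¹ • v, by simp [norm_smul, h0]⟩, ?_, fun h => by simp [h]⟩
      simp [smul_smul, h0]
  choose d hd hd1 using hdir
  set F : X → Y := fun v => ‖v‖ • (f (d v) : Y) with hF
  have hFiso : Isometry F := by
    apply Isometry.of_dist_eq
    intro v w
    rw [dist_eq_norm, dist_eq_norm]
    have := Crest.Agent.R74.scaled H (d v) (d w) (norm_nonneg v) (norm_nonneg w)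
    rw [hF]
    simp only
    rw [this, ← hd v, ← hd w]
  have hFs : ∀ (r : ℝ) (a : Metric.sphere (0 : X) 1), 0 ≤ r → F (r • (a : X)) = r • (f a : Y) := by
    intro r a hr
    have hn : ‖r • (a : X)‖ = r := by
      rw [norm_smul, H.ni a, mul_one, Real.norm_eq_abs, abs_of_nonneg hr]
    have := Crest.Agent.R74.scaled H (d (r • (a : X))) a (norm_nonneg (r • (a : X))) hr
    rw [← hd (r • (a : X)), sub_self, norm_zero, norm_eq_zero, sub_eq_zero] at this
    exact this
  have hFsurj : Function.Surjective F := by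
    intro y
    by_cases hy : y = 0
    · exact ⟨0, by simp [hF, hy]⟩
    · have h0 : ‖y‖ ≠ 0 := norm_ne_zero_iff.mpr hy
      obtain ⟨a, ha⟩ := H.sj (‖y‖⁻¹ • y) (by simp [norm_smul, h0])
      refine ⟨‖y‖ • (a : X), ?_⟩
      rw [hFs _ _ (norm_nonneg y)]
      rw [ha, smul_smul, mul_inv_cancel₀ h0, one_smul]
  let E : X ≃ᵢ Y := ⟨Equiv.ofBijective F ⟨hFiso.injective, hFsurj⟩, hFiso⟩
  have hE0 : E 0 = 0 := by
    change F 0 = 0
    simp [hF]
  have hT : ∀ x : Metric.sphere (0 : X) 1,
      E.toRealLinearIsometryEquivOfMapZero hE0 x = f x := by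
    intro x
    change F x = f x
    simpa using hFs 1 x zero_le_one
  refine ⟨E.toRealLinearIsometryEquivOfMapZero hE0, hT, fun T' hT' x => ?_⟩
  rw [hd x, map_smul, map_smul, hT', hT]

end Crest.Agent.S0099
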