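import Crest.Statements.S0100
import Crest.Agent.R75.Flat
import Crest.Agent.R75.Rounding

set_option autoImplicit false
open Crest Crest.AnalysisR

namespace Crest.Agent.S0100

/-- For every real `ε` with `0 < ε < 1` there is a threshold `N₀` such that for every integer `N ≥ N₀` one can choose signs `c 0, …, c (N-1)` in `{-1, 1}` so that the polynomial `∑ k, c k * z ^ k` has modulus between `(1 - ε) * √N` and `(1 + ε) * √N` at every complex number `z` of modulus one. -/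
theorem result (ε : ℝ) (hε : 0 < ε)
    (hε₁ : ε < 1) :
    ∃ N₀ : ℕ, ∀ N ≥ N₀, ∃ c : Fin N → ℤˣ, ∀ z : ℂ, ‖z‖ = 1 →
      (1 - ε) * Real.sqrt N ≤ ‖∑ k : Fin N, ((c k : ℤ) : ℂ) * z ^ (k : ℕ)‖ ∧
        ‖∑ k : Fin N, ((c k : ℤ) : ℂ) * z ^ (k : ℕ)‖ ≤ (1 + ε) * Real.sqrt N := by
  obtain ⟨δ, hδ, hround⟩ := R75.rounding (ε / 2) (by positivity)
  set e : ℝ := min (ε / 4) (δ / 4) with he
  have he0 : 0 < e := by positivity
  have he1 : e ≤ ε / 4 := min_le_left _ _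
  have he2 : e ≤ δ / 4 := min_le_right _ _
  obtain ⟨N0, hN0⟩ := R75.flat_real e he0 (by linarith)
  refine ⟨max N0 1, fun N hN => ?_⟩
  obtain ⟨a, ha1, ha2⟩ := hN0 N (le_trans (le_max_left _ _) hN)
  have hNpos : 0 < N := lt_of_lt_of_le one_pos (le_trans (le_max_right _ _) hN)
  have hNr : (0 : ℝ) < N := by exact_mod_cast hNpos
  have hs : 0 < Real.sqrt N := Real.sqrt_pos.2 hNr
  have h1e : 0 < 1 + e := by linarith
  set b : Fin N → ℝ := fun k => a k / (1 + e) with hb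
  have hb1 : ∀ k, |b k| ≤ 1 := fun k => by
    rw [hb, abs_div, abs_of_pos h1e, div_le_one h1e]; exact ha1 k
  have hb2 : ∀ z : ℂ, ‖z‖ = 1 →
      (1 - 2 * e) * Real.sqrt N ≤ ‖∑ k : Fin N, (b k : ℂ) * z ^ (k : ℕ)‖ ∧
        ‖∑ k : Fin N, (b k : ℂ) * z ^ (k : ℕ)‖ ≤ Real.sqrt N := by
    intro z hz
    have e1 : ‖∑ k : Fin N, (b k : ℂ) * z ^ (k : ℕ)‖ =
        ‖∑ k : Fin N, (a k : ℂ) * z ^ (k : ℕ)‖ / (1 + e) := by
      have : ∑ k : Fin N, (b k : ℂ) * z ^ (k : ℕ) =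
          (∑ k : Fin N, (a k : ℂ) * z ^ (k : ℕ)) / ((1 + e : ℝ) : ℂ) := by
        rw [Finset.sum_div]
        refine Finset.sum_congr rfl fun k _ => ?_
        simp only [hb]; push_cast; ring
      rw [this, norm_div, Complex.norm_real, Real.norm_of_nonneg h1e.le]
    obtain ⟨h1, h2⟩ := abs_le.1 (ha2 z hz)
    rw [e1, le_div_iff₀ h1e, div_le_iff₀ h1e]
    constructor
    · nlinarith [mul_pos (mul_pos he0 he0) hs]
    · linarith
  have hsq := R75.sum_sq_ge N b ((1 - 2 * e) * Real.sqrt N)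
    (mul_nonneg (by linarith) hs.le) (fun z hz => (hb2 z hz).1) hNpos
  rw [mul_pow, Real.sq_sqrt hNr.le] at hsq
  obtain ⟨c, hc⟩ := hround N b hb1 (by
    rw [Finset.sum_sub_distrib]
    simp only [Finset.sum_const, Finset.card_univ, Fintype.card_fin, nsmul_eq_mul, mul_one]
    nlinarith [mul_pos (mul_pos he0 he0) hNr, mul_le_mul_of_nonneg_right he2 hNr.le])
  refine ⟨c, fun z hz => ?_⟩
  have h1 := hc z hz
  obtain ⟨h2, h3⟩ := hb2 z hz
  have e1 : ∑ k : Fin N, (((c k : ℤ) : ℂ) - (b k : ℂ)) * z ^ (k : ℕ) =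
      ∑ k : Fin N, ((c k : ℤ) : ℂ) * z ^ (k : ℕ) - ∑ k : Fin N, (b k : ℂ) * z ^ (k : ℕ) := by
    rw [← Finset.sum_sub_distrib]; exact Finset.sum_congr rfl fun k _ => by ring
  rw [e1] at h1
  obtain ⟨h4, h5⟩ := abs_le.1 ((abs_norm_sub_norm_le _ _).trans h1)
  have h6 := mul_le_mul_of_nonneg_right he1 hs.le
  have h7 := mul_pos hε hs
  constructor <;> linarith

end Crest.Agent.S0100
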