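import Crest.Statements.S0102
import Crest.Agent.R77.Final
import Crest.Agent.R77.ToSys
import Crest.Agent.R77.Kernel

set_option autoImplicit false
open Laplacian InnerProductSpace
open Crest Crest.AnalysisR Crest.AnalysisR.PDE

namespace Crest.Agent.S0102

/-- Let n ≥ 2, p, q > 0 and A, B be real with (n + A)/(p + 1) + (n + B)/(q + 1) > n - 2. Then there is no pair of everywhere-positive continuous functions u, v on ℝⁿ, twice continuously differentiable away from the origin, with -Δu(x) = ‖x‖^A v(x)^p and -Δv(x) = ‖x‖^B u(x)^q at every x ≠ 0. -/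
theorem result
    (n : ℕ) (hn : 2 ≤ n) (p q A B : ℝ) (hp : 0 < p) (hq : 0 < q)
    (hsub : (n : ℝ) - 2 < ((n : ℝ) + A) / (p + 1) + ((n : ℝ) + B) / (q + 1)) :
    ¬ ∃ u v : EuclideanSpace ℝ (Fin n) → ℝ,
        Continuous u ∧ Continuous v ∧
        ContDiffOn ℝ 2 u {0}ᶜ ∧ ContDiffOn ℝ 2 v {0}ᶜ ∧
        (∀ x, 0 < u x) ∧ (∀ x, 0 < v x) ∧
        ∀ x, x ≠ 0 →
          -(Δ u) x = ‖x‖ ^ A * v x ^ p ∧ -(Δ v) x = ‖x‖ ^ B * u x ^ q := by
  rintro ⟨u, v, hu, hv, hu2, hv2, hu0, hv0, heq⟩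
  rcases hn.eq_or_lt with rfl | hn3
  · have hm : Measurable fun x : EuclideanSpace ℝ (Fin 2) => ‖x‖ ^ A * v x ^ p := by
      have := hv.measurable
      fun_prop
    have h0 := R77.rep_two hu hu2 (fun x => (hu0 x).le) hm
      (fun x => mul_nonneg (Real.rpow_nonneg (norm_nonneg _) _) (Real.rpow_nonneg (hv0 x).le _))
      fun x hx => (heq x hx).1
    rw [MeasureTheory.lintegral_eq_zero_iff hm.ennreal_ofReal] at h0
    have h1 : ∀ᵐ x : EuclideanSpace ℝ (Fin 2), x ≠ 0 :=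
      MeasureTheory.Measure.ae_ne MeasureTheory.volume 0
    obtain ⟨x, hx, hx0⟩ := (h0.and h1).exists
    have : 0 < ‖x‖ ^ A * v x ^ p :=
      mul_pos (Real.rpow_pos_of_pos (norm_pos_iff.2 hx0) _) (Real.rpow_pos_of_pos (hv0 x) _)
    exact absurd (ENNReal.ofReal_eq_zero.1 hx) (not_le.2 this)
  · obtain ⟨C, hK⟩ := R77.ker_sph (n := n) hn3
    obtain ⟨κ, U, V, hS⟩ := R77.exists_sys (n := n) hn3 hp hq hu hv hu2 hv2 hu0 hv0 heq
    have : Nontrivial (EuclideanSpace ℝ (Fin n)) := by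
      have : Nonempty (Fin n) := ⟨⟨0, by omega⟩⟩
      infer_instance
    refine hS.false hK (MeasureTheory.Measure.toSphere_ne_zero _) ?_
    have e : ∀ D r : ℝ, 0 < r → (((n : ℝ) - 2) / 2 + 2 + D - r * (((n : ℝ) - 2) / 2)) / (r + 1) =
        ((n : ℝ) + D) / (r + 1) - ((n : ℝ) - 2) / 2 := fun D r hr => by
      field_simp
      ring
    rw [e B q hq, e A p hp]
    linarith

end Crest.Agent.S0102
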