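import Crest.Statements.S0104
import Crest.Agent.R78.Near

set_option autoImplicit false
open Crest Crest.AnalysisR Crest.AnalysisR.OperatorAlgebra

namespace Crest.Agent.S0104

/-- There is ε₀ > 0 such that for every δ > 0 some separable complex Hilbert space H carries von Neumann algebras M and N with the following two properties: every element of M of norm at most 1 lies within operator-norm distance less than δ of some element of N; and every unitary operator u on H with u M u⋆ ⊆ N satisfies ‖u − 1‖ ≥ ε₀. -/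
theorem result :
    ∃ ε₀ : ℝ, 0 < ε₀ ∧ ∀ δ : ℝ, 0 < δ →
      ∃ (H : Type) (_ : NormedAddCommGroup H) (_ : InnerProductSpace ℂ H) (_ : CompleteSpace H)
        (_ : TopologicalSpace.SeparableSpace H) (M N : VonNeumannAlgebra H),
        (∀ x ∈ M, ‖x‖ ≤ 1 → ∃ y ∈ N, ‖x - y‖ < δ) ∧
        ∀ u : H →L[ℂ] H, u ∈ unitary (H →L[ℂ] H) →
          (∀ x ∈ M, u * x * star u ∈ N) → ε₀ ≤ ‖u - 1‖ := by
  refine ⟨1 / 10000, by norm_num, fun δ hδ => ?_⟩
  obtain ⟨m, hm⟩ := exists_nat_gt (max 10000 (5 / δ))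
  have hm1 : (10000 : ℝ) < m := (le_max_left _ _).trans_lt hm
  have hm2 : 5 / δ < m := (le_max_right _ _).trans_lt hm
  have hm0 : (0 : ℝ) < m := by linarith
  obtain ⟨H, i1, i2, i3, i4, M, N, h1, h2⟩ := R78.near_inclusion m hm1.le
  refine ⟨H, i1, i2, i3, i4, M, N, fun x hx nx => ?_, h2⟩
  obtain ⟨y, hy, h⟩ := h1 x hx nx
  refine ⟨y, hy, h.trans_lt ?_⟩
  rw [div_lt_iff₀ hδ] at hm2
  rw [mul_one_div, div_lt_iff₀ hm0]
  linarith

end Crest.Agent.S0104
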