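import Crest.Statements.S0105
import Crest.Agent.R78.Chain

set_option autoImplicit false
open Crest Crest.AnalysisR Crest.AnalysisR.OperatorAlgebra

namespace Crest.Agent.S0105

/-- For every ε > 0 some separable complex Hilbert space H carries two norm-closed, norm-separable unital ⋆-subalgebras A and B of its bounded operators such that every element of norm at most 1 of either lies within distance less than ε of an element of norm at most 1 of the other, A and B have the same double commutant, and no unitary operator u on H satisfies u A u⋆ = B. -/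
theorem result (ε : ℝ) (hε : 0 < ε) :
    ∃ (H : Type) (_ : NormedAddCommGroup H) (_ : InnerProductSpace ℂ H) (_ : CompleteSpace H)
      (_ : TopologicalSpace.SeparableSpace H) (A B : StarSubalgebra ℂ (H →L[ℂ] H)),
      IsClosed (A : Set (H →L[ℂ] H)) ∧ IsClosed (B : Set (H →L[ℂ] H)) ∧
      TopologicalSpace.IsSeparable (A : Set (H →L[ℂ] H)) ∧
      TopologicalSpace.IsSeparable (B : Set (H →L[ℂ] H)) ∧
      (∀ a ∈ A, ‖a‖ ≤ 1 → ∃ b ∈ B, ‖b‖ ≤ 1 ∧ ‖a - b‖ < ε) ∧
      (∀ b ∈ B, ‖b‖ ≤ 1 → ∃ a ∈ A, ‖a‖ ≤ 1 ∧ ‖b - a‖ < ε) ∧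
      Set.centralizer (Set.centralizer (A : Set (H →L[ℂ] H))) =
        Set.centralizer (Set.centralizer (B : Set (H →L[ℂ] H))) ∧
      ¬ ∃ u : H →L[ℂ] H, u ∈ unitary (H →L[ℂ] H) ∧
          ∀ y : H →L[ℂ] H, y ∈ B ↔ ∃ x ∈ A, y = u * x * star u := by
  obtain ⟨n, hn⟩ := exists_nat_gt (16 / ε)
  have hn0 : (0 : ℝ) < n := lt_trans (by positivity) hn
  obtain ⟨F, _, _, _, H, i1, i2, i3, i4, S, W, h, hM, hW, hc⟩ :=
    R78.exists_chain n (by exact_mod_cast hn0)
  by_contra hne
  have hε' : ∀ i, 4 * ‖W i - W (i + 1)‖ < ε := fun i => by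
    have := hW i
    rw [div_lt_iff₀ hε] at hn
    rw [le_div_iff₀ hn0] at this
    nlinarith [norm_nonneg (W i - W (i + 1))]
  have step : ∀ i, ∃ u : H →L[ℂ] H, u ∈ unitary (H →L[ℂ] H) ∧
      ∀ y : H →L[ℂ] H, y ∈ (h i).alg ↔ ∃ x ∈ (h (i + 1)).alg, y = u * x * star u := by
    intro i
    by_contra hu
    exact hne ⟨H, i1, i2, i3, i4, (h (i + 1)).alg, (h i).alg, (h _).closed, (h _).closed,
      hM.mono fun m hm => hm.1, hM.mono fun m hm => hm.1,
      (h _).close (h _) (by rw [norm_sub_rev]; exact hε' i), (h _).close (h _) (hε' i),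
      by rw [((h (i + 1)).cent_le (h i)).antisymm ((h i).cent_le (h (i + 1)))], hu⟩
  have all : ∀ i, ∃ u : H →L[ℂ] H, star u * u = 1 ∧ u * star u = 1 ∧
      (∀ m ∈ (h i).alg, u * m * star u ∈ (h 0).alg) ∧
      ∀ m ∈ (h 0).alg, star u * m * u ∈ (h i).alg := by
    intro i
    induction i with
    | zero => exact ⟨1, by simp, by simp, by simp, by simp⟩
    | succ i ih =>
      obtain ⟨u, h1, h2, h3, h4⟩ := ih
      obtain ⟨v, ⟨g1, g2⟩, g3⟩ := step i
      refine ⟨u * v, ?_, ?_, fun m hm => ?_, fun m hm => ?_⟩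
      · rw [star_mul, mul_assoc, ← mul_assoc (star u), h1, one_mul, g1]
      · rw [star_mul, mul_assoc, ← mul_assoc v, g2, one_mul, h2]
      · simpa only [star_mul, mul_assoc] using h3 _ ((g3 _).2 ⟨m, hm, rfl⟩)
      · obtain ⟨x, hx, e⟩ := (g3 _).1 (h4 m hm)
        have : star (u * v) * m * (u * v) = x := by
          rw [star_mul]
          linear_combination (norm := noncomm_ring) star v * e * v + g1 * x * star v * v + x * g1
        rwa [this]
  obtain ⟨u, h1, h2, h3, h4⟩ := all n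
  exact hc u h1 h2 h3 h4

end Crest.Agent.S0105
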