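import Crest.Statements.S0108
import Crest.Agent.R81.Core
import Crest.Agent.R81.DesFlat
import Crest.Agent.R81.DesGood
import Crest.Agent.R81.Circle
import Crest.Agent.R81.KA
import Crest.Agent.R81.Shear
import Crest.Agent.R81.SL
import Crest.Agent.R81.Lim
import Crest.Agent.R81.Torus
import Crest.Agent.R81.Fin
import Crest.Agent.R81.Gen
import Crest.Agent.R81.Step
import Crest.Agent.R81.Prep
import Crest.Agent.R81.Cap
import Crest.Agent.R81.Seq

set_option autoImplicit false
open Crest.AnalysisR.Torus3
open Crest Crest.AnalysisR Crest.AnalysisR.Torus3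

namespace Crest.Agent.S0108

/-- There are a volume-preserving smooth diffeomorphism `T` of the three-torus `(ℝ/ℤ)³` (normalised Haar measure) and a real square-integrable function `g` of mean zero whose two-sided orbit `g ∘ Tⁿ`, `n ∈ ℤ`, is an orthonormal basis of the complex mean-zero square-integrable functions: the functions `g ∘ Tⁿ` are orthonormal, and a complex square-integrable function of mean zero that is orthogonal to all of them vanishes almost everywhere. -/
theorem result :
    ∃ (T : Equiv.Perm T3) (g : T3 → ℝ), IsSmoothDiffeo T ∧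
      MeasureTheory.MeasurePreserving T MeasureTheory.volume MeasureTheory.volume ∧
      MeasureTheory.MemLp g 2 MeasureTheory.volume ∧ ∫ x, g x = 0 ∧
      (∀ m n : ℤ, ∫ x, g ((T ^ m) x) * g ((T ^ n) x) = if m = n then 1 else 0) ∧
      (∀ h : T3 → ℂ, MeasureTheory.MemLp h 2 MeasureTheory.volume → ∫ x, h x = 0 →
        (∀ n : ℤ, ∫ x, h x * (g ((T ^ n) x) : ℂ) = 0) → h =ᵐ[MeasureTheory.volume] 0) := by
  have hD := R81.design R81.desFlat
  have hCore := R81.core (R81.ka R81.count) R81.count R81.sepSum R81.orth R81.trans
  have hStep := R81.step hCore hD R81.profile R81.shear R81.sl R81.free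
  obtain ⟨S, C, hS⟩ := R81.seq (R81.prep hStep R81.upd R81.gen R81.dens)
    (R81.cap hStep R81.upd R81.orth R81.orthStar R81.sepSum R81.bump)
    (R81.initState hD R81.profile hStep R81.upd)
  exact R81.fin R81.lim R81.sepSum R81.rie R81.orth R81.orthStar S C hS

end Crest.Agent.S0108
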