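import Crest.Statements.S0112
import Crest.Agent.R84.Greedy

set_option autoImplicit false
open Crest Crest.AnalysisR Crest.AnalysisR.OperatorAlgebra

namespace Crest.Agent.S0112

open Crest.Agent.R84

/-- Bounded recovery. Let S be modular data on H (algebra M, cyclic separating unit vector ξ, D = log of the modular operator) with ergodic state, ω a free ultrafilter on ℕ, T a bounded operator, δₙ → 0 positive, hₙ unit vectors with D-spectral support in [s − δₙ, s + δₙ]. If some c > 0 bounds the ω-mean over t of ‖T exp(itD) hₙ‖² from below infinitely often, along a subsequence n_j there are v_j ∈ M, C and η > 0 with ‖v_j‖ ≤ C, ‖T (v_j ξ)‖ ≥ η, v_j ξ supported in [s − 4δ_{n_j}, s + 4δ_{n_j}]. -/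
theorem result
    {H : Type*} [NormedAddCommGroup H] [InnerProductSpace ℂ H] [CompleteSpace H]
    (S : Crest.OpAlg.ModularDatum H) (herg : S.Ergodic)
    (ω : Ultrafilter ℕ) (hω : (ω : Filter ℕ) ≤ Filter.atTop)
    (T : H →L[ℂ] H) (s : ℝ) (δ : ℕ → ℝ) (hδ : ∀ n, 0 < δ n)
    (hδ0 : Filter.Tendsto δ Filter.atTop (nhds 0))
    (h : ℕ → H) (hh : ∀ n, ‖h n‖ = 1)
    (hband : ∀ n, S.D.SupportedIn (Set.Icc (s - δ n) (s + δ n)) (h n))
    (hpos : ∃ c : ℝ, 0 < c ∧ ∃ᶠ n in Filter.atTop,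
      c ≤ Crest.OpAlg.ultraMean ω (fun t : ℝ => ‖T (S.D.wave t (h n))‖ ^ 2)) :
    ∃ (n' : ℕ → ℕ) (v : ℕ → (H →L[ℂ] H)) (C η : ℝ), StrictMono n' ∧ 0 < η ∧
      ∀ j : ℕ, v j ∈ S.M ∧ ‖v j‖ ≤ C ∧ η ≤ ‖T (v j S.vac)‖ ∧
        S.D.SupportedIn (Set.Icc (s - 4 * δ (n' j)) (s + 4 * δ (n' j))) (v j S.vac) := by
  obtain ⟨c, hc, hfreq⟩ := hpos
  have hev : ∀ᶠ n in Filter.atTop, δ n ≤ 1 := hδ0.eventually (ge_mem_nhds one_pos)
  obtain ⟨n', hn', hn'P⟩ := Filter.extraction_of_frequently_atTop (hfreq.and_eventually hev)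
  obtain ⟨C₀, hC₀, hsm⟩ := exists_smooth (H := H)
  set L := ‖T‖ * C₀ with hL
  have hL0 : 0 ≤ L := by positivity
  set l := c / (8 * (32 + 16 * (Real.exp ((s + 1) / 2) + 1) ^ 2)) with hl
  have hl0 : 0 < l := by positivity
  set R := 4 * L / Real.sqrt l + 1 with hR
  have hR0 : 0 < R := by positivity
  have key : ∀ j : ℕ, ∃ v : H →L[ℂ] H, v ∈ S.M ∧ ‖v‖ ≤ C₀ * R ∧
      Real.sqrt (c / 2) / 2 ≤ ‖T (v S.vac)‖ ∧
      S.D.SupportedIn (Set.Icc (s - 4 * δ (n' j)) (s + 4 * δ (n' j))) (v S.vac) := by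
    intro j
    obtain ⟨y, hy, w, hw, hyw⟩ := exists_khintchine S herg ω hω T (hn'P j).2 (hband (n' j))
      (hh (n' j)) hc (hn'P j).1 (μ := 16 * L ^ 2) (by positivity)
    rw [← hl] at hyw
    obtain ⟨v, hv, hvn, hvy⟩ := exists_trunc S.M hy hR0 S.vac
    obtain ⟨v', hv', hv'n, hv's, hv'w⟩ := hsm S s (δ (n' j)) (hδ _) v hv
    refine ⟨v', hv', hv'n.trans (by gcongr), ?_, hv's⟩
    set A := ‖T w‖ with hA
    set B := ‖(star y * y) S.vac‖ with hB
    set Γ := ‖y S.vac - w‖ with hΓ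
    have hA0 : 0 ≤ A := norm_nonneg _
    have hB0 : 0 ≤ B := norm_nonneg _
    have hΓ0 : 0 ≤ Γ := norm_nonneg _
    have t1 : 0 ≤ 16 * L ^ 2 * Γ ^ 2 := by positivity
    have t2 : 0 ≤ l * B ^ 2 := by positivity
    have h1 : Real.sqrt (c / 2) ≤ A := Real.sqrt_le_iff.2 ⟨hA0, by linarith⟩
    have h2 : 4 * L * Γ ≤ A := by
      apply le_of_sq_le_sq _ hA0
      nlinarith
    have h3 : Real.sqrt l * B ≤ A := by
      apply le_of_sq_le_sq _ hA0
      rw [mul_pow, Real.sq_sqrt hl0.le]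
      linarith
    have hsl : 0 < Real.sqrt l := Real.sqrt_pos.2 hl0
    have h4 : 4 * L * (B / R) ≤ A := by
      refine le_trans ?_ h3
      have : 4 * L ≤ Real.sqrt l * R := by
        rw [hR, mul_add, mul_div_cancel₀ _ hsl.ne']
        linarith
      calc 4 * L * (B / R) ≤ (Real.sqrt l * R) * (B / R) := by gcongr
        _ = _ := by field_simp
    have h5 : ‖v S.vac - w‖ ≤ B / R + Γ := by
      calc ‖v S.vac - w‖ = ‖(v S.vac - y S.vac) + (y S.vac - w)‖ := by congr 1; abel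
        _ ≤ _ := (norm_add_le _ _).trans (by gcongr)
    have h6 : ‖T (v' S.vac) - T w‖ ≤ L * (B / R + Γ) := by
      rw [← map_sub]
      refine (T.le_opNorm _).trans ?_
      rw [hL, mul_assoc]
      gcongr
      exact (hv'w w hw).trans (by gcongr)
    have h7 : A ≤ ‖T (v' S.vac)‖ + ‖T (v' S.vac) - T w‖ := by
      have := norm_sub_le (T (v' S.vac)) (T (v' S.vac) - T w)
      rwa [sub_sub_cancel] at this
    linarith
  choose v hv using key
  exact ⟨n', v, C₀ * R, Real.sqrt (c / 2) / 2, hn', by positivity, hv⟩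

end Crest.Agent.S0112
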