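import Crest.Statements.S0124
import Crest.Agent.R94.Core
import Crest.Agent.R94.Extension
import Crest.Agent.R94.Cones

set_option autoImplicit false
open scoped Gradient
open Crest Crest.AnalysisR Crest.AnalysisR.PDE

namespace Crest.Agent.S0124

/-- For every dimension d ≥ 3 there are an exponent α with 0 < α ≤ 1/3 and a constant C, both depending only on d, such that every function u that is infinity-harmonic in the viscosity sense on the open unit ball of ℝᵈ and has oscillation at most M there (u x - u y ≤ M for all x, y in the ball) is differentiable at every point of the concentric open ball of radius 1/2, with ‖∇u(x)‖ ≤ C·M and ‖∇u(x) - ∇u(y)‖ ≤ C·M·‖x - y‖^α for all x, y in that smaller ball. -/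
theorem result
    (d : ℕ) (hd : 3 ≤ d) :
    ∃ α : ℝ, 0 < α ∧ α ≤ 1 / 3 ∧ ∃ C : ℝ,
      ∀ u : EuclideanSpace ℝ (Fin d) → ℝ,
        Crest.AnalysisR.PDE.IsInfinityHarmonicOn u (Metric.ball 0 1) →
        ∀ M : ℝ, (∀ x ∈ Metric.ball (0 : EuclideanSpace ℝ (Fin d)) 1,
            ∀ y ∈ Metric.ball (0 : EuclideanSpace ℝ (Fin d)) 1, u x - u y ≤ M) →
          (∀ x ∈ Metric.ball (0 : EuclideanSpace ℝ (Fin d)) 2⁻¹, DifferentiableAt ℝ u x) ∧
          ∀ x ∈ Metric.ball (0 : EuclideanSpace ℝ (Fin d)) 2⁻¹,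
            ∀ y ∈ Metric.ball (0 : EuclideanSpace ℝ (Fin d)) 2⁻¹,
              ‖∇ u x‖ ≤ C * M ∧ ‖∇ u x - ∇ u y‖ ≤ C * M * ‖x - y‖ ^ α := by
  obtain ⟨α, C, hα, hα3, hcore⟩ := Crest.Agent.R94.core (E := EuclideanSpace ℝ (Fin d))
  refine ⟨α, hα, hα3, 20 * C, fun u hu M hM => ?_⟩
  have hM0 : 0 ≤ M := by simpa using hM 0 (by simp) 0 (by simp)
  have hsub : ∀ x ∈ Metric.ball (0 : EuclideanSpace ℝ (Fin d)) 2⁻¹,
      ∀ᶠ w in nhds x, ‖w‖ ≤ 9 / 10 := by
    intro x hx
    filter_upwards [Metric.isOpen_ball.mem_nhds hx] with w hw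
    have : ‖w‖ < 2⁻¹ := by simpa using hw
    linarith
  rcases hM0.eq_or_lt with rfl | hMpos
  · have hconst : ∀ x ∈ Metric.ball (0 : EuclideanSpace ℝ (Fin d)) 2⁻¹,
        u =ᶠ[nhds x] fun _ => u 0 := by
      intro x hx
      filter_upwards [hsub x hx] with w hw
      have hw1 : w ∈ Metric.ball (0 : EuclideanSpace ℝ (Fin d)) 1 := by
        simp only [mem_ball_zero_iff]; linarith
      have h1 := hM w hw1 0 (by simp)
      have h2 := hM 0 (by simp) w hw1
      linarith
    have hgrad : ∀ x ∈ Metric.ball (0 : EuclideanSpace ℝ (Fin d)) 2⁻¹, ∇ u x = 0 := by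
      intro x hx
      rw [(hconst x hx).gradient_eq]
      simp
    refine ⟨fun x hx => (differentiableAt_const (u 0)).congr_of_eventuallyEq (hconst x hx), ?_⟩
    intro x hx y hy
    simp [hgrad x hx, hgrad y hy]
  · obtain ⟨v, hv, hHL, huv⟩ := Crest.Agent.R94.exists_extension hMpos hM
      (fun x r₀ hx => Crest.Agent.R94.cca_of_isInfinityHarmonicOn hu x r₀ hx)
      (fun x r₀ hx => Crest.Agent.R94.cca_of_isInfinityHarmonicOn
        (Crest.Agent.R94.isInfinityHarmonicOn_neg hu) x r₀ hx)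
    obtain ⟨hdiff, hest⟩ := hcore v hv hHL
    have heq : ∀ x ∈ Metric.ball (0 : EuclideanSpace ℝ (Fin d)) 2⁻¹,
        u =ᶠ[nhds x] fun w => 20 * M * v w := by
      intro x hx
      filter_upwards [hsub x hx] with w hw using huv w hw
    have hgrad : ∀ x ∈ Metric.ball (0 : EuclideanSpace ℝ (Fin d)) 2⁻¹,
        ∇ u x = (20 * M) • ∇ v x := by
      intro x hx
      rw [(heq x hx).gradient_eq]
      have h1 : HasFDerivAt (fun w => 20 * M * v w) ((20 * M) • fderiv ℝ v x) x :=
        (hdiff x hx).hasFDerivAt.const_mul (20 * M)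
      simp only [gradient, h1.fderiv, map_smul]
    refine ⟨fun x hx => ((hdiff x hx).const_mul (20 * M)).congr_of_eventuallyEq (heq x hx), ?_⟩
    intro x hx y hy
    obtain ⟨h1, h2⟩ := hest x hx y hy
    have h20 : (0 : ℝ) < 20 * M := by positivity
    rw [hgrad x hx, hgrad y hy, ← smul_sub, norm_smul, norm_smul, Real.norm_of_nonneg h20.le]
    constructor
    · calc 20 * M * ‖∇ v x‖ ≤ 20 * M * C := mul_le_mul_of_nonneg_left h1 h20.le
        _ = 20 * C * M := by ring
    · calc 20 * M * ‖∇ v x - ∇ v y‖ ≤ 20 * M * (C * ‖x - y‖ ^ α) :=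
            mul_le_mul_of_nonneg_left h2 h20.le
        _ = 20 * C * M * ‖x - y‖ ^ α := by ring

end Crest.Agent.S0124
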