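import Crest.Statements.S0125
import Crest.Agent.R95.Single
import Crest.Agent.R95.Concrete
import Crest.Agent.Lib.Tracial.Factor

set_option autoImplicit false
open Crest Crest.AnalysisR Crest.AnalysisR.OperatorAlgebra

namespace Crest.Agent.S0125

/-- Let H be a separable complex Hilbert space and M a von Neumann algebra on H that is a factor of type II₁: every element of M commuting with all of M is a scalar, M is infinite-dimensional, and M admits a faithful normal tracial state (presented in vector form). Then M is generated as a von Neumann algebra by one of its elements: some x in M is such that every von Neumann algebra on H containing x contains M. Separability of the predual is modelled by separability of H. -/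
theorem result
    (H : Type*) [NormedAddCommGroup H] [InnerProductSpace ℂ H] [CompleteSpace H]
    [TopologicalSpace.SeparableSpace H] (M : VonNeumannAlgebra H) (hM : Crest.OpAlg.IsTypeIIOneFactor M) :
    ∃ x ∈ M, ∀ N : VonNeumannAlgebra H, x ∈ N → M ≤ N := by
  obtain ⟨hfac, hinf, ξ, hξ⟩ := hM
  obtain ⟨x, hx⟩ := Crest.Agent.R95.exists_single_gen
    (fun σ h1 h2 => Crest.Agent.Lib.Tracial.TrState.cutProp σ h1 h2)
    (Crest.Agent.R95.vnTr M ξ hξ) Crest.Agent.R95.vnTr_faithful Crest.Agent.R95.vnTr_complete
    Crest.Agent.R95.vnTr_separable (by
      intro z _ hz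
      obtain ⟨c, hc⟩ := hfac z z.2 fun y hy => congrArg Subtype.val (hz ⟨y, hy⟩ trivial)
      exact ⟨c, Subtype.ext hc⟩) hinf
  refine ⟨x, x.2, fun N hN => Crest.Agent.R95.le_of_dense2 (ξ := ξ) (hξ := hξ) N ?_⟩
  exact hx (N.toStarSubalgebra.comap M.toStarSubalgebra.subtype)
    ((Crest.Agent.R95.vnClosed N).preimage continuous_subtype_val) hN

end Crest.Agent.S0125
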