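import Crest.Statements.S0126
import Crest.Agent.R95.Generic
import Crest.Agent.R95.Concrete
import Crest.Agent.Lib.Tracial.Factor
import Crest.Agent.Lib.Tracial.Tower

set_option autoImplicit false
open Crest Crest.AnalysisR Crest.AnalysisR.OperatorAlgebra

namespace Crest.Agent.S0126

/-- Let P ≤ M be von Neumann algebras on a separable complex Hilbert space H, both factors of type II₁, with P irreducible in M (an element of M commuting with all of P is a scalar), and let ξ present a faithful normal tracial state of M, with squared trace 2-norm x ↦ ∑ ‖x (ξ n)‖². Then the unitaries u of M such that every von Neumann algebra on H containing P and u contains M form a countable intersection of relatively 2-norm-open subsets of the unitaries of M, 2-norm-dense in the unitaries of M. -/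
theorem result
    (H : Type*) [NormedAddCommGroup H] [InnerProductSpace ℂ H] [CompleteSpace H]
    [TopologicalSpace.SeparableSpace H] (P M : VonNeumannAlgebra H) (hPM : P ≤ M)
    (hP : Crest.OpAlg.IsTypeIIOneFactor P) (hM : Crest.OpAlg.IsTypeIIOneFactor M)
    (hPM' : ∀ x ∈ M, (∀ y ∈ P, x * y = y * x) → ∃ c : ℂ, x = c • (1 : H →L[ℂ] H))
    (ξ : ℕ → H) (hξ : Crest.OpAlg.IsFaithfulTracialVectorState M ξ) :
    (∃ O : ℕ → Set (H →L[ℂ] H),
      (∀ k : ℕ, ∀ u ∈ M, u ∈ unitary (H →L[ℂ] H) → u ∈ O k → ∃ δ : ℝ, 0 < δ ∧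
        ∀ v ∈ M, v ∈ unitary (H →L[ℂ] H) → Crest.OpAlg.traceNormSq ξ (v - u) < δ → v ∈ O k) ∧
      (∀ u ∈ M, u ∈ unitary (H →L[ℂ] H) →
        ((∀ N : VonNeumannAlgebra H, P ≤ N → u ∈ N → M ≤ N) ↔ ∀ k : ℕ, u ∈ O k))) ∧
    (∀ u ∈ M, u ∈ unitary (H →L[ℂ] H) → ∀ ε : ℝ, 0 < ε →
      ∃ v ∈ M, v ∈ unitary (H →L[ℂ] H) ∧ (∀ N : VonNeumannAlgebra H, P ≤ N → v ∈ N → M ≤ N) ∧
        Crest.OpAlg.traceNormSq ξ (v - u) < ε) := by
  let τ := Crest.Agent.R95.vnTr M ξ hξ
  have hF : τ.Faithful := Crest.Agent.R95.vnTr_faithful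
  have hC : τ.Complete := Crest.Agent.R95.vnTr_complete
  have hS : τ.Separable := Crest.Agent.R95.vnTr_separable
  let Q : StarSubalgebra ℂ M.toStarSubalgebra :=
    P.toStarSubalgebra.comap M.toStarSubalgebra.subtype
  have hun : ∀ u : M.toStarSubalgebra, u ∈ unitary M.toStarSubalgebra ↔
      (u : H →L[ℂ] H) ∈ unitary (H →L[ℂ] H) := fun u => by
    rw [Unitary.mem_iff, Unitary.mem_iff, Subtype.ext_iff, Subtype.ext_iff]
    rfl
  have hgen : ∀ u : M.toStarSubalgebra,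
      (∀ N : VonNeumannAlgebra H, P ≤ N → (u : H →L[ℂ] H) ∈ N → M ≤ N) ↔
      τ.Dense2 (StarAlgebra.adjoin ℂ (insert u (Q : Set M.toStarSubalgebra))) := fun u => by
    constructor
    · intro h
      refine Crest.Agent.R95.dense2_of_generates _ fun N hN => h N (fun p hp => ?_) ?_
      · exact hN ⟨p, hPM hp⟩ (StarAlgebra.subset_adjoin ℂ _ (Set.mem_insert_of_mem _ hp))
      · exact hN u (StarAlgebra.subset_adjoin ℂ _ (Set.mem_insert _ _))
    · intro h N hPN huN
      refine Crest.Agent.R95.le_of_dense2 (ξ := ξ) (hξ := hξ) N fun y ε hε => ?_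
      obtain ⟨b, hb, hb'⟩ := h y ε hε
      refine ⟨b, ?_, hb'⟩
      have : StarAlgebra.adjoin ℂ (insert u (Q : Set M.toStarSubalgebra)) ≤
          N.toStarSubalgebra.comap M.toStarSubalgebra.subtype :=
        StarAlgebra.adjoin_le (Set.insert_subset huN fun q hq => hPN hq)
      exact this hb
  have hAG : τ.ApproxGen Q := by
    obtain ⟨s, t, -, hst, hAV⟩ := τ.exists_tower_AV hF hS (τ.cutProp hF hC) Q
      (Crest.Agent.R95.vnTr_wclosed P) (by
        intro z _ hz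
        obtain ⟨c, hc⟩ := hPM' z z.2 fun y hy => congrArg Subtype.val (hz ⟨y, hPM hy⟩ hy)
        exact ⟨c, Subtype.ext hc⟩) (by
        intro h
        apply hP.2.1
        let f : Q →ₗ[ℂ] P.toStarSubalgebra :=
          { toFun := fun q => ⟨(q.1 : H →L[ℂ] H), q.2⟩
            map_add' := fun _ _ => rfl
            map_smul' := fun _ _ => rfl }
        exact Module.Finite.of_surjective f fun p => ⟨⟨⟨p.1, hPM p.2⟩, p.2⟩, rfl⟩)
    refine Crest.Agent.R95.approxGen_of_AV (hAV.mono ?_)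
    refine StarAlgebra.adjoin_le (S := Q) ?_
    rintro _ (⟨j, rfl⟩ | ⟨j, rfl⟩)
    · exact (hst j).1
    · exact (hst j).2
  constructor
  · obtain ⟨O, hO1, hO2, -⟩ := Crest.Agent.R95.exists_open_family τ hS Q
    refine ⟨fun k => Subtype.val '' O k, ?_, ?_⟩
    · rintro k _ _ _ ⟨u, hu, rfl⟩
      obtain ⟨δ, hδ, h⟩ := hO1 k u hu
      refine ⟨δ ^ 2, by positivity, fun v hv hvu hlt => ⟨⟨v, hv⟩, ?_, rfl⟩⟩
      refine h _ ((hun _).mpr hvu) (lt_of_pow_lt_pow_left₀ 2 hδ.le ?_)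
      rw [Crest.Agent.R95.vnTr_n2_sq]
      exact hlt
    · intro u hu _
      rw [hgen ⟨u, hu⟩, hO2]
      refine forall_congr' fun k => ⟨fun h => ⟨_, h, rfl⟩, ?_⟩
      rintro ⟨u', h, rfl⟩
      exact h
  · intro u hu huu ε hε
    obtain ⟨v, hv, h1, h2⟩ := Crest.Agent.R95.generic_gen τ hF hC hS hAG (u := ⟨u, hu⟩)
      ((hun _).mpr huu) (Real.sqrt_pos.mpr hε)
    refine ⟨v, v.2, (hun v).mp hv, (hgen v).mpr h1, ?_⟩
    have h3 := Crest.Agent.R95.vnTr_n2_sq (hξ := hξ) (v - ⟨u, hu⟩)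
    have h4 := pow_lt_pow_left₀ h2 (τ.n2_nonneg _) two_ne_zero
    rw [Real.sq_sqrt hε.le] at h4
    exact h3 ▸ h4

end Crest.Agent.S0126
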