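import Crest.Statements.S0147
import Crest.Agent.R112.Glue
import Crest.Agent.R112.IBP1
import Crest.Agent.R112.IBP2
import Crest.Agent.R112.Step
import Crest.Agent.R112.End
import Crest.Agent.R112.Kink
import Crest.Agent.R112.Strip
import Crest.Agent.R112.ELemma
import Crest.Agent.R112.Deriv
import Crest.Agent.R112.Top
import Crest.Agent.R112.Lat
import Crest.Agent.R112.Shift
import Crest.Agent.R112.Fine
import Crest.Agent.R112.Sub
import Crest.Agent.R112.Rules
import Crest.Agent.R112.Tops
import Crest.Agent.R112.Align
import Crest.Agent.R112.Core0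
import Crest.Agent.R112.Core
import Crest.Agent.R112.Ap1
import Crest.Agent.R112.Ap2
import Crest.Agent.R112.Lsc
import Crest.Agent.R112.Local
import Crest.Agent.R112.Big
import Crest.Agent.R112.Limit
import Crest.Agent.R112.Transfer

set_option autoImplicit false
open Crest Crest.AnalysisR

namespace Crest.Agent.S0147

/-- There is a real constant `C` such that for every real function `f` on the Euclidean plane that is integrable and has an integrable weak gradient `g` (so `f` lies in the inhomogeneous Sobolev space `W^{1,1}`), its centred disc maximal function is finite almost everywhere, its real-valued version `x ↦ (centredMaximalFunction f x).toReal` is locally integrable and admits a weak gradient `G` that is integrable with `∫ ‖G x‖ dx ≤ C * ∫ ‖g x‖ dx`. -/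
theorem result :
    ∃ C : ℝ, ∀ (f : EuclideanSpace ℝ (Fin 2) → ℝ) (g : EuclideanSpace ℝ (Fin 2) → EuclideanSpace ℝ (Fin 2)),
      MeasureTheory.Integrable f → Crest.AnalysisR.IsWeakGradient f g → MeasureTheory.Integrable g →
        (∀ᵐ x ∂(MeasureTheory.volume : MeasureTheory.Measure (EuclideanSpace ℝ (Fin 2))),
            Crest.AnalysisR.centredMaximalFunction f x < ⊤) ∧
        MeasureTheory.LocallyIntegrable (fun x => (Crest.AnalysisR.centredMaximalFunction f x).toReal) ∧
        ∃ G : EuclideanSpace ℝ (Fin 2) → EuclideanSpace ℝ (Fin 2),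
          Crest.AnalysisR.IsWeakGradient (fun x => (Crest.AnalysisR.centredMaximalFunction f x).toReal) G ∧
          MeasureTheory.Integrable G ∧ ∫ x, ‖G x‖ ≤ C * ∫ x, ‖g x‖ := by
  open Crest.Agent.R112 in
  have hcore : CoreStmt :=
    core (core0 (forest rules geom tops align) latt (nodeData latt (fine latt (lemmaP latt)) sub)
      (elemma bal start bound (step ibp1 ibp2) endb kink strip) deriv_usup (top ibp2) tree) shift
  obtain ⟨K, C, hK, hC⟩ := hcore
  obtain ⟨C₁, h₁⟩ := Crest.Agent.R112.localAt Crest.Agent.R112.poincare
    Crest.Agent.R112.deriv_usup K C hK hC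
  obtain ⟨C₂, h₂⟩ := Crest.Agent.R112.bigAt Crest.Agent.R112.usupL1 Crest.Agent.R112.deriv_usup
    Crest.Agent.R112.lsc K C hK hC
  exact Crest.Agent.R112.transfer (Crest.Agent.R112.finalC Crest.Agent.R112.ap1
    Crest.Agent.R112.ap2 (Crest.Agent.R112.limit Crest.Agent.R112.usupL1 K C₂ hK h₂
      (Crest.Agent.R112.smallAt Crest.Agent.R112.usupL1 Crest.Agent.R112.lsc K C₁ hK h₁)))

end Crest.Agent.S0147
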