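import Crest.Statements.S0150
import Crest.Agent.R113.Fibre
import Crest.Agent.R113.Weights

set_option autoImplicit false
open Crest.AnalysisR.TwoAdic MeasureTheory
attribute [local instance] Crest.AnalysisR.TwoAdic.borelTwoAdic Crest.AnalysisR.TwoAdic.borelSpace_twoAdic
open Crest Crest.AnalysisR Crest.AnalysisR.TwoAdic

namespace Crest.Agent.S0150

/-- On L²(ℤ₂; ℓ²(ℤ)) (2-adic integers, Haar probability) measurable weights β_j > 0, b_j ∈ [0,1] give fibre shifts S_x δ_j = β_j(x) δ_{j+1} forming a bounded S and a contraction V commuting with S, acting along x ↦ x + 1 by V_x δ_j = b_j(x) δ_{j−1}, with: each S_x has exactly the tails, 0, ℓ²(ℤ) as closed invariant subspaces; ‖S‖ = e^{−10}, ‖Sⁿ‖ ≤ exp(−10⌊(n+1)²/4⌋); off a null set b_j > 0 and V_x maps each tail densely into the next lower one; S, V and bounded multipliers act transitively. -/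
theorem result :
    ∃ (β b : ℤ → ℤ_[2] → ℝ) (Sfib Vfib : ℤ_[2] → (seqHilbert →L[ℂ] seqHilbert))
      (S V : fibreSpace →L[ℂ] fibreSpace),
      (∀ j, Measurable (β j)) ∧ (∀ j x, 0 < β j x) ∧
      (∀ x j, Sfib x (basisVec j) = (β j x : ℂ) • basisVec (j + 1)) ∧
      (∀ f : fibreSpace, ∀ᵐ x ∂haarTwoAdic, (S f : ℤ_[2] → seqHilbert) x = Sfib x ((f : ℤ_[2] → seqHilbert) x)) ∧
      (∀ x, ∀ W : Submodule ℂ seqHilbert, IsClosed (W : Set seqHilbert) →
        ((∀ v ∈ W, Sfib x v ∈ W) ↔ (W = ⊥ ∨ W = ⊤ ∨ ∃ h : ℤ, W = tailSpace h))) ∧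
      S ≠ 0 ∧ ‖S‖ = Real.exp (-10) ∧
      (∀ n : ℕ, 1 ≤ n → ‖S ^ n‖ ≤ Real.exp (-10 * (((n + 1) ^ 2 / 4 : ℕ) : ℝ))) ∧
      ‖V‖ ≤ 1 ∧ V * S = S * V ∧
      (∀ j, Measurable (b j)) ∧ (∀ j x, 0 ≤ b j x ∧ b j x ≤ 1) ∧
      (∀ x j, Vfib x (basisVec j) = (b j x : ℂ) • basisVec (j - 1)) ∧
      (∀ f : fibreSpace, ∀ᵐ x ∂haarTwoAdic,
        (V f : ℤ_[2] → seqHilbert) (x + 1) = Vfib x ((f : ℤ_[2] → seqHilbert) x)) ∧
      (∃ N : Set ℤ_[2], haarTwoAdic N = 0 ∧ ∀ x, x ∉ N →
        (∀ j, 0 < b j x) ∧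
        (∀ h : ℤ, closure (Vfib x '' (tailSpace h : Set seqHilbert)) = (tailSpace (h - 1) : Set seqHilbert)) ∧
        closure (Set.range (Vfib x)) = Set.univ) ∧
      (∀ W : Submodule ℂ fibreSpace, IsClosed (W : Set fibreSpace) →
        (∀ f ∈ W, S f ∈ W) → (∀ f ∈ W, V f ∈ W) →
        (∀ g : ℤ_[2] → ℂ, Measurable g → (∃ C : ℝ, ∀ x, ‖g x‖ ≤ C) →
          ∀ f ∈ W, ∀ f' : fibreSpace,
            (∀ᵐ x ∂haarTwoAdic, (f' : ℤ_[2] → seqHilbert) x = g x • (f : ℤ_[2] → seqHilbert) x) → f' ∈ W) →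
        W = ⊥ ∨ W = ⊤) := by
  obtain ⟨φ, b, hφ, hφm, hφ0, hbm, hb01, hbpos, hcomm⟩ := R113.exists_weights
  have hprob : IsProbabilityMeasure haarTwoAdic :=
    ⟨by simpa [haarTwoAdic] using Measure.addHaarMeasure_self (G := ℤ_[2]) (K₀ := ⊤)⟩
  have hhaar : haarTwoAdic.IsAddHaarMeasure := by unfold haarTwoAdic; infer_instance
  have herg : Ergodic (fun x : ℤ_[2] => x + 1) haarTwoAdic := by
    simpa only [add_comm] using ergodic_add_left_of_denseRange_nsmul (g := (1 : ℤ_[2]))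
      (by simpa using PadicInt.denseRange_natCast) haarTwoAdic
  have hnull : haarTwoAdic {-1} = 0 := by
    by_contra h
    refine measure_ne_top haarTwoAdic Set.univ (Set.infinite_univ.meas_eq_top ⟨_, h, fun x _ => ?_⟩)
    rw [Measure.addHaar_singleton, Measure.addHaar_singleton _ x]
  have hβ : ∀ x j, ‖((Real.exp (φ x j - φ x (j + 1)) : ℝ) : ℂ)‖ ≤ Real.exp (-10) := by
    intro x j
    rw [Complex.norm_real, Real.norm_eq_abs, Real.abs_exp, Real.exp_le_exp]
    have := (hφ x).pow_le j 1 le_rfl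
    norm_num at this
    linarith
  choose Sf hSf hSf' using fun x => R113.exists_wop
    (fun j => ((Real.exp (φ x j - φ x (j + 1)) : ℝ) : ℂ)) 1 (Real.exp_pos _).le (hβ x)
  choose Vf hVf hVf' using fun x => R113.exists_wop (fun j => (b j x : ℂ)) (-1) zero_le_one
    (fun j => by
      rw [Complex.norm_real, Real.norm_eq_abs, abs_of_nonneg (hb01 j x).1]
      exact (hb01 j x).2)
  have hβm : ∀ j, Measurable fun x => Real.exp (φ x j - φ x (j + 1)) := fun j =>
    ((hφm j).sub (hφm (j + 1))).exp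
  obtain ⟨S, hS, hS'⟩ := R113.exists_fibOp (μ := haarTwoAdic) Sf _ 1
    (fun j => Complex.measurable_ofReal.comp (hβm j)) hSf (Real.exp_pos _).le hSf'
  obtain ⟨V₀, hV₀, hV₀'⟩ := R113.exists_fibOp (μ := haarTwoAdic) Vf _ (-1)
    (fun j => Complex.measurable_ofReal.comp (hbm j)) hVf zero_le_one hVf'
  have hsub : MeasurePreserving (fun x : ℤ_[2] => x - 1) haarTwoAdic haarTwoAdic :=
    measurePreserving_sub_right _ _
  have hq := herg.toMeasurePreserving.quasiMeasurePreserving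
  set V : fibreSpace →L[ℂ] fibreSpace :=
    (Lp.compMeasurePreservingₗᵢ ℂ _ hsub).toContinuousLinearMap ∘L V₀ with hVdef
  have hV : ∀ f : fibreSpace, ∀ᵐ x ∂haarTwoAdic, V f (x + 1) = Vf x (f x) := by
    intro f
    filter_upwards [hq.ae (Lp.coeFn_compMeasurePreserving (V₀ f) hsub), hV₀ f] with x h1 h2
    rw [← h2]
    refine h1.trans ?_
    simp
  have hnorm : ‖S‖ = Real.exp (-10) := by
    refine le_antisymm hS' ?_
    set c : fibreSpace := Lp.const 2 haarTwoAdic (basisVec 0) with hc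
    have h1 : ‖c‖ = 1 := by simp [hc, Lp.norm_const, R113.norm_basisVec]
    have h2 : S c = (Real.exp (-10) : ℂ) • Lp.const 2 haarTwoAdic (basisVec 1) := by
      refine Lp.ext ?_
      filter_upwards [hS c, Lp.coeFn_const 2 haarTwoAdic (basisVec 0),
        Lp.coeFn_const 2 haarTwoAdic (basisVec 1),
        Lp.coeFn_smul (Real.exp (-10) : ℂ) (Lp.const 2 haarTwoAdic (basisVec 1))]
        with x e1 e2 e3 e4
      rw [e1, e4, Pi.smul_apply, e3, hc, e2, Function.const_apply, Function.const_apply,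
        R113.apply_basisVec (hSf x), hφ0, zero_add]
    have h3 := S.le_opNorm c
    rw [h1, h2, norm_smul, Complex.norm_real, Real.norm_eq_abs, Real.abs_exp] at h3
    simpa [Lp.norm_const, R113.norm_basisVec] using h3
  have hbne : ∀ x, x ≠ -1 → ∀ j, (b j x : ℂ) ≠ 0 := fun x hx j =>
    Complex.ofReal_ne_zero.2 (hbpos x hx j).ne'
  refine ⟨fun j x => Real.exp (φ x j - φ x (j + 1)), b, Sf, Vf, S, V, hβm,
    fun j x => Real.exp_pos _, fun x j => R113.apply_basisVec (hSf x) j, hS,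
    fun x W hW => (hφ x).unicellular (hSf x) W hW, fun h => ?_, hnorm, fun n hn => ?_, ?_, ?_,
    hbm, hb01, fun x j => by rw [R113.apply_basisVec (hVf x), sub_eq_add_neg], hV,
    ⟨{-1}, hnull, fun x hx => ⟨hbpos x hx, R113.closure_image_tail (hVf x) (hbne x hx),
      R113.closure_range_eq (hVf x) (hbne x hx)⟩⟩,
    fun W hW h1 h2 h3 => R113.transitive herg hφ hSf hS hVf ?_ hV W hW h1 h2 h3⟩
  · rw [h, norm_zero] at hnorm
    exact (Real.exp_pos _).ne hnorm
  · refine ContinuousLinearMap.opNorm_le_bound _ (Real.exp_pos _).le fun f =>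
      Lp.norm_le_mul_norm_of_ae_le_mul ?_
    filter_upwards [R113.pow_fib hS n f] with x hx
    rw [hx]
    exact (hφ x).norm_pow_le (hSf x) n hn _
  · refine ContinuousLinearMap.opNorm_le_bound _ zero_le_one fun f => ?_
    rw [hVdef, ContinuousLinearMap.comp_apply, LinearIsometry.coe_toContinuousLinearMap,
      LinearIsometry.norm_map]
    exact V₀.le_of_opNorm_le hV₀' f
  · ext1 f
    refine Lp.ext ?_
    have key : ∀ᵐ x ∂haarTwoAdic, V (S f) (x + 1) = S (V f) (x + 1) := by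
      filter_upwards [hV (S f), hS f, hq.ae (hS (V f)), hV f] with x e1 e2 e3 e4
      rw [e1, e2, e3, e4]
      ext j
      have a1 := hVf x (Sf x (f x)) (j + 1)
      have a2 := hSf (x + 1) (Vf x (f x)) (j + -1)
      rw [add_neg_cancel_right] at a1
      rw [hVf] at a2
      rw [show j + -1 + 1 = j by ring] at a2
      rw [a1, a2, hSf, ← mul_assoc, ← mul_assoc, ← Complex.ofReal_mul, ← Complex.ofReal_mul,
        hcomm, show j + -1 + 1 = j by ring]
    filter_upwards [hsub.quasiMeasurePreserving.ae key] with x hx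
    simpa using hx
  · filter_upwards [measure_eq_zero_iff_ae_notMem.1 hnull] with x hx using hbne x hx

end Crest.Agent.S0150
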