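import Crest.Statements.S0148
import Crest.Agent.S0150
import Crest.Agent.R113.Transport

set_option autoImplicit false
open Filter Topology
open Crest Crest.AnalysisR Crest.AnalysisR.OperatorAlgebra

namespace Crest.Agent.S0148

/-- On every infinite-dimensional separable complex Hilbert space there is a nonzero bounded operator T with ‖Tⁿ‖^(1/n) → 0 as n → ∞ such that the only closed subspaces mapped into themselves by every bounded operator commuting with T are the zero subspace and the whole space. -/
theorem result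
    (H : Type*) [NormedAddCommGroup H] [InnerProductSpace ℂ H] [CompleteSpace H]
    [TopologicalSpace.SeparableSpace H] (hH : ¬ FiniteDimensional ℂ H) :
    ∃ T : H →L[ℂ] H, T ≠ 0 ∧
      Tendsto (fun n : ℕ => ‖T ^ n‖ ^ (1 / (n : ℝ))) atTop (𝓝 0) ∧
      ∀ V : Submodule ℂ H, IsClosed (V : Set H) →
        (∀ A : H →L[ℂ] H, A * T = T * A → ∀ v ∈ V, A v ∈ V) → V = ⊥ ∨ V = ⊤ := by
  open Crest.AnalysisR.TwoAdic MeasureTheory in
  obtain ⟨β, b, Sf, Vf, S, V, -, -, -, hS, -, hS0, -, hSn, -, hVS, -, -, -, -, -, htr⟩ :=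
    Crest.Agent.S0150.result
  open Crest.AnalysisR.TwoAdic MeasureTheory in
  letI := borelTwoAdic
  open Crest.AnalysisR.TwoAdic MeasureTheory in
  have := borelSpace_twoAdic
  open Crest.AnalysisR.TwoAdic MeasureTheory in
  have hprob : IsProbabilityMeasure haarTwoAdic :=
    ⟨by simpa [haarTwoAdic] using Measure.addHaarMeasure_self (G := ℤ_[2]) (K₀ := ⊤)⟩
  have := R113.separableSpace_seqHilbert
  have : Fact ((2 : ENNReal) ≠ ⊤) := ⟨by norm_num⟩
  obtain ⟨e⟩ := R113.nonempty_linearIsometryEquiv H Crest.AnalysisR.TwoAdic.fibreSpace hH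
    (R113.not_finiteDimensional_Lp _)
  set Φ : (Crest.AnalysisR.TwoAdic.fibreSpace →L[ℂ] Crest.AnalysisR.TwoAdic.fibreSpace) →
      (H →L[ℂ] H) := fun A =>
    (e.symm.toContinuousLinearEquiv : _ →L[ℂ] _) ∘L A ∘L (e.toContinuousLinearEquiv : _ →L[ℂ] _)
    with hΦ
  have hΦa : ∀ A v, Φ A v = e.symm (A (e v)) := fun A v => rfl
  have hpow : ∀ (n : ℕ) v, (Φ S ^ n) v = e.symm ((S ^ n) (e v)) := by
    intro n v
    induction n with
    | zero => simp
    | succ n ih => rw [pow_succ', pow_succ', mul_apply_eq_comp, mul_apply_eq_comp, ih, hΦa]; simp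
  refine ⟨Φ S, fun h => hS0 ?_, ?_, fun W hW hinv => ?_⟩
  · ext1 f
    have := hΦa S (e.symm f)
    rw [h] at this
    simpa using this.symm
  · have hlim : Tendsto (fun n : ℕ => Real.exp (-(n : ℝ))) atTop (𝓝 0) :=
      Real.tendsto_exp_neg_atTop_nhds_zero.comp tendsto_natCast_atTop_atTop
    refine squeeze_zero' (Eventually.of_forall fun n => by positivity) ?_ hlim
    filter_upwards [eventually_ge_atTop 1] with n hn
    have hn' : (1 : ℝ) ≤ n := by exact_mod_cast hn
    have h1 : ‖Φ S ^ n‖ ≤ Real.exp (-(n : ℝ) * n) := by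
      refine ContinuousLinearMap.opNorm_le_bound _ (Real.exp_pos _).le fun v => ?_
      rw [hpow, LinearIsometryEquiv.norm_map, ← e.norm_map v]
      refine (S ^ n).le_of_opNorm_le ((hSn n hn).trans (Real.exp_le_exp.2 ?_)) _
      have h2 : n * n ≤ 10 * ((n + 1) ^ 2 / 4) := by
        have := Nat.div_add_mod ((n + 1) ^ 2) 4
        have := Nat.mod_lt ((n + 1) ^ 2) (show 0 < 4 by norm_num)
        nlinarith
      generalize (n + 1) ^ 2 / 4 = M at h2
      have h3 : (n : ℝ) * n ≤ 10 * M := by exact_mod_cast h2
      linarith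
    refine (Real.rpow_le_rpow (norm_nonneg _) h1 (by positivity)).trans_eq ?_
    rw [← Real.exp_mul]
    congr 1
    field_simp
  · have key : ∀ A, A * S = S * A → ∀ f ∈ W.comap e.symm.toLinearEquiv.toLinearMap,
        A f ∈ W.comap e.symm.toLinearEquiv.toLinearMap := by
      intro A hA f hf
      have h1 := hinv (Φ A) (by
        ext1 v
        rw [mul_apply_eq_comp, mul_apply_eq_comp, hΦa, hΦa, hΦa, hΦa, e.apply_symm_apply,
          e.apply_symm_apply, ← mul_apply_eq_comp A S, hA, mul_apply_eq_comp]) _ hf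
      rw [hΦa] at h1
      simpa using h1
    have h := htr (W.comap e.symm.toLinearEquiv.toLinearMap) (hW.preimage e.symm.continuous)
      (key S rfl) (key V hVS) (by
        rintro g hg ⟨C, hC⟩ f hf f' hf'
        obtain ⟨M, hM, -⟩ := R113.exists_fibOp (μ := Crest.AnalysisR.TwoAdic.haarTwoAdic)
          (fun x => g x • 1) (fun _ => g) 0 (fun _ => hg) (fun x v j => by simp)
          ((norm_nonneg _).trans (hC 0)) (fun x => ContinuousLinearMap.opNorm_le_bound _
            ((norm_nonneg _).trans (hC 0)) fun v => by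
              rw [ContinuousLinearMap.smul_apply, ContinuousLinearMap.one_apply, norm_smul]
              exact mul_le_mul_of_nonneg_right (hC x) (norm_nonneg _))
        have h1 : f' = M f := by
          refine MeasureTheory.Lp.ext ?_
          filter_upwards [hf', hM f] with x h1 h2
          rw [h1, h2]
          simp
        rw [h1]
        refine key M ?_ f hf
        ext1 u
        refine MeasureTheory.Lp.ext ?_
        filter_upwards [hM (S u), hS u, hS (M u), hM u] with x h1 h2 h3 h4
        rw [mul_apply_eq_comp, mul_apply_eq_comp, h1, h2, h3, h4]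
        simp)
    refine h.imp (fun h => eq_bot_iff.2 fun v hv => ?_) fun h => eq_top_iff.2 fun v _ => ?_
    · have : e v ∈ W.comap e.symm.toLinearEquiv.toLinearMap := by simpa using hv
      rw [h] at this
      simpa using this
    · have : e v ∈ W.comap e.symm.toLinearEquiv.toLinearMap := by rw [h]; trivial
      simpa using this

end Crest.Agent.S0148
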