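import Crest.Statements.S0153
import Crest.Agent.R114.Crit
import Crest.Agent.R114.L2Q
import Crest.Agent.R114.CaseA
import Crest.Agent.R114.Dich
import Crest.Agent.R114.Glue
import Crest.Agent.R114.Rad
import Crest.Agent.R114.Sel
import Crest.Agent.R114.RVM

set_option autoImplicit false
open Crest.AnalysisR
open Crest Crest.AnalysisR

namespace Crest.Agent.S0153

/-- Assume that the continuum is real-valued measurable: some probability measure defined on all subsets of the real line vanishes on singletons and is additive over every pairwise disjoint family of fewer than continuum many sets. Then, over the real or the complex field, every infinite-dimensional Banach space has a closed linear subspace whose quotient is separable and infinite-dimensional. -/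
theorem result
    (𝕜 : Type) [RCLike 𝕜] (hc : ContinuumRVM)
    (X : Type*) [NormedAddCommGroup X] [NormedSpace 𝕜 X] [CompleteSpace X]
    (hX : ¬ FiniteDimensional 𝕜 X) :
    ∃ M : Submodule 𝕜 X, IsClosed (M : Set X) ∧
      TopologicalSpace.SeparableSpace (X ⧸ M) ∧ ¬ FiniteDimensional 𝕜 (X ⧸ M) := by
  by_contra hn
  obtain ⟨h, hK, h1⟩ :=
    Crest.Agent.R114.rvm (𝕜 := 𝕜) (X := X) Crest.Agent.R114.crit Crest.Agent.R114.sel hc hX hn
  exact hn (Crest.Agent.R114.glue Crest.Agent.R114.caseA Crest.Agent.R114.dich
    Crest.Agent.R114.rad Crest.Agent.R114.l2q h hK h1)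

end Crest.Agent.S0153
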