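import Crest.Statements.S0154
import Crest.Agent.R115.Main

set_option autoImplicit false
open Crest Crest.AnalysisR

namespace Crest.Agent.S0154

attribute [local instance] PointedMetric.metric

/-- There is a countable pointed metric space P, unbounded, not proper, with distinct points at distance ≥ 1, whose (real) free space FreeSpace P (completion of the finitely supported molecules ∑ aₓ δₓ under the seminorm: sup of abs (∑ aₓ f x) over real 1-Lipschitz f vanishing at the base point) has the approximation property but not the bounded approximation property: finite-rank bounded operators approximate the identity uniformly on compact sets, but never with a common norm bound. -/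
theorem result :
    ∃ P : Crest.AnalysisR.PointedMetric, P.IsCountableSeparatedUnboundedNonproper ∧
      Crest.AnalysisR.HasAP P.FreeSpace ∧ ¬ Crest.AnalysisR.HasBAP P.FreeSpace := by
  classical
  have key : ∀ n : ℕ, ∃ Pc : R115.Piece, Countable Pc.M ∧ Infinite Pc.M ∧
      (∃ γ p, (n : ℝ) ≤ Pc.f γ p) ∧
      ∀ (P : PointedMetric) (e : Pc.M → P.M), Function.Injective e → (∀ p, e p ≠ P.base) →
        (∀ p q : P.M, p ≠ q → 1 ≤ dist p q) →
        (∀ γ p q, |Function.extend e (Pc.f γ) 0 p - Function.extend e (Pc.f γ) 0 q| ≤ dist p q) →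
        (∀ p q (K : ℝ), 1 ≤ K → (∀ γ, |Pc.f γ p - Pc.f γ q| ≤ K) → dist (e p) (e q) ≤ K) →
        ∃ A : Finset P.M, ∀ T : P.FreeSpace →L[ℝ] P.FreeSpace,
          FiniteDimensional ℝ (LinearMap.range T.toLinearMap) → ‖T‖ ≤ n →
          (∀ a ∈ A, ‖T (R115.dl P a) - R115.dl P a‖ ≤ 1) → False := by
    intro n
    obtain ⟨V, Lab, h1, h2, h3, σ, lab, S, hG⟩ :=
      R115.exists_graphs (Fin (12 * n * (n + 6) ^ 2 + 1)) (n + 6)
    let k := 2 * n * (n + 6) + (n + 6)
    refine ⟨R115.piece σ lab (n + 6) k, ?_, ?_, ?_, ?_⟩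
    · exact inferInstanceAs (Countable ((Lab × _ × Lab → Fin (k + 1)) × Option V))
    · exact inferInstanceAs (Infinite ((Lab × _ × Lab → Fin (k + 1)) × Option V))
    · obtain ⟨x⟩ : Nonempty V := inferInstance
      refine ⟨Sum.inr {R115.col σ lab x 0}, (fun _ => Fin.last k, none), ?_⟩
      change (n : ℝ) ≤ R115.pf σ lab (n + 6) k (Sum.inr {R115.col σ lab x 0})
        (fun _ => Fin.last k, none)
      simp only [R115.pf, Finset.sum_singleton, Fin.val_last, k]
      exact_mod_cast (by omega : n ≤ 2 * n * (n + 6) + (n + 6))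
    · intro P e he hbase hsep hlip hdist
      refine ⟨Finset.univ.image fun v : Lab × _ × Lab → Fin (k + 1) => e (v, none),
        fun T hT hTn hA => ?_⟩
      exact R115.no_operator n (n + 6) k rfl (Fintype.card_fin _) rfl S hG P e he hbase hsep hlip
        hdist T hT hTn fun v => hA _ (Finset.mem_image.2 ⟨v, Finset.mem_univ _, rfl⟩)
  choose Pc hc hinf hbig hno using key
  obtain ⟨P, e, hPc, hsep, hAP, he, hbase, hlip, hdist⟩ := R115.exists_wedge Pc hc
  refine ⟨P, ⟨hPc, hsep, ?_, ?_⟩, hAP, ?_⟩
  · intro hb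
    obtain ⟨C, hC⟩ := Metric.isBounded_iff.1 hb
    obtain ⟨n, hn⟩ := exists_nat_gt C
    obtain ⟨γ, p, hp⟩ := hbig n
    have h1 := hlip n γ (e n p) P.base
    rw [(he n).extend_apply, Function.extend_apply' _ _ _ (by
      rintro ⟨q, hq⟩; exact hbase n q hq)] at h1
    have h2 := hC (Set.mem_univ (e n p)) (Set.mem_univ P.base)
    simp only [Pi.zero_apply, sub_zero] at h1
    linarith [le_abs_self ((Pc n).f γ p)]
  · intro hprop
    have := hinf 0
    obtain ⟨p₀⟩ : Nonempty (Pc 0).M := inferInstance
    have hK : IsCompact (Metric.closedBall (e 0 p₀) (max 1 (2 * (Pc 0).B))) :=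
      isCompact_closedBall _ _
    have hsub : Set.range (e 0) ⊆ Metric.closedBall (e 0 p₀) (max 1 (2 * (Pc 0).B)) := by
      rintro _ ⟨p, rfl⟩
      refine hdist 0 p p₀ _ (le_max_left _ _) fun γ => ?_
      have := (abs_sub _ _).trans (add_le_add ((Pc 0).bound γ p) ((Pc 0).bound γ p₀))
      exact le_trans (by linarith) (le_max_right _ _)
    obtain ⟨t, ht, hcov⟩ := Metric.totallyBounded_iff.1 hK.totallyBounded (1 / 2) (by norm_num)
    have hfin : (Metric.closedBall (e 0 p₀) (max 1 (2 * (Pc 0).B))).Finite := by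
      refine Set.Finite.subset (ht.biUnion fun y _ => Set.Subsingleton.finite ?_) hcov
      intro a ha b hb
      by_contra hab
      have h1 := hsep a b hab
      have h2 := dist_triangle_right a b y
      rw [Metric.mem_ball] at ha hb
      linarith
    exact Set.infinite_range_of_injective (he 0) (hfin.subset hsub)
  · rintro ⟨lam, hlam⟩
    obtain ⟨n, hn⟩ := exists_nat_ge lam
    obtain ⟨A, hA⟩ := hno n P (e n) (he n) (hbase n) hsep (hlip n) (hdist n)
    obtain ⟨T, hT, hTn, hTA⟩ := hlam (R115.dl P '' (A : Set P.M))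
      ((A.finite_toSet.image _).isCompact) 1 one_pos
    exact hA T hT (hTn.trans hn) fun a ha => hTA _ ⟨a, ha, rfl⟩

end Crest.Agent.S0154
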