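import Crest.Statements.S0161
import Crest.Agent.R121.Final
import Crest.Agent.R121.TypeI
import Crest.Agent.R121.Dix
import Crest.Agent.R121.Pietsch
import Crest.Agent.R121.Tree
import Crest.Agent.R121.Normal
import Crest.Agent.R121.Slice
import Crest.Agent.R121.Sim
import Crest.Agent.R121.Assemble
import Crest.Agent.R121.Vec
import Crest.Agent.R121.Zorn
import Crest.Agent.R121.CornerTrace
import Crest.Agent.R121.Trace
import Crest.Agent.R121.CS
import Crest.Agent.R121.Homotopy

set_option autoImplicit false
open Crest Crest.AnalysisR Crest.AnalysisR.OperatorAlgebra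

namespace Crest.Agent.S0161

/-- Let M be a von Neumann algebra on a complex Hilbert space and n ≥ 1. Every bounded complex-multilinear map f from (n+1)-tuples of elements of M to M whose Hochschild differential vanishes is the Hochschild differential of some bounded complex-multilinear map g on n-tuples: f = dg. Here (dg)(a₀,…,a_n) = a₀ g(a₁,…,a_n) + ∑_{j<n} (−1)^(j+1) g(…, a_j a_{j+1}, …) + (−1)^(n+1) g(a₀,…,a_{n−1}) a_n. -/
theorem result
    (H : Type*) [NormedAddCommGroup H] [InnerProductSpace ℂ H] [CompleteSpace H]
    (M : VonNeumannAlgebra H) (n : ℕ) (hn : 1 ≤ n)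
    (f : ContinuousMultilinearMap ℂ (fun _ : Fin (n + 1) => M.toStarSubalgebra) M.toStarSubalgebra)
    (hf : ∀ a : Fin (n + 2) → M.toStarSubalgebra, Crest.OpAlg.hochschildDiff f a = 0) :
    ∃ g : ContinuousMultilinearMap ℂ (fun _ : Fin n => M.toStarSubalgebra) M.toStarSubalgebra,
      ∀ a : Fin (n + 1) → M.toStarSubalgebra, Crest.OpAlg.hochschildDiff g a = f a := by
  have _ := hn
  open Crest.Agent.R121 in
  exact main_of vec (decomp csupp)
    (finite csupp vec (abel csupp (finCover csupp)) typeI
      (trace (finCover csupp) (cornerTrace zorn csupp seq)) nonAbel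
      (typeII modu (tree dix) normal (slice dix) (sim pietsch)))
    (cs csupp cbSet) cbSet homotopy assemble H M n f hf

end Crest.Agent.S0161
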