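import Crest.Statements.S0166
import Crest.Agent.R125.Tree
import Crest.Agent.R125.Diamond
import Crest.Agent.R125.L2Sum

set_option autoImplicit false
open Crest Crest.AnalysisR

namespace Crest.Agent.S0166

open Crest.Agent.R125 Crest.AnalysisR.TreePotential
open scoped InnerProductSpace

/-- Square-summable families on the tree. -/
abbrev H : Type := lp (fun _ : List ℕ => ℝ) 2

/-- Tests of depth `n`. -/
def K (n : ℕ) : Type :=
  {f : H // ‖f‖ ≤ 1 ∧ ∀ s : List ℕ, s.length ≤ n → |pathPotential (f : List ℕ → ℝ) s| ≤ 1}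

theorem abs_inner_le {n : ℕ} (f : K n) (x : H) : |⟪f.1, x⟫_ℝ| ≤ ‖x‖ := by
  have h1 := abs_real_inner_le_norm f.1 x
  have h2 := f.2.1
  nlinarith [norm_nonneg x]

/-- The pairing with the tests of depth `n`. -/
noncomputable def T (n : ℕ) : H →L[ℝ] lp (fun _ : K n => ℝ) ⊤ :=
  LinearMap.mkContinuous
    { toFun := fun x => ⟨fun f => ⟪f.1, x⟫_ℝ, memℓp_infty ⟨‖x‖, by
        rintro _ ⟨f, rfl⟩
        exact abs_inner_le f x⟩⟩
      map_add' := fun x y => lp.ext (funext fun f => inner_add_right _ _ _)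
      map_smul' := fun c x => lp.ext (funext fun f => real_inner_smul_right _ _ _) } 1
    fun x => by
      rw [one_mul]
      exact lp.norm_le_of_forall_le (norm_nonneg _) fun f => abs_inner_le f x

theorem T_apply (n : ℕ) (x : H) (f : K n) : T n x f = ⟪f.1, x⟫_ℝ := rfl

theorem abs_pot_le (f : List ℕ → ℝ) (c : ℝ) (h : ∀ s, |f s| ≤ c) (s : List ℕ) :
    |pathPotential f s| ≤ (s.length + 1) * c := by
  induction s with
  | nil => simpa [pathPotential] using h []
  | cons a v ih =>
    have := abs_add_le (pathPotential f v) (f (a :: v))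
    have h2 := h (a :: v)
    simp only [pathPotential, List.length_cons]
    push_cast
    linarith

theorem norm_le_T (n : ℕ) (x : H) : ‖x‖ ≤ (n + 1) * ‖T n x‖ := by
  rcases (norm_nonneg x).eq_or_lt with h | h
  · rw [← h]; positivity
  set c : ℝ := ((n + 1) * ‖x‖)⁻¹ with hc
  have hc0 : 0 < c := by positivity
  have hn : ‖c • x‖ = (n + 1 : ℝ)⁻¹ := by
    rw [norm_smul, Real.norm_of_nonneg hc0.le, hc]
    field_simp
  have hn1 : (n + 1 : ℝ)⁻¹ ≤ 1 := inv_le_one_of_one_le₀ (by simp)
  let f : K n := ⟨c • x, hn.trans_le hn1, fun s hs => by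
    refine (abs_pot_le _ (n + 1 : ℝ)⁻¹ (fun u => ?_) s).trans ?_
    · rw [← hn]
      exact lp.norm_apply_le_norm (by norm_num) (c • x) u
    · rw [← div_eq_mul_inv, div_le_one (by positivity)]
      exact_mod_cast Nat.succ_le_succ hs⟩
  have h1 : T n x f ≤ ‖T n x‖ :=
    (le_abs_self _).trans (lp.norm_apply_le_norm ENNReal.top_ne_zero (T n x) f)
  have h2 : T n x f = ‖x‖ / (n + 1) := by
    rw [T_apply]
    change ⟪c • x, x⟫_ℝ = _
    rw [real_inner_smul_left, real_inner_self_eq_norm_sq, hc]
    field_simp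
  rw [h2, div_le_iff₀ (by positivity)] at h1
  linarith

theorem antilipschitz_T (n : ℕ) : AntilipschitzWith (n + 1) (T n) :=
  (T n).antilipschitz_of_bound fun x => by simpa using norm_le_T n x

theorem isClosed_range_T (n : ℕ) : IsClosed (Set.range (T n)) :=
  (antilipschitz_T n).isClosed_range (T n).uniformContinuous

/-- The space of depth `n`. -/
noncomputable abbrev Y (n : ℕ) : Type := (T n).range

instance (n : ℕ) : CompleteSpace (Y n) := (isClosed_range_T n).completeSpace_coe

/-- The space of depth `n` is isomorphic to a Hilbert space. -/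
noncomputable def eqv (n : ℕ) : H ≃L[ℝ] Y n :=
  (T n).equivRange (antilipschitz_T n).injective (isClosed_range_T n)

/-- Coordinate vectors. -/
noncomputable def cv (n : ℕ) (s : List ℕ) : Y n := eqv n (lp.single 2 s 1)

/-- Evaluation at a test. -/
noncomputable def ev (n : ℕ) (f : K n) : Y n →L[ℝ] ℝ :=
  (lp.evalCLM ℝ (fun _ : K n => ℝ) ⊤ f).comp (T n).range.subtypeL

theorem ev_cv (n : ℕ) (f : K n) (s : List ℕ) : ev n f (cv n s) = f.1 s := by
  change ⟪f.1, lp.single 2 s 1⟫_ℝ = _
  rw [lp.inner_single_right]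
  simp

theorem dense_cv (n : ℕ) : Dense (Submodule.span ℝ (Set.range (cv n)) : Set (Y n)) := by
  intro y
  obtain ⟨x, rfl⟩ := (eqv n).surjective y
  have h1 := ((eqv n).continuous.tendsto x).comp (tendsto_trP x)
  refine mem_closure_of_tendsto h1 (Filter.Eventually.of_forall fun A => ?_)
  simp only [Function.comp_apply, trP_apply, map_sum]
  refine Submodule.sum_mem _ fun s _ => ?_
  have : (lp.single 2 s (x s) : H) = x s • lp.single 2 s 1 := by
    rw [← lp.single_smul, smul_eq_mul, mul_one]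
  rw [this, map_smul]
  exact Submodule.smul_mem _ _ (Submodule.subset_span ⟨s, rfl⟩)

theorem treeSys (n : ℕ) : TreeSys (Y n) (cv n) (fun s => s.length ≤ n)
    (fun f => ∀ A : Finset (List ℕ), ∑ u ∈ A, f u ^ 2 ≤ 1) (K n) (ev n) where
  dense := dense_cv n
  tail := fun a v h => (Nat.le_succ _).trans h
  pot := fun f s hs => by simpa only [ev_cv] using f.2.2 s hs
  extra := fun f A => by
    have h1 := sum_sq_le f.1 A
    have h2 := f.2.1
    simp only [ev_cv]
    simp only [Real.norm_eq_abs, sq_abs] at h1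
    nlinarith [norm_nonneg f.1]
  real := fun h h1 h2 => by
    have h3 : ∀ A : Finset (List ℕ), ∑ u ∈ A, ‖h u‖ ^ 2 ≤ 1 ^ 2 := by
      simpa only [Real.norm_eq_abs, sq_abs, one_pow] using h2
    exact ⟨⟨⟨h, memℓp_two h3⟩, norm_le_of_sum_sq zero_le_one h3, h1⟩, fun s => ev_cv n _ s⟩
  le_norm := fun f x => (le_abs_self _).trans (lp.norm_apply_le_norm ENNReal.top_ne_zero
      (x : lp (fun _ : K n => ℝ) ⊤) f)
  norm_le := fun x r hr h => lp.norm_le_of_forall_le hr h
  dom := fun f g h α β hf hg hαβ hh A => sum_sq_le_of_dom A f g h α β (hf A) (hg A) hαβ hh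
  sib := fun f hf r A => by
    have himg : ∑ n ∈ A, f (n :: r) ^ 2 = ∑ u ∈ A.image (fun n => n :: r), f u ^ 2 := by
      rw [Finset.sum_image fun a _ b _ h => (List.cons.inj h).1]
    rw [himg]
    exact hf _
  single := fun a v A => sum_single_sq_le _ A id Function.injective_id

theorem sqrt_cmp (t : ℝ) : (√(1 + t ^ 2 / 4) - 1) / 2 ≤ √(1 + t ^ 2 / 4) - 1 := by
  have : 1 ≤ √(1 + t ^ 2 / 4) := Real.le_sqrt_of_sq_le (by nlinarith [sq_nonneg t])
  linarith

/-- There is a real Banach space (RealBanach record) that is separable, infinite-dimensional and reflexive, whose given norm has at every t > 0 averaged midpoint asymptotic modulus at least √(1 + t²/12) - 1 and at least (√(1 + t²/4) - 1)/2 and maximum-based midpoint modulus at least √(1 + t²/4) - 1, on which no equivalent norm is asymptotically uniformly convex, and in which for every k every map of the depth-k countably branching diamond graph of distortion at most D has 1 + k/4 ≤ D². -/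
theorem result :
    ∃ E : Crest.AnalysisR.RealBanach, E.IsSeparableInfiniteDim ∧ E.IsReflexive ∧
      (∀ t : ℝ, 0 < t → E.MidpointModulusGE E.norm t (Real.sqrt (1 + t ^ 2 / 12) - 1) ∧
        E.MidpointModulusGE E.norm t ((Real.sqrt (1 + t ^ 2 / 4) - 1) / 2) ∧
        E.MaxMidpointModulusGE E.norm t (Real.sqrt (1 + t ^ 2 / 4) - 1)) ∧
      (∀ N : E.X → ℝ, E.IsEquivNorm N → ¬ E.IsAUC N) ∧
      ∀ (k : ℕ) (f : Crest.AnalysisR.DiamondVertex k → E.X) (D : ℝ),
        E.HasDistortionLE k f D → 1 + (k : ℝ) / 4 ≤ D ^ 2 := by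
  have hc : CompleteSpace (lp Y 2) := inferInstance
  have hstar : R125.Star (lp Y 2) := star_lp fun n => (treeSys n).star
  have hnorm : ∀ n (y : Y n), ‖lp.singleContinuousLinearMap ℝ Y 2 n y‖ = ‖y‖ := fun n y =>
    lp.norm_single (by norm_num) n y
  refine ⟨mkB (lp Y 2) hc, ⟨separable_lp fun n => (treeSys n).separable, ?_⟩,
    (refl_lp fun n => (refl_hilbert H).of_equiv (eqv n)).isReflexive hc,
    fun t ht => ⟨hstar.midpoint hc t ht _ ?_, hstar.midpoint hc t ht _ (sqrt_cmp t),
      hstar.maxMidpoint hc t ht⟩, fun N hN => ?_, fun k f D hD => hstar.diamond hc k f D hD⟩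
  · refine not_finiteDimensional_of_weakNull
      (((treeSys 0).weakNull []).map (lp.singleContinuousLinearMap ℝ Y 2 0)) one_pos fun a => ?_
    rw [hnorm]
    exact (treeSys 0).one_le_norm a []
  · have : √(1 + t ^ 2 / 12) ≤ √(1 + t ^ 2 / 4) :=
      Real.sqrt_le_sqrt (by nlinarith [sq_nonneg t])
    linarith
  · refine not_AUC_of_trees hc 1 1 one_pos (fun n =>
      ⟨fun s => lp.singleContinuousLinearMap ℝ Y 2 (n + 1) (pathSum (cv (n + 1)) s),
        fun s hs => ?_, ?_, fun s a => ?_, fun s => ?_⟩) N hN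
    · rw [hnorm]
      exact (treeSys (n + 1)).norm_pathSum_le s hs
    · rw [hnorm]
      exact (treeSys (n + 1)).one_le_norm_pathSum
    · rw [← map_sub, hnorm]
      simpa [pathSum] using (treeSys (n + 1)).one_le_norm a s
    · have := ((treeSys (n + 1)).weakNull s).map (lp.singleContinuousLinearMap ℝ Y 2 (n + 1))
      simpa only [pathSum, ← map_sub, add_sub_cancel_left] using this

end Crest.Agent.S0166
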