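import Crest.Statements.S0167
import Crest.Agent.R125.Daugavet

set_option autoImplicit false
open Crest Crest.AnalysisR

namespace Crest.Agent.S0167

open Crest.Agent.R125 Crest.AnalysisR.L1Subspace MeasureTheory

section aux

variable {Ω : Type} [MeasurableSpace Ω] {P : Measure Ω}

/-- The sign of a function (with value `1` at zeros). -/
noncomputable def sg (g : Lp ℝ 1 P) (z : Ω) : ℝ := if 0 ≤ (g : Ω → ℝ) z then 1 else -1

theorem measurable_sg (g : Lp ℝ 1 P) : Measurable (sg g) :=
  Measurable.ite (measurableSet_le measurable_const (Lp.stronglyMeasurable g).measurable)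
    measurable_const measurable_const

theorem abs_sg (g : Lp ℝ 1 P) (z : Ω) : |sg g z| = 1 := by
  unfold sg
  split_ifs <;> simp

theorem integrable_mul_sg (g y : Lp ℝ 1 P) : Integrable (fun z => (y : Ω → ℝ) z * sg g z) P :=
  (L1.integrable_coeFn y).mul_bdd (c := 1) (measurable_sg g).aestronglyMeasurable
    (Filter.Eventually.of_forall fun z => (abs_sg g z).le)

/-- Integration against the sign of `g`. -/
noncomputable def pairSg (g : Lp ℝ 1 P) : Lp ℝ 1 P →L[ℝ] ℝ :=
  LinearMap.mkContinuous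
    { toFun := fun y => ∫ z, (y : Ω → ℝ) z * sg g z ∂P
      map_add' := fun x y => by
        rw [← integral_add (integrable_mul_sg g x) (integrable_mul_sg g y)]
        refine integral_congr_ae ?_
        filter_upwards [Lp.coeFn_add x y] with z hz
        rw [hz, Pi.add_apply, add_mul]
      map_smul' := fun c x => by
        rw [RingHom.id_apply, smul_eq_mul, ← integral_const_mul]
        refine integral_congr_ae ?_
        filter_upwards [Lp.coeFn_smul c x] with z hz
        rw [hz, Pi.smul_apply, smul_eq_mul, mul_assoc] } 1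
    fun y => by
      rw [one_mul, L1.norm_eq_integral_norm]
      refine (norm_integral_le_integral_norm _).trans (le_of_eq ?_)
      simp [abs_sg]

theorem pairSg_apply (g y : Lp ℝ 1 P) : pairSg g y = ∫ z, (y : Ω → ℝ) z * sg g z ∂P := rfl

theorem exists_small (x : Lp ℝ 1 P) (η : ℝ) (hη : 0 < η) :
    ∃ δ : ℝ, 0 < δ ∧ ∀ A : Set Ω, P A < ENNReal.ofReal δ → ∫ z in A, |(x : Ω → ℝ) z| ∂P ≤ η := by
  obtain ⟨δ, hδ, h⟩ := exists_pos_setLIntegral_lt_of_measure_lt
    (L1.integrable_coeFn x).2.ne (ENNReal.ofReal_pos.2 hη).ne'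
  obtain ⟨r, hr0, hr⟩ : ∃ r : ℝ, 0 < r ∧ ENNReal.ofReal r ≤ δ := by
    obtain ⟨r, -, hr1, hr2⟩ := ENNReal.lt_iff_exists_real_btwn.1 hδ
    exact ⟨r, ENNReal.ofReal_pos.1 hr1, hr2.le⟩
  refine ⟨r, hr0, fun A hA => ?_⟩
  have h1 := h A (hA.trans_le hr)
  have h2 := integral_norm_eq_lintegral_enorm (μ := P.restrict A)
    (Lp.aestronglyMeasurable x).restrict
  simp only [Real.norm_eq_abs] at h2
  rw [h2]
  exact ENNReal.toReal_le_of_le_ofReal hη.le h1.le

theorem pointwise (x y g t a δ : ℝ) (ht : 0 < t) (ha : a ≤ δ) (hδ : 0 ≤ δ) :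
    2 * |x| - 2 * (if a < |y - g| then |x| else 0) +
      t * (|y| - y * (if 0 ≤ g then 1 else -1) - 2 * δ) ≤ |x + t * y| + |x - t * y| := by
  have e1 : 2 * |x| ≤ |x + t * y| + |x - t * y| := by
    have := abs_add_le (x + t * y) (x - t * y)
    rw [show x + t * y + (x - t * y) = 2 * x by ring, abs_mul, abs_two] at this
    exact this
  have e2 : t * (2 * |y|) ≤ |x + t * y| + |x - t * y| := by
    have := abs_sub (x + t * y) (x - t * y)
    rw [show x + t * y - (x - t * y) = t * (2 * y) by ring, abs_mul, abs_mul, abs_two,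
      abs_of_pos ht] at this
    exact this
  by_cases h : a < |y - g|
  · rw [if_pos h]
    have e3 : |y| - y * (if 0 ≤ g then 1 else -1) - 2 * δ ≤ 2 * |y| := by
      split_ifs <;> linarith [le_abs_self y, neg_abs_le y]
    nlinarith
  · rw [if_neg h]
    push Not at h
    rw [abs_le] at h
    have e3 : |y| - y * (if 0 ≤ g then 1 else -1) - 2 * δ ≤ 0 := by
      split_ifs with hg
      · have : |y| ≤ y + 2 * δ := abs_le.2 ⟨by linarith [h.1], by linarith⟩
        linarith
      · push Not at hg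
        have : |y| ≤ -y + 2 * δ := abs_le.2 ⟨by linarith, by linarith [h.2]⟩
        linarith
    nlinarith

theorem lower [IsProbabilityMeasure P] (x y g : Lp ℝ 1 P) (t δ η : ℝ) (ht : 0 < t) (hδ : 0 < δ)
    (hx : ∀ A : Set Ω, P A < ENNReal.ofReal δ → ∫ z in A, |(x : Ω → ℝ) z| ∂P ≤ η)
    (hg : measureDist P y g < δ) (hy : pairSg g y = 0) :
    2 * ‖x‖ - 2 * η + t * (‖y‖ - 2 * δ) ≤ ‖x + t • y‖ + ‖x - t • y‖ := by
  have hne : Set.Nonempty {a : ℝ | 0 < a ∧
      P {z | a < |(y : Ω → ℝ) z - (g : Ω → ℝ) z|} < ENNReal.ofReal a} :=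
    ⟨2, by norm_num, prob_le_one.trans_lt (by simp)⟩
  obtain ⟨a, ⟨ha0, ha⟩, haδ⟩ := exists_lt_of_csInf_lt hne hg
  set A := {z | a < |(y : Ω → ℝ) z - (g : Ω → ℝ) z|} with hA
  have hAm : MeasurableSet A := measurableSet_lt measurable_const
    ((Lp.stronglyMeasurable y).measurable.sub (Lp.stronglyMeasurable g).measurable).abs
  have h1 := hx A (ha.trans_le (ENNReal.ofReal_le_ofReal haδ.le))
  have ix := (L1.integrable_coeFn x).abs
  have iy := (L1.integrable_coeFn y).abs
  have ixA := ix.indicator hAm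
  have iyg := integrable_mul_sg g y
  have i1 := (L1.integrable_coeFn (x + t • y)).abs
  have i2 := (L1.integrable_coeFn (x - t • y)).abs
  have h2 : ∫ z, (2 * |(x : Ω → ℝ) z| - 2 * A.indicator (fun z => |(x : Ω → ℝ) z|) z +
      t * (|(y : Ω → ℝ) z| - (y : Ω → ℝ) z * sg g z - 2 * δ)) ∂P ≤
      ∫ z, (|(x + t • y : Lp ℝ 1 P) z| + |(x - t • y : Lp ℝ 1 P) z|) ∂P := by
    refine integral_mono_ae (((ix.const_mul 2).sub (ixA.const_mul 2)).add
      (((iy.sub iyg).sub (integrable_const _)).const_mul t)) (i1.add i2) ?_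
    filter_upwards [Lp.coeFn_add x (t • y), Lp.coeFn_sub x (t • y), Lp.coeFn_smul t y]
      with z e1 e2 e3
    rw [e1, e2, Pi.add_apply, Pi.sub_apply, e3, Pi.smul_apply, smul_eq_mul]
    have := pointwise (x z) (y z) (g z) t a δ ht haδ.le hδ.le
    simpa only [Set.indicator_apply, hA, Set.mem_ofPred_eq, sg] using this
  have j1 : Integrable (fun z => 2 * |(x : Ω → ℝ) z| -
      2 * A.indicator (fun z => |(x : Ω → ℝ) z|) z) P := (ix.const_mul 2).sub (ixA.const_mul 2)
  have j2 : Integrable (fun z => |(y : Ω → ℝ) z| - (y : Ω → ℝ) z * sg g z) P := iy.sub iyg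
  have j3 : Integrable (fun z => |(y : Ω → ℝ) z| - (y : Ω → ℝ) z * sg g z - 2 * δ) P :=
    j2.sub (integrable_const _)
  rw [integral_add i1 i2, integral_add j1 (j3.const_mul t),
    integral_sub (ix.const_mul 2) (ixA.const_mul 2), integral_const_mul, integral_const_mul,
    integral_const_mul, integral_sub j2 (integrable_const _), integral_sub iy iyg,
    integral_indicator hAm, ← pairSg_apply, hy] at h2
  simp only [L1.norm_eq_integral_norm, Real.norm_eq_abs]
  simp only [integral_const, probReal_univ, smul_eq_mul, one_mul, sub_zero] at h2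
  linarith

end aux

/-- Let E be an infinite-dimensional closed subspace of the real L¹ of a probability space whose closed unit ball is totally bounded for convergence in measure and whose norm has the Daugavet property. Then at every unit x ∈ E and every t > 0 the averaged midpoint quantity sup_F inf_y ((‖x+ty‖+‖x-ty‖)/2 - 1) equals max(t/2, t-1) and the one-sided one sup_F inf_y (‖x+ty‖ - 1) equals max(0, t-2), as matching lower and upper bounds, and E admits no equivalent asymptotically uniformly convex norm. -/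
theorem result (Ω : Type) [MeasurableSpace Ω] (P : MeasureTheory.Measure Ω) [MeasureTheory.IsProbabilityMeasure P]
    (E : Submodule ℝ (MeasureTheory.Lp ℝ 1 P)) (hcl : IsClosed (E : Set (MeasureTheory.Lp ℝ 1 P)))
    (hinf : ¬ FiniteDimensional ℝ E)
    (htb : Crest.AnalysisR.L1Subspace.UnitBallTotallyBoundedInMeasure P E)
    (hD : Crest.AnalysisR.L1Subspace.HasDaugavetProperty E) :
    (∀ t : ℝ, 0 < t →
      (Crest.AnalysisR.L1Subspace.toRealBanach P E hcl).MidpointModulusGE
          (Crest.AnalysisR.L1Subspace.toRealBanach P E hcl).norm t (max (t / 2) (t - 1)) ∧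
        (Crest.AnalysisR.L1Subspace.toRealBanach P E hcl).MidpointModulusLE
          (Crest.AnalysisR.L1Subspace.toRealBanach P E hcl).norm t (max (t / 2) (t - 1)) ∧
        (Crest.AnalysisR.L1Subspace.toRealBanach P E hcl).OneSidedModulusGE
          (Crest.AnalysisR.L1Subspace.toRealBanach P E hcl).norm t (max 0 (t - 2)) ∧
        (Crest.AnalysisR.L1Subspace.toRealBanach P E hcl).OneSidedModulusLE
          (Crest.AnalysisR.L1Subspace.toRealBanach P E hcl).norm t (max 0 (t - 2))) ∧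
      ∀ N : E → ℝ, (Crest.AnalysisR.L1Subspace.toRealBanach P E hcl).IsEquivNorm N →
        ¬ (Crest.AnalysisR.L1Subspace.toRealBanach P E hcl).IsAUC N := by
  have hc : CompleteSpace E := hcl.completeSpace_coe
  have hnt : Nontrivial E := by
    by_contra h
    rw [not_nontrivial_iff_subsingleton] at h
    exact hinf inferInstance
  have tri : ∀ (x y : E) (t : ℝ), 0 < t → ‖y‖ = 1 →
      2 * t ≤ ‖x + t • y‖ + ‖x - t • y‖ ∧ t - ‖x‖ ≤ ‖x + t • y‖ ∧ ‖x - t • y‖ ≤ ‖x‖ + t := by
    intro x y t ht hy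
    have hty : ‖t • y‖ = t := by rw [norm_smul, hy, mul_one, Real.norm_of_nonneg ht.le]
    refine ⟨?_, ?_, ?_⟩
    · have e1 : (2 : ℝ) • (t • y) = (x + t • y) - (x - t • y) := by module
      have e2 := norm_sub_le (x + t • y) (x - t • y)
      rw [← e1, norm_smul, hty] at e2
      simpa using e2
    · have e2 := norm_sub_le (x + t • y) x
      rw [add_sub_cancel_left, hty] at e2
      linarith
    · have e2 := norm_sub_le x (t • y)
      rwa [hty] at e2
  refine ⟨fun t ht => ⟨?_, ?_, ?_, ?_⟩, fun N hN => daug_not_AUC hD hc N hN⟩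
  · rintro (x : E) hx η hη
    have hx : ‖(x : E)‖ = 1 := hx
    obtain ⟨δ₁, hδ₁, hsmall⟩ := exists_small ((x : E) : Lp ℝ 1 P) (η / 2) (half_pos hη)
    set δ := min δ₁ (η / (2 * t)) with hδ
    have hδ0 : 0 < δ := by positivity
    have hδ2 : δ * (2 * t) ≤ η := (le_div_iff₀ (by positivity)).1 (min_le_right _ _)
    obtain ⟨s, -, hs⟩ := htb δ hδ0
    have hS : Cof (⨅ g ∈ s, LinearMap.ker ((pairSg g).comp E.subtypeL).toLinearMap) :=
      cof_biInf s _ fun g _ => cof_ker _
    refine ⟨_, hS.isCof hc, fun (y : E) hyS hy => ?_⟩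
    have hy : ‖(y : E)‖ = 1 := hy
    obtain ⟨g, hg, hgy⟩ := hs ((y : E) : Lp ℝ 1 P) (y : E).2 hy.le
    have hy0 : pairSg g ((y : E) : Lp ℝ 1 P) = 0 := by
      have hyS' : y ∈ ⨅ g ∈ s, LinearMap.ker ((pairSg g).comp E.subtypeL).toLinearMap := hyS
      simp only [Submodule.mem_iInf] at hyS'
      exact hyS' g hg
    have h1 := lower ((x : E) : Lp ℝ 1 P) ((y : E) : Lp ℝ 1 P) g t δ (η / 2) ht hδ0
      (fun A hA => hsmall A (hA.trans_le (ENNReal.ofReal_le_ofReal (min_le_left _ _)))) hgy hy0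
    have h2 : 2 * ‖(x : E)‖ - 2 * (η / 2) + t * (‖(y : E)‖ - 2 * δ) ≤
      ‖(x : E) + t • (y : E)‖ + ‖(x : E) - t • (y : E)‖ := h1
    rw [hx, hy] at h2
    have h3 := (tri x y t ht hy).1
    change _ ≤ (‖(x : E) + t • (y : E)‖ + ‖(x : E) - t • (y : E)‖) / 2 - 1
    rw [sub_le_iff_le_add, max_le_iff]
    constructor <;> nlinarith
  · rintro (x : E) hx F hF η hη
    have hx : ‖(x : E)‖ = 1 := hx
    obtain ⟨S, rfl, hS⟩ := exists_cof_of_isCof hc hF
    obtain ⟨y, hyS, hy, h⟩ := daug_direction hD hS (x : E) hx η hη t ht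
    refine ⟨y, hyS, hy, ?_⟩
    have h3 := (tri x y t ht hy).2.2
    change (‖(x : E) + t • y‖ + ‖(x : E) - t • y‖) / 2 - 1 ≤ _
    have h4 := le_max_left (t / 2) (t - 1)
    have h5 := le_max_right (t / 2) (t - 1)
    rcases max_cases 0 (t - 2) with h6 | h6 <;> linarith [h6.1]
  · rintro (x : E) hx η hη
    have hx : ‖(x : E)‖ = 1 := hx
    obtain ⟨φ, hφ1, hφ2⟩ := exists_dual_vector'' ℝ (x : E)
    refine ⟨_, (cof_ker φ).isCof hc, fun (y : E) hyS hy => ?_⟩
    have hy : ‖(y : E)‖ = 1 := hy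
    have hy0 : φ (y : E) = 0 := hyS
    have h3 := (tri x y t ht hy).2.1
    have h4 := (le_abs_self _).trans (φ.le_opNorm ((x : E) + t • (y : E)))
    rw [map_add, map_smul, hy0, hφ2, hx] at h4
    simp only [smul_zero, add_zero, RCLike.ofReal_real_eq_id, id] at h4
    change _ ≤ ‖(x : E) + t • (y : E)‖ - 1
    rw [sub_le_iff_le_add, max_le_iff]
    constructor <;> nlinarith [norm_nonneg ((x : E) + t • (y : E))]
  · rintro (x : E) hx F hF η hη
    have hx : ‖(x : E)‖ = 1 := hx
    obtain ⟨S, rfl, hS⟩ := exists_cof_of_isCof hc hF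
    obtain ⟨y, hyS, hy, h⟩ := daug_direction hD hS (x : E) hx η hη t ht
    exact ⟨y, hyS, hy, h⟩

end Crest.Agent.S0167
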