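import Crest.Statements.S0168
import Crest.Agent.R125.Tree

set_option autoImplicit false
open Crest Crest.AnalysisR

namespace Crest.Agent.S0168

open Crest.Agent.R125 Crest.AnalysisR.TreePotential

/-- The coordinate vectors as members of the model space. -/
noncomputable def cv (m : PotentialModel) (s : List ℕ) : modelSpace m :=
  ⟨coordVector m s, Submodule.le_topologicalClosure _ (Submodule.subset_span ⟨s, rfl⟩)⟩

/-- Evaluation at a test. -/
noncomputable def ev (m : PotentialModel) (f : PotentialTest m) : modelSpace m →L[ℝ] ℝ :=
  (lp.evalCLM ℝ (fun _ : PotentialTest m => ℝ) ⊤ f).comp (modelSpace m).subtypeL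

theorem ev_apply (m : PotentialModel) (f : PotentialTest m) (x : modelSpace m) :
    ev m f x = (x : lp (fun _ : PotentialTest m => ℝ) ⊤) f := rfl

theorem ev_cv (m : PotentialModel) (f : PotentialTest m) (s : List ℕ) :
    ev m f (cv m s) = f.1 s := rfl

theorem antichain_children (r : List ℕ) (A : Finset ℕ) :
    IsTreeAntichain (A.image fun n => n :: r) := by
  intro u hu v hv huv h
  obtain ⟨a, -, rfl⟩ := Finset.mem_image.1 hu
  obtain ⟨b, -, rfl⟩ := Finset.mem_image.1 hv
  exact huv (h.eq_of_length (by simp))

theorem treeSys (m : PotentialModel) :
    TreeSys (modelSpace m) (cv m) (fun _ => True) (ExtraCondition m) (PotentialTest m) (ev m) where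
  dense := dense_span_closure (coordVector m) (cv m) fun _ => rfl
  tail := fun _ _ _ => trivial
  pot := fun f s _ => f.2.1 s
  extra := fun f => f.2.2
  real := fun h h1 h2 => ⟨⟨h, fun s => h1 s trivial, h2⟩, fun _ => rfl⟩
  le_norm := fun f x => by
    rw [ev_apply]
    exact (le_abs_self _).trans (lp.norm_apply_le_norm ENNReal.top_ne_zero
      (x : lp (fun _ : PotentialTest m => ℝ) ⊤) f)
  norm_le := fun x r hr h => lp.norm_le_of_forall_le hr h
  dom := by
    intro f g h α β hf hg hαβ hh
    have hz : ∀ s, f s = 0 → g s = 0 → h s = 0 := by
      intro s h1 h2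
      have := hh s
      rw [h1, h2] at this
      exact pow_eq_zero_iff (two_ne_zero) |>.1 (le_antisymm (by simpa using this) (sq_nonneg _))
    cases m with
    | rootlessSibling =>
      exact ⟨hz _ hf.1 hg.1, fun r A => sum_sq_le_of_dom A (fun n => f (n :: r))
        (fun n => g (n :: r)) (fun n => h (n :: r)) α β (hf.2 r A) (hg.2 r A) hαβ fun _ => hh _⟩
    | rootedSibling =>
      exact fun r A => sum_sq_le_of_dom A (fun n => f (n :: r))
        (fun n => g (n :: r)) (fun n => h (n :: r)) α β (hf r A) (hg r A) hαβ fun _ => hh _
    | antichain =>
      refine ⟨(hf.1.union hg.1).subset fun s hs => ?_, fun A hA =>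
        sum_sq_le_of_dom A f g h α β (hf.2 A hA) (hg.2 A hA) hαβ hh⟩
      by_contra hcon
      simp only [Set.mem_union, Function.mem_support, not_or, not_not] at hcon
      exact hs (hz s hcon.1 hcon.2)
    | global => exact fun A => sum_sq_le_of_dom A f g h α β (hf A) (hg A) hαβ hh
  sib := by
    intro f hf r A
    have himg : ∑ n ∈ A, f (n :: r) ^ 2 = ∑ u ∈ A.image (fun n => n :: r), f u ^ 2 := by
      rw [Finset.sum_image fun a _ b _ h => (List.cons.inj h).1]
    cases m with
    | rootlessSibling => exact hf.2 r A
    | rootedSibling => exact hf r A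
    | antichain => rw [himg]; exact hf.2 _ (antichain_children r A)
    | global => rw [himg]; exact hf _
  single := by
    intro a v
    cases m with
    | rootlessSibling =>
      exact ⟨by simp, fun r A => sum_single_sq_le _ A (fun n => n :: r)
        fun _ _ h => (List.cons.inj h).1⟩
    | rootedSibling =>
      exact fun r A => sum_single_sq_le _ A (fun n => n :: r) fun _ _ h => (List.cons.inj h).1
    | antichain =>
      exact ⟨(Set.finite_singleton (a :: v)).subset Pi.support_single_subset, fun A _ =>
        sum_single_sq_le _ A id Function.injective_id⟩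
    | global => exact fun A => sum_single_sq_le _ A id Function.injective_id

/-- For each of the four bounded-potential coordinate models on the countably branching tree (rootless sibling, rooted sibling, antichain, global), the generated space, namely the closure of the span of the coordinate vectors in the supremum norm over the model's tests, is separable and infinite-dimensional, its norm has at every unit centre and every 0 < t < 1 averaged midpoint asymptotic quantity at least √(1 + t²/4) - 1, and no equivalent norm on it is asymptotically uniformly convex. -/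
theorem result
    (m : Crest.AnalysisR.TreePotential.PotentialModel) :
    (Crest.AnalysisR.TreePotential.modelBanach m).IsSeparableInfiniteDim ∧
      (∀ t : ℝ, 0 < t → t < 1 →
        (Crest.AnalysisR.TreePotential.modelBanach m).MidpointModulusGE
          (Crest.AnalysisR.TreePotential.modelBanach m).norm t (Real.sqrt (1 + t ^ 2 / 4) - 1)) ∧
      ∀ N : (Crest.AnalysisR.TreePotential.modelBanach m).X → ℝ,
        (Crest.AnalysisR.TreePotential.modelBanach m).IsEquivNorm N →
          ¬ (Crest.AnalysisR.TreePotential.modelBanach m).IsAUC N := by
  have h := treeSys m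
  have hc : CompleteSpace (modelSpace m) :=
    (Submodule.isClosed_topologicalClosure _).completeSpace_coe
  refine ⟨⟨h.separable, h.not_finiteDimensional⟩, fun t ht _ => h.star.midpoint hc t ht _ le_rfl,
    fun N hN => ?_⟩
  refine not_AUC_of_trees hc 1 1 one_pos (fun _ => ⟨pathSum (cv m),
    fun s _ => h.norm_pathSum_le s trivial, h.one_le_norm_pathSum, fun s a => ?_, fun s => ?_⟩) N hN
  · simpa [pathSum] using h.one_le_norm a s
  · simpa [pathSum] using h.weakNull s

end Crest.Agent.S0168
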