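import Crest.Statements.S0169
import Crest.Agent.R125.Basic

set_option autoImplicit false
open MeasureTheory ProbabilityTheory
open Crest Crest.AnalysisR

namespace Crest.Agent.S0169

open Crest.Agent.R125 Crest.AnalysisR.TreeProduct

section aux

variable {Ω : Type} [mΩ : MeasurableSpace Ω] {μ : Measure Ω} [IsProbabilityMeasure μ]
  {W : List ℕ → Ω → ℝ} {ν : Measure ℝ}

/-- The sigma-algebra generated by the multipliers at the vertices of `S`. -/
@[reducible] def sig (W : List ℕ → Ω → ℝ) (S : Set (List ℕ)) : MeasurableSpace Ω :=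
  ⨆ u ∈ S, MeasurableSpace.comap (W u) inferInstance

omit mΩ in
theorem measurable_sig {S : Set (List ℕ)} {u : List ℕ} (hu : u ∈ S) :
    Measurable[sig W S] (W u) := by
  rw [measurable_iff_comap_le]
  exact le_iSup₂ (f := fun u (_ : u ∈ S) => MeasurableSpace.comap (W u) inferInstance) u hu

omit mΩ in
theorem measurable_path_sig (n : ℕ) : ∀ v : List ℕ, v.length ≤ n →
    Measurable[sig W {u | u.length ≤ n}] (pathProduct W v)
  | [], _ => measurable_const
  | a :: v, h => by
    have h1 := measurable_path_sig n v ((Nat.le_succ _).trans h)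
    have h2 : Measurable[sig W {u | u.length ≤ n}] (W (a :: v)) := measurable_sig h
    exact h1.mul h2

omit [IsProbabilityMeasure μ] in
theorem indep_path (hW : IsRealization ν μ W) (v : List ℕ) {Y : Ω → ℝ}
    (hY : Measurable[sig W {u | u.length = v.length + 1}] Y) :
    IndepFun (pathProduct W v) Y μ := by
  have h1 := indep_iSup_of_disjoint (fun u => (hW.1 u).comap_le)
    ((iIndepFun_iff_iIndep _ _ _).1 hW.2.1) (S := {u | u.length ≤ v.length})
    (T := {u | u.length = v.length + 1}) (by
      rw [Set.disjoint_left]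
      intro u h1 h2
      have h1 : u.length ≤ v.length := h1
      have h2 : u.length = v.length + 1 := h2
      omega)
  rw [IndepFun_iff_Indep]
  exact indep_of_indep_of_le_right (indep_of_indep_of_le_left h1
    (measurable_path_sig _ v le_rfl).comap_le) hY.comap_le

omit [IsProbabilityMeasure μ] in
theorem measurable_path (hW : IsRealization ν μ W) : ∀ v : List ℕ, Measurable (pathProduct W v)
  | [] => measurable_const
  | _ :: v => (measurable_path hW v).mul (hW.1 _)

omit [IsProbabilityMeasure μ] in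
theorem integral_comp (hW : IsRealization ν μ W) (a : ℕ) (v : List ℕ) (g : ℝ → ℝ)
    (hg : Measurable g) : ∫ z, g (W (a :: v) z) ∂μ = ∫ x, g x ∂ν := by
  rw [← hW.2.2 (a :: v) (by simp), integral_map (hW.1 _).aemeasurable hg.aestronglyMeasurable]

omit [IsProbabilityMeasure μ] in
theorem memLp_W (hW : IsRealization ν μ W) (hm2 : Integrable (fun x : ℝ => x ^ 2) ν) (a : ℕ)
    (v : List ℕ) : MemLp (W (a :: v)) 2 μ := by
  rw [memLp_two_iff_integrable_sq (hW.1 _).aestronglyMeasurable]
  rw [← hW.2.2 (a :: v) (by simp)] at hm2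
  exact hm2.comp_aemeasurable (hW.1 _).aemeasurable

omit [IsProbabilityMeasure μ] in
theorem W_pos [IsProbabilityMeasure ν] (hW : IsRealization ν μ W) (hpos : ν (Set.Ioi 0) = 1)
    (a : ℕ) (v : List ℕ) : ∀ᵐ z ∂μ, 0 ≤ W (a :: v) z := by
  have h1 : ∀ᵐ x ∂ν, x ∈ Set.Ioi (0 : ℝ) :=
    (mem_ae_iff_prob_eq_one measurableSet_Ioi).2 hpos
  rw [← hW.2.2 (a :: v) (by simp)] at h1
  filter_upwards [ae_of_ae_map (hW.1 _).aemeasurable h1] with z hz
  exact le_of_lt hz

omit [IsProbabilityMeasure μ] in
theorem path_nonneg [IsProbabilityMeasure ν] (hW : IsRealization ν μ W)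
    (hpos : ν (Set.Ioi 0) = 1) : ∀ v : List ℕ, ∀ᵐ z ∂μ, 0 ≤ pathProduct W v z
  | [] => Filter.Eventually.of_forall fun _ => zero_le_one
  | a :: v => by
    filter_upwards [path_nonneg hW hpos v, W_pos hW hpos a v] with z h1 h2
    exact mul_nonneg h1 h2

theorem integrable_path (hW : IsRealization ν μ W) (hm2 : Integrable (fun x : ℝ => x ^ 2) ν) :
    ∀ v : List ℕ, Integrable (pathProduct W v) μ
  | [] => integrable_const (1 : ℝ)
  | a :: v => (indep_path hW v (measurable_sig (by simp))).integrable_mul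
      (integrable_path hW hm2 v) ((memLp_W hW hm2 a v).integrable one_le_two)

theorem integral_path (hW : IsRealization ν μ W) (hmean : ∫ x, x ∂ν = 1) :
    ∀ v : List ℕ, ∫ z, pathProduct W v z ∂μ = 1
  | [] => by simp [pathProduct]
  | a :: v => by
    have h1 := (indep_path hW v (Y := W (a :: v))
      (measurable_sig (by simp))).integral_fun_mul_eq_mul_integral
      (measurable_path hW v).aestronglyMeasurable (hW.1 _).aestronglyMeasurable
    have h2 := integral_comp hW a v id measurable_id
    simp only [id] at h2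
    simp only [pathProduct]
    rw [h1, integral_path hW hmean v, h2, hmean, one_mul]

theorem integral_abs_mul [IsProbabilityMeasure ν] (hW : IsRealization ν μ W)
    (hpos : ν (Set.Ioi 0) = 1) (hmean : ∫ x, x ∂ν = 1) (v : List ℕ) {Y : Ω → ℝ}
    (hY' : Measurable Y) (hY : Measurable[sig W {u | u.length = v.length + 1}] Y) :
    ∫ z, |pathProduct W v z * Y z| ∂μ = ∫ z, |Y z| ∂μ := by
  have h1 := (indep_path hW v (Y := fun z => |Y z|)
      (measurable_abs.comp hY)).integral_fun_mul_eq_mul_integral
      (measurable_path hW v).aestronglyMeasurable hY'.abs.aestronglyMeasurable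
  rw [integral_path hW hmean v, one_mul] at h1
  rw [← h1]
  refine integral_congr_ae ?_
  filter_upwards [path_nonneg hW hpos v] with z hz
  rw [abs_mul, abs_of_nonneg hz]

theorem integral_abs_le_sqrt {Y : Ω → ℝ} (hY : MemLp Y 2 μ) (h0 : ∫ z, Y z ∂μ = 0) :
    ∫ z, |Y z| ∂μ ≤ √(variance Y μ) := by
  apply Real.le_sqrt_of_sq_le
  have h1 := variance_nonneg (fun z => |Y z|) μ
  have hY' : MemLp (fun z => |Y z|) 2 μ := hY.abs
  rw [variance_eq_sub hY'] at h1
  rw [variance_eq_sub hY]
  have h2 : ∫ z, ((fun z => |Y z|) ^ 2) z ∂μ = ∫ z, (Y ^ 2) z ∂μ := by simp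
  have h3 : ∫ z, Y z ∂μ = 0 := h0
  rw [h2] at h1
  rw [h3]
  linarith

theorem integral_abs_sum_le (hW : IsRealization ν μ W) (hmean : ∫ x, x ∂ν = 1)
    (hm2 : Integrable (fun x : ℝ => x ^ 2) ν) (v : List ℕ) (A : Finset ℕ) (c : ℕ → ℝ) :
    ∫ z, |∑ a ∈ A, c a * (W (a :: v) z - 1)| ∂μ ≤ √(∫ x, x ^ 2 ∂ν) * √(∑ a ∈ A, c a ^ 2) := by
  have hL : ∀ a, MemLp (fun z => c a * (W (a :: v) z - 1)) 2 μ := fun a =>
    ((memLp_W hW hm2 a v).sub (memLp_const 1)).const_mul _
  have hW1 : ∀ a, ∫ z, W (a :: v) z ∂μ = 1 := fun a =>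
    (integral_comp hW a v id measurable_id).trans hmean
  have h1 := integral_abs_le_sqrt (memLp_finsetSum A fun a _ => hL a) (by
    rw [integral_finsetSum _ fun a _ => (hL a).integrable one_le_two]
    refine Finset.sum_eq_zero fun a _ => ?_
    rw [integral_const_mul, integral_sub ((memLp_W hW hm2 a v).integrable one_le_two)
      (integrable_const _), hW1]
    simp)
  refine h1.trans ?_
  have h2 := IndepFun.variance_sum (μ := μ) (s := A)
    (X := fun a z => c a * (W (a :: v) z - 1)) (fun a _ => hL a) (by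
      intro a _ b _ hab
      have := hW.2.1.indepFun (i := a :: v) (j := b :: v) fun h => hab (List.cons.inj h).1
      exact this.comp (φ := fun x : ℝ => c a * (x - 1)) (ψ := fun x : ℝ => c b * (x - 1))
        (by fun_prop) (by fun_prop))
  have h3 : (∑ a ∈ A, fun z => c a * (W (a :: v) z - 1)) =
      fun z => ∑ a ∈ A, c a * (W (a :: v) z - 1) := by
    funext z
    simp
  rw [h3] at h2
  rw [h2, ← Real.sqrt_mul (integral_nonneg fun x => sq_nonneg x), Finset.mul_sum]
  refine Real.sqrt_le_sqrt (Finset.sum_le_sum fun a _ => ?_)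
  rw [variance_const_mul, variance_sub_const (hW.1 _).aestronglyMeasurable, mul_comm]
  refine mul_le_mul_of_nonneg_right ?_ (sq_nonneg _)
  refine (variance_le_expectation_sq (hW.1 _).aestronglyMeasurable).trans (le_of_eq ?_)
  exact integral_comp hW a v (fun x => x ^ 2) (by fun_prop)

theorem delta_pos [IsProbabilityMeasure ν] (hnc : ∀ c : ℝ, ν ≠ Measure.dirac c)
    (hm2 : Integrable (fun x : ℝ => x ^ 2) ν) : 0 < ∫ x, |x - 1| ∂ν := by
  have h1 : MemLp (fun x : ℝ => x) 2 ν :=
    (memLp_two_iff_integrable_sq measurable_id.aestronglyMeasurable).2 hm2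
  have h2 : Integrable (fun x : ℝ => |x - 1|) ν :=
    ((h1.integrable one_le_two).sub (integrable_const 1)).abs
  rcases (integral_nonneg (μ := ν) (f := fun x : ℝ => |x - 1|)
    fun x => abs_nonneg _).eq_or_lt with h | h
  · exfalso
    have h3 := (integral_eq_zero_iff_of_nonneg (fun x => abs_nonneg _) h2).1 h.symm
    apply hnc 1
    have h4 : (id : ℝ → ℝ) =ᵐ[ν] fun _ => 1 := by
      filter_upwards [h3] with x hx
      simpa [sub_eq_zero] using hx
    have h5 : Measure.map id ν = Measure.map (fun _ => (1 : ℝ)) ν := Measure.map_congr h4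
    rw [Measure.map_id, Measure.map_const] at h5
    simpa using h5
  · exact h

end aux

/-- Let ν be a Borel probability law on ℝ carried by (0,∞), not a point mass, with mean 1 and finite second moment, and W an independent family of real random variables on a probability space indexed by the vertices of the countably branching tree (finite lists of naturals; root [], parent of a :: v is v), each non-root one with law ν. Then the closed linear span in L¹ of the path products ∏_{root ≺ u ≼ v} W_u is infinite-dimensional and has no equivalent asymptotically uniformly convex norm. -/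
theorem result (ν : Measure ℝ) [IsProbabilityMeasure ν] (hpos : ν (Set.Ioi 0) = 1)
    (hnc : ∀ c : ℝ, ν ≠ Measure.dirac c) (hmean : ∫ x, x ∂ν = 1)
    (hm2 : Integrable (fun x : ℝ => x ^ 2) ν)
    (Ω : Type) [MeasurableSpace Ω] (μ : Measure Ω) [IsProbabilityMeasure μ]
    (W : List ℕ → Ω → ℝ) (hW : Crest.AnalysisR.TreeProduct.IsRealization ν μ W) :
    ¬ FiniteDimensional ℝ (Crest.AnalysisR.TreeProduct.productSpan μ W) ∧
      ∀ N : (Crest.AnalysisR.TreeProduct.spanBanach μ W).X → ℝ,
        (Crest.AnalysisR.TreeProduct.spanBanach μ W).IsEquivNorm N →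
          ¬ (Crest.AnalysisR.TreeProduct.spanBanach μ W).IsAUC N := by
  have hc : CompleteSpace (productSpan μ W) :=
    (Submodule.isClosed_topologicalClosure _).completeSpace_coe
  let y : List ℕ → Lp ℝ 1 μ := fun v => (integrable_path hW hm2 v).toL1 _
  have hy : ∀ v, (y v : Ω → ℝ) =ᵐ[μ] pathProduct W v := fun v => Integrable.coeFn_toL1 _
  let x : List ℕ → productSpan μ W := fun v =>
    ⟨y v, Submodule.le_topologicalClosure _ (Submodule.subset_span ⟨v, hy v⟩)⟩
  have hnorm : ∀ v, ‖x v‖ = 1 := by
    intro v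
    change ‖y v‖ = 1
    rw [L1.norm_eq_integral_norm, ← integral_path hW hmean v]
    refine integral_congr_ae ?_
    filter_upwards [hy v, path_nonneg hW hpos v] with z h1 h2
    rw [h1, Real.norm_of_nonneg h2]
  have hsum : ∀ (v : List ℕ) (A : Finset ℕ) (c : ℕ → ℝ), ‖∑ a ∈ A, c a • (x (a :: v) - x v)‖ =
      ∫ z, |∑ a ∈ A, c a * (W (a :: v) z - 1)| ∂μ := by
    intro v A c
    have h1 : ‖∑ a ∈ A, c a • (x (a :: v) - x v)‖ = ‖∑ a ∈ A, c a • (y (a :: v) - y v)‖ := by
      rw [Submodule.coe_norm]
      simp [x]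
    rw [h1, L1.norm_eq_integral_norm, ← integral_abs_mul hW hpos hmean v
      (Finset.measurable_sum A fun a _ => ((hW.1 _).sub_const 1).const_mul _)
      (Finset.measurable_sum A fun a _ =>
        ((measurable_sig (S := {u | u.length = v.length + 1}) (by simp)).sub_const 1).const_mul _)]
    refine integral_congr_ae ?_
    have h2 : ∀ a, ((c a • (y (a :: v) - y v) : Lp ℝ 1 μ) : Ω → ℝ) =ᵐ[μ]
        fun z => pathProduct W v z * (c a * (W (a :: v) z - 1)) := by
      intro a
      filter_upwards [Lp.coeFn_smul (c a) (y (a :: v) - y v), Lp.coeFn_sub (y (a :: v)) (y v),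
        hy (a :: v), hy v] with z e1 e2 e3 e4
      rw [e1, Pi.smul_apply, e2, Pi.sub_apply, e3, e4]
      simp only [pathProduct, smul_eq_mul]
      ring
    filter_upwards [Lp.coeFn_finsetSum A fun a => c a • (y (a :: v) - y v),
      ae_all_iff.2 h2] with z e1 e2
    rw [e1, Real.norm_eq_abs, Finset.sum_apply, Finset.mul_sum]
    congr 1
    exact Finset.sum_congr rfl fun a _ => e2 a
  set δ := ∫ x, |x - 1| ∂ν with hδ
  have hδ0 : 0 < δ := delta_pos hnc hm2
  have hjump : ∀ v a, ‖x (a :: v) - x v‖ = δ := by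
    intro v a
    have h1 := hsum v {a} fun _ => 1
    simp only [Finset.sum_singleton, one_smul, one_mul] at h1
    rw [h1]
    exact integral_comp hW a v (fun x => |x - 1|) (by fun_prop)
  have hwn : ∀ v, WeakNull fun a => x (a :: v) - x v := fun v =>
    weakNull_of_sq_bound _ (√(∫ x, x ^ 2 ∂ν)) fun A c => by
      rw [hsum]
      exact integral_abs_sum_le hW hmean hm2 v A c
  refine ⟨not_finiteDimensional_of_weakNull (hwn []) hδ0 fun a => (hjump [] a).ge, fun N hN => ?_⟩
  exact not_AUC_of_trees hc (min δ 1) 1 (lt_min hδ0 one_pos) (fun _ => ⟨x,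
    fun s _ => (hnorm s).le, (min_le_right _ _).trans (hnorm _).ge,
    fun s a => (min_le_left _ _).trans (hjump s a).ge, hwn⟩) N hN

end Crest.Agent.S0169
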