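import Crest.Statements.S0172
import Crest.Agent.R128.Final
import Crest.Agent.R128.Meas
import Crest.Agent.R128.Max
import Crest.Agent.R128.ModelA
import Crest.Agent.R128.ModelB
import Crest.Agent.R128.Cell
import Crest.Agent.R128.Match
import Crest.Agent.R128.Node
import Crest.Agent.R128.Res
import Crest.Agent.R128.Leaf
import Crest.Agent.R128.Two
import Crest.Agent.R128.Prod
import Crest.Agent.R128.Struct
import Crest.Agent.R128.Pair
import Crest.Agent.R128.Cplx
import Crest.Agent.R128.Inner
import Crest.Agent.R128.One

set_option autoImplicit false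
open Crest.AnalysisR.StandardFamily
open Crest Crest.AnalysisR Crest.AnalysisR.StandardFamily

namespace Crest.Agent.S0172

/-- For every sufficiently large parameter `k`, the standard map `(x, y) ↦ (x + y + k sin 2πx, y + k sin 2πx)` of the two-torus has a positive upper Lyapunov exponent on a set of positive area: the set of points `p` of the unit square for which some `c > 0` has `log ‖D(F^n)(p)‖ ≥ c·n` for infinitely many `n`, where `F` is the lift of the map to the plane, has positive Lebesgue measure. -/
theorem result :
    ∃ k₀ : ℝ, 0 < k₀ ∧ ∀ k : ℝ, k₀ ≤ k →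
      0 < MeasureTheory.volume ({p : ℝ × ℝ | ∃ c : ℝ, 0 < c ∧
          ∃ᶠ n : ℕ in Filter.atTop, c * n ≤ Real.log ‖fderiv ℝ (standardMapLift k)^[n] p‖} ∩
        Set.Ico (0 : ℝ) 1 ×ˢ Set.Ico (0 : ℝ) 1) := by
  have hside := R128.side R128.taylor
  have hone := R128.one R128.cplx R128.taylor (R128.inner R128.cplx R128.taylor)
  have hnode := R128.node (R128.cell hone R128.pt hside (R128.modelA R128.space))
    (R128.mtch hside R128.pt (R128.modelB R128.space)) hside R128.pt
  exact R128.final R128.meas R128.maxi (R128.prod R128.meas R128.leaf R128.stab R128.two) R128.struct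
    (R128.res R128.meas (R128.pairs R128.maxi) hnode hside R128.pt)

end Crest.Agent.S0172
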