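import Crest.Statements.S0175
import Crest.Agent.R130.Main
import Crest.Agent.R130.Split

set_option autoImplicit false
open MeasureTheory
open scoped ENNReal ContDiff
open Crest.AnalysisR.OT
open Crest Crest.AnalysisR Crest.AnalysisR.OT

namespace Crest.Agent.S0175

/-- For every d ≥ 2 and s > 0 there is a smooth, compactly supported, nonnegative ρ on ℝᵈ with integral 1 and smooth square root such that, for μ = ρ dx and the cost summing ‖xᵢ - xⱼ‖^(-s) over the three pairs of a triple: some coupling with all three marginals μ has finite cost, minimal among all such couplings; every pair of Borel maps T₂, T₃ pushing μ to itself gives the plan x ↦ (x, T₂ x, T₃ x) strictly larger cost; and such pairs have costs arbitrarily close to that minimum. -/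
theorem result
    (d : ℕ) (hd : 2 ≤ d) (s : ℝ) (hs : 0 < s) :
    ∃ ρ : EuclideanSpace ℝ (Fin d) → ℝ, (∀ x, 0 ≤ ρ x) ∧ ContDiff ℝ ∞ ρ ∧ HasCompactSupport ρ ∧
      ContDiff ℝ ∞ (fun x => Real.sqrt (ρ x)) ∧ ∫ x, ρ x = 1 ∧
      ∃ π₀ : Measure (EuclideanSpace ℝ (Fin d) × EuclideanSpace ℝ (Fin d) × EuclideanSpace ℝ (Fin d)),
        IsCoupling₃ (measOfDensity ρ) π₀ ∧ ∫⁻ p, tripleCost s p ∂π₀ < ⊤ ∧
        (∀ π : Measure (EuclideanSpace ℝ (Fin d) × EuclideanSpace ℝ (Fin d) × EuclideanSpace ℝ (Fin d)), IsCoupling₃ (measOfDensity ρ) π →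
          ∫⁻ p, tripleCost s p ∂π₀ ≤ ∫⁻ p, tripleCost s p ∂π) ∧
        (∀ T₂ T₃ : EuclideanSpace ℝ (Fin d) → EuclideanSpace ℝ (Fin d), Measurable T₂ → Measurable T₃ →
          (measOfDensity ρ).map T₂ = measOfDensity ρ → (measOfDensity ρ).map T₃ = measOfDensity ρ →
          ∫⁻ p, tripleCost s p ∂π₀ < ∫⁻ x, tripleCost s (x, T₂ x, T₃ x) ∂(measOfDensity ρ)) ∧
        (∀ ε : ℝ≥0∞, 0 < ε → ∃ T₂ T₃ : EuclideanSpace ℝ (Fin d) → EuclideanSpace ℝ (Fin d), Measurable T₂ ∧ Measurable T₃ ∧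
          (measOfDensity ρ).map T₂ = measOfDensity ρ ∧ (measOfDensity ρ).map T₃ = measOfDensity ρ ∧
          ∫⁻ x, tripleCost s (x, T₂ x, T₃ x) ∂(measOfDensity ρ) < ∫⁻ p, tripleCost s p ∂π₀ + ε) := by
  obtain ⟨n, rfl⟩ : ∃ n, d = n + 2 := ⟨d - 2, by omega⟩
  obtain ⟨δ', hδ', hD⟩ := R130.exists_data (E := EuclideanSpace ℝ (Fin (n + 2))) volume hs
    (EuclideanSpace.single 0 1) (EuclideanSpace.single 1 1) (by simp) (by simp)
    (by simp [EuclideanSpace.inner_single_left])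
  obtain ⟨Ψ, hΨ⟩ := R130.exists_coord_equiv (n + 1)
  obtain ⟨φ, hφ, hφ0, hφc, hφs, hprob, EL, ER, Dm, L, mEL, mER, mD, mL, hsp, hid, hlim⟩ :=
    R130.exists_split volume volume Ψ hΨ hδ'
  obtain ⟨D, hν, hc, Θ, hΘ, hΘ0, hΘc, hμ⟩ := hD φ hφ hφ0 hφc hφs hprob
  have hμ' : measOfDensity (fun x => Θ x ^ 2) = D.μ := hμ.symm
  have hsq : (fun x => Real.sqrt (Θ x ^ 2)) = Θ := funext fun x => Real.sqrt_sq (hΘ0 x)
  have hΘc2 : HasCompactSupport (fun x => Θ x ^ 2) :=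
    hΘc.comp_left (g := fun t : ℝ => t ^ 2) (by simp)
  have hμ1 : D.μ Set.univ = 1 := by
    have := D.prob
    rw [D.μ_apply _ MeasurableSet.univ]
    simp only [Set.preimage_univ, measure_univ]
    have : (1 : ℝ≥0∞) + 1 + 1 + 1 + 1 + 1 = 6 := by norm_num
    rw [this, ENNReal.inv_mul_cancel (by simp) (by simp)]
  refine ⟨fun x => Θ x ^ 2, fun x => sq_nonneg _, hΘ.pow 2, hΘc2, by rw [hsq]; exact hΘ, ?_,
    D.π₀, ?_, ?_, ?_, ?_, ?_⟩
  · have hi : Integrable (fun x => Θ x ^ 2) volume :=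
      (hΘ.continuous.pow 2).integrable_of_hasCompactSupport hΘc2
    rw [hμ, withDensity_apply _ MeasurableSet.univ, Measure.restrict_univ,
      ← ofReal_integral_eq_lintegral_ofReal hi (ae_of_all _ fun x => sq_nonneg _)] at hμ1
    exact ENNReal.ofReal_eq_one.1 hμ1
  · rw [hμ']; exact ⟨D.π₀_fst, D.π₀_snd, D.π₀_thd⟩
  · rw [← hc]; exact D.cost_π₀_lt_top
  · intro π hπ
    rw [hμ'] at hπ
    rw [← hc]; exact D.optimal π hπ.1 hπ.2.1 hπ.2.2
  · intro T₂ T₃ h₂ h₃ a₂ a₃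
    rw [hμ'] at a₂ a₃ ⊢
    rw [← hc]; exact D.not_monge T₂ T₃ h₂ h₃ a₂ a₃
  · intro ε hε
    rw [hμ', ← hc]
    have cc : Continuous D.c := hc ▸ R130.continuous_tripleCost s
    exact D.monge_approx EL ER Dm L mEL mER mD mL (hν ▸ hsp) (fun n => ae_of_all _ (hid n))
      (ae_of_all _ hlim) (fun x _ => (cc.comp (by fun_prop)).continuousAt)
      (fun x _ => (cc.comp (by fun_prop)).continuousAt) ε hε

end Crest.Agent.S0175
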