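import Crest.Statements.S0176
import Crest.Agent.S0178
import Crest.Agent.R131.Pos33

set_option autoImplicit false
open Crest Crest.AnalysisR

namespace Crest.Agent.S0176

/-- Let `f : ℂ → ℂ` be complex differentiable and injective on the open unit disc, and let `t` be a real exponent with `-2 < t < 2/3`. Then the integral over the disc, against planar Lebesgue measure, of `‖deriv f w‖ ^ t` is finite. The integrand is taken in `ℝ≥0∞` (extended real power of the extended norm), so it is `⊤` wherever the derivative vanishes and `t < 0`. -/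
theorem result (f : ℂ → ℂ)
    (hf : DifferentiableOn ℂ f (Metric.ball 0 1)) (hinj : Set.InjOn f (Metric.ball 0 1))
    (t : ℝ) (ht₁ : -2 < t) (ht₂ : t < 2 / 3) :
    ∫⁻ w in Metric.ball (0 : ℂ) 1, ‖deriv f w‖ₑ ^ t < ⊤ := by
  exact Crest.Agent.R131.P33.s0176_of_78 Crest.Agent.S0178.result f hf hinj t ht₁ ht₂

end Crest.Agent.S0176
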