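import Crest.Statements.S0177
import Crest.Agent.R131.Fin87

set_option autoImplicit false
open Crest Crest.AnalysisR

namespace Crest.Agent.S0177

/-- There are real constants `ε` with `0 < ε < 1/4` and `C` such that for every `f : ℂ → ℂ` that is complex differentiable and injective on the open unit disc with `f 0 = 0` and `deriv f 0 = 1`, and every radius `r` with `1/2 ≤ r < 1`, the integral over `θ ∈ (-π, π]` of the reciprocal of `‖deriv f (r * exp (θ * I))‖`, taken in `ℝ≥0∞`, is at most `2 * π * C * (1 - r) ^ (-1/4 + ε)`. -/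
theorem result :
    ∃ ε : ℝ, 0 < ε ∧ ε < 1 / 4 ∧ ∃ C : ℝ, ∀ f : ℂ → ℂ,
      DifferentiableOn ℂ f (Metric.ball 0 1) → Set.InjOn f (Metric.ball 0 1) → f 0 = 0 →
      deriv f 0 = 1 → ∀ r : ℝ, 1 / 2 ≤ r → r < 1 →
        ∫⁻ θ in Set.Ioc (-Real.pi) Real.pi,
            (‖deriv f ((r : ℂ) * Complex.exp ((θ : ℂ) * Complex.I))‖ₑ)⁻¹ ≤
          ENNReal.ofReal (2 * Real.pi * C * (1 - r) ^ (-(1 / 4 : ℝ) + ε)) := by
  exact Crest.Agent.R131.F87.s77

end Crest.Agent.S0177
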