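import Crest.Statements.S0216
import Crest.Agent.R152.RFinal

set_option autoImplicit false
open Crest.ProbabilityR.SignMatrix
open Crest Crest.ProbabilityR

namespace Crest.Agent.S0216

/-- For symmetric n-by-n matrices whose entries on and above the diagonal are independent signs, each +1 with a fixed probability p strictly between 0 and 1 and different from 1/2, the n-th root of the probability that the matrix is singular tends to p² + (1-p)² as n tends to infinity. The probability is the exact finite sum singularProb. -/
theorem result (p : ℝ) (hp0 : 0 < p) (hp1 : p < 1)
    (hp : p ≠ 1 / 2) :
    Filter.Tendsto (fun n : ℕ => singularProb n p ^ (1 / (n : ℝ))) Filter.atTop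
      (nhds (p ^ 2 + (1 - p) ^ 2)) := by
  exact Crest.Agent.R152.RD.final hp0 hp1

end Crest.Agent.S0216
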