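import Crest.Statements.S0223
import Crest.Agent.R155.Defs

set_option autoImplicit false
open Crest Crest.ProbabilityR

namespace Crest.Agent.S0223

theorem tv_ge {Ω G : Type} [Fintype Ω] [Fintype G] [Nonempty Ω] [Nonempty G] (f : Ω → G) :
    1 - (Fintype.card Ω : ℝ) / Fintype.card G ≤
      (1 / 2) * ∑ g : G, |Crest.FinProb.uniformProb {ω : Ω | f ω = g} - 1 / (Fintype.card G : ℝ)| := by
  classical
  set P : G → ℝ := fun g => Crest.FinProb.uniformProb {ω : Ω | f ω = g} with hP
  have hΩ : (0 : ℝ) < Fintype.card Ω := by exact_mod_cast Fintype.card_pos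
  have hG : (0 : ℝ) < Fintype.card G := by exact_mod_cast Fintype.card_pos
  have hP' : ∀ g, P g = ((Finset.univ.filter fun ω => f ω = g).card : ℝ) / Fintype.card Ω := by
    intro g
    simp only [hP, Crest.FinProb.uniformProb, Set.mem_ofPred_eq]
  have hsum : ∑ g, P g = 1 := by
    simp only [hP']
    rw [← Finset.sum_div, div_eq_one_iff_eq hΩ.ne', ← Nat.cast_sum,
      ← Finset.card_eq_sum_card_fiberwise (fun ω _ => Finset.mem_univ (f ω)), Finset.card_univ]
  set u : ℝ := 1 / (Fintype.card G : ℝ) with hu
  have hu0 : 0 ≤ u := by positivity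
  set S : Finset G := Finset.univ.image f with hS
  have hS1 : (S.card : ℝ) ≤ Fintype.card Ω := by
    exact_mod_cast (Finset.card_image_le.trans (Finset.card_univ (α := Ω)).le)
  have hpt : ∀ g, P g + u - 2 * (if g ∈ S then u else 0) ≤ |P g - u| := by
    intro g
    split_ifs with hg
    · linarith [le_abs_self (P g - u)]
    · have : P g = 0 := by
        rw [hP', Finset.filter_eq_empty_iff.2 fun ω _ (h : f ω = g) => hg (h ▸ Finset.mem_image_of_mem f
          (Finset.mem_univ ω))]
        simp
      rw [this, zero_sub, abs_neg, abs_of_nonneg hu0]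
      linarith
  have h1 := Finset.sum_le_sum fun g (_ : g ∈ Finset.univ) => hpt g
  rw [Finset.sum_sub_distrib, Finset.sum_add_distrib, hsum, ← Finset.mul_sum, Finset.sum_ite_mem,
    Finset.univ_inter, Finset.sum_const, Finset.sum_const, Finset.card_univ, nsmul_eq_mul,
    nsmul_eq_mul] at h1
  have h2 : (Fintype.card G : ℝ) * u = 1 := by rw [hu]; field_simp
  have h3 : (S.card : ℝ) * u ≤ (Fintype.card Ω : ℝ) / Fintype.card G := by
    rw [hu, mul_one_div]
    exact div_le_div_of_nonneg_right hS1 hG.le
  linarith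

/-- For a deck of `2 * 2 ^ d` cards and every number `t` of shuffles, the total variation distance between the law of the arrangement of the deck and the uniform law on all arrangements is at least `1 - 2 ^ (2 ^ d * t) / (2 * 2 ^ d)!`. -/
theorem result (d t : ℕ) :
    1 - (2 : ℝ) ^ (2 ^ d * t) / ((2 * 2 ^ d).factorial : ℝ)
      ≤ Crest.ProbabilityR.Shuffle.tvFromUniform (2 ^ d) t := by
  have h := tv_ge (R155.iterPerm (m := 2 ^ d) t)
  rw [Fintype.card_perm, Fintype.card_fin, Fintype.card_fun, Fintype.card_fun, Fintype.card_bool,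
    Fintype.card_fin, Fintype.card_fin, ← pow_mul] at h
  push_cast at h
  unfold Crest.ProbabilityR.Shuffle.tvFromUniform
  convert h using 6
  rename_i g _
  ext cs
  simp only [Set.mem_ofPred_eq, ← R155.coe_iterPerm, DFunLike.coe_fn_eq]

end Crest.Agent.S0223
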