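import Crest.Statements.S0247
import Crest.Agent.R164.Main48
import Crest.Agent.R164.MainB

set_option autoImplicit false
open Crest Crest.ProbabilityR

namespace Crest.Agent.S0247

/-- Ising model with couplings `U_N^T Λ_N U_N`: `U_N` Haar-distributed orthogonal matrices (law invariant under right multiplication) on one probability space, `Λ_N` deterministic diagonal, empirical spectral law converging weakly to a law `μ` carried by `[λ₋, λ₊]` charging both edges, all eigenvalues eventually within `ε` of it: the variational value `inf_p (S(p) + G(p))` is finite, and the expected pressure `N^{-1} E log [2^{-N} Σ_σ e^{σ^T U^T Λ U σ/2}]` and a.s. the pressure tend to it. -/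
theorem result (μ : MeasureTheory.Measure ℝ)
    [MeasureTheory.IsProbabilityMeasure μ] (lamMinus lamPlus : ℝ) (hle : lamMinus ≤ lamPlus)
    (hsupp : μ (Set.Icc lamMinus lamPlus) = 1)
    (hedge : ∀ ε : ℝ, 0 < ε →
      0 < μ (Set.Icc lamMinus (lamMinus + ε)) ∧ 0 < μ (Set.Icc (lamPlus - ε) lamPlus))
    (eig : (N : ℕ) → Fin N → ℝ)
    (hweak : ∀ φ : ℝ → ℝ, Continuous φ → (∃ C : ℝ, ∀ x, |φ x| ≤ C) →
      Filter.Tendsto (fun N : ℕ => (1 / (N : ℝ)) * ∑ i : Fin N, φ (eig N i)) Filter.atTop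
        (nhds (∫ x, φ x ∂μ)))
    (hext : ∀ ε : ℝ, 0 < ε → ∀ᶠ N : ℕ in Filter.atTop, ∀ i : Fin N,
      lamMinus - ε ≤ eig N i ∧ eig N i ≤ lamPlus + ε)
    (Ω : Type) [MeasurableSpace Ω] (P : MeasureTheory.Measure Ω) [MeasureTheory.IsProbabilityMeasure P]
    (Us : (N : ℕ) → Ω → (Fin N → Fin N → ℝ)) (hmeas : ∀ N, Measurable (Us N))
    (horth : ∀ N, ∀ᵐ ω ∂P, Matrix.of (Us N ω) ∈ Matrix.orthogonalGroup (Fin N) ℝ)
    (hHaar : ∀ (N : ℕ) (O : Matrix (Fin N) (Fin N) ℝ), O ∈ Matrix.orthogonalGroup (Fin N) ℝ →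
      P.map (fun ω => fun i j => (Matrix.of (Us N ω) * O) i j) = P.map (Us N)) :
    ∃ F : ℝ, Crest.ProbabilityR.InvariantGlass.variationalValue μ lamPlus = (F : EReal) ∧
      Filter.Tendsto (fun N : ℕ => ∫ ω, Crest.ProbabilityR.InvariantGlass.pressureN (eig N) (Matrix.of (Us N ω)) ∂P)
        Filter.atTop (nhds F) ∧
      ∀ᵐ ω ∂P, Filter.Tendsto (fun N : ℕ => Crest.ProbabilityR.InvariantGlass.pressureN (eig N) (Matrix.of (Us N ω)))
        Filter.atTop (nhds F) := by
  choose h hh using fun N => Crest.Agent.R164.exists_haar P (Us N) (hmeas N) (horth N) (hHaar N)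
  have hs : Crest.Agent.R164.SpecHyp μ lamMinus lamPlus eig :=
    ⟨hle, hsupp, fun ε hε => (hedge ε hε).2, hweak, hext⟩
  have hA : ∀ᶠ N : ℕ in Filter.atTop, ∀ i, |eig N i| ≤ |lamMinus| + |lamPlus| + 1 := by
    filter_upwards [hext 1 one_pos] with N hN i
    have h1 := hN i
    have h2 := neg_abs_le lamMinus
    have h3 := le_abs_self lamPlus
    have h4 := abs_nonneg lamMinus
    have h5 := abs_nonneg lamPlus
    rw [abs_le]
    constructor <;> linarith [h1.1, h1.2]
  obtain ⟨F, hF⟩ := Crest.Agent.R164.magneticValue_real μ hle hsupp (fun _ : Fin 1 => (0 : ℝ))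
    (γ := fun _ => 1) (fun _ => one_pos)
  have hc := Crest.Agent.R164.expConv_finite hs (fun _ : Fin 1 => (0 : ℝ)) (γ := fun _ => 1)
    (fun _ => one_pos) (by simp) (fun _ _ => 0) (fun j => by
      have : ∀ᶠ N : ℕ in Filter.atTop, ((1 : ℚ) : ℝ) =
          ((Crest.Agent.R164.blk (fun _ : Fin N => (0 : Fin 1)) j).card : ℝ) / N := by
        filter_upwards [Filter.eventually_gt_atTop 0] with N hN
        have hj : j = 0 := Subsingleton.elim _ _
        have hN' : (N : ℝ) ≠ 0 := by positivity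
        simp [Crest.Agent.R164.blk, hj, hN']
      exact tendsto_const_nhds.congr' this) h hF
  have := Crest.Agent.R164.conv_of_expConv P Us hmeas h hh (B := 0) hA (by simp) hc
  simp only [Crest.Agent.R164.pressure_zero_field] at this
  exact ⟨F, by rw [← Crest.Agent.R164.magneticValue_zero, hF], this⟩

end Crest.Agent.S0247
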