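import Crest.Statements.S0253
import Crest.Agent.R167.Chain
import Crest.Agent.R167.Reduce

set_option autoImplicit false
open Crest.ProbabilityR.SpinModel
open Crest Crest.ProbabilityR Crest.ProbabilityR.SpinModel

namespace Crest.Agent.S0253

/-- Sphere-valued nearest-neighbour spins on finite pieces of the square lattice with free boundary: for every n ≥ 3 and every β > 0 there are constants A and m > 0 such that, for every finite vertex set, every assignment of edge strengths in [0, β] and every two vertices x, y of the set, the Gibbs average of the inner product of the spins at x and y lies between 0 and A · exp (−m · dist), where dist is the Euclidean distance from x to y. -/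
theorem result
    (n : ℕ) (hn : 3 ≤ n) (β : ℝ) (hβ : 0 < β) :
    ∃ A m : ℝ, 0 < m ∧
      ∀ (V : Finset (ℤ × ℤ)) (b : ℤ × ℤ → Fin 2 → ℝ),
        (∀ u i, 0 ≤ b u i ∧ b u i ≤ β) →
        ∀ x y : V,
          0 ≤ twoPoint n V b x y ∧
          twoPoint n V b x y ≤
            A * Real.exp (-m * Real.sqrt ((((x : ℤ × ℤ).1 - (y : ℤ × ℤ).1 : ℤ) : ℝ) ^ 2 +
              (((x : ℤ × ℤ).2 - (y : ℤ × ℤ).2 : ℤ) : ℝ) ^ 2)) := by
  obtain ⟨R, hR, H⟩ := R167.exp_decay hβ
  have hR' : (0 : ℝ) < R := by exact_mod_cast hR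
  have hl : 0 < Real.log 2 := Real.log_pos (by norm_num)
  refine ⟨n * 2, Real.log 2 / (2 * R), by positivity, fun V b hb x y => ?_⟩
  rw [mul_assoc]
  refine R167.reduce hn V b hb x y fun J hJ => ⟨R167.G2_nonneg _ _ (fun e => (hJ e).1) x y, ?_⟩
  obtain ⟨d, hd⟩ := Int.eq_ofNat_of_zero_le (R167.ChainAux.sd_nonneg (y : ℤ × ℤ) x)
  have h1 := H (R167.embV V) hJ (d / R) x y (by
    show _ ≤ R167.sd (y : ℤ × ℤ) x
    rw [hd]
    exact_mod_cast Nat.div_mul_le_self d R)
  refine h1.trans ?_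
  have h2 : (d : ℝ) < ((d / R : ℕ) + 1) * R := by
    have := Nat.lt_div_mul_add (a := d) (b := R) (by omega)
    have h3 : d < (d / R + 1) * R := by rw [add_mul, one_mul]; exact this
    exact_mod_cast h3
  have h3 : Real.sqrt ((((x : ℤ × ℤ).1 - (y : ℤ × ℤ).1 : ℤ) : ℝ) ^ 2 +
      (((x : ℤ × ℤ).2 - (y : ℤ × ℤ).2 : ℤ) : ℝ) ^ 2) ≤ 2 * d := by
    have a1 : |(x : ℤ × ℤ).1 - (y : ℤ × ℤ).1| ≤ d := by
      rw [← hd, abs_sub_comm]; exact le_max_left _ _
    have a2 : |(x : ℤ × ℤ).2 - (y : ℤ × ℤ).2| ≤ d := by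
      rw [← hd, abs_sub_comm]; exact le_max_right _ _
    have b1 : |(((x : ℤ × ℤ).1 - (y : ℤ × ℤ).1 : ℤ) : ℝ)| ≤ d := by exact_mod_cast a1
    have b2 : |(((x : ℤ × ℤ).2 - (y : ℤ × ℤ).2 : ℤ) : ℝ)| ≤ d := by exact_mod_cast a2
    have c1 := sq_le_sq' (abs_le.1 b1).1 (abs_le.1 b1).2
    have c2 := sq_le_sq' (abs_le.1 b2).1 (abs_le.1 b2).2
    refine Real.sqrt_le_iff.2 ⟨by positivity, by nlinarith⟩
  generalize Real.sqrt _ = r at h3 ⊢
  generalize d / R = k at h2 ⊢
  have h4 : (1 / 2 : ℝ) ^ k = 2 * Real.exp (-(Real.log 2 * (k + 1))) := by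
    rw [Real.exp_neg, ← Real.rpow_def_of_pos (by norm_num), ← Nat.cast_succ, Real.rpow_natCast,
      pow_succ, one_div, inv_pow]
    field_simp
  rw [h4]
  refine mul_le_mul_of_nonneg_left (Real.exp_le_exp.2 ?_) (by norm_num)
  rw [neg_mul, neg_le_neg_iff, div_mul_eq_mul_div, div_le_iff₀ (by positivity), mul_assoc]
  refine mul_le_mul_of_nonneg_left (by nlinarith) hl.le

end Crest.Agent.S0253
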