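import Crest.Statements.S0256
import Crest.Agent.R169.Final

set_option autoImplicit false
open Crest Crest.AlgebraR

namespace Crest.Agent.S0256

/-- There is a complete Noetherian local normal domain of Krull dimension three that is an algebra over the complex numbers whose structure map induces a bijection onto the residue field, and over which no nonzero finitely generated module has a regular sequence of length three contained in the maximal ideal (no maximal Cohen–Macaulay module: every such module has depth at most two). -/
theorem result :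
    ∃ (R : Type) (_ : CommRing R) (_ : IsLocalRing R) (_ : Algebra ℂ R),
      IsDomain R ∧ IsNoetherianRing R ∧ IsIntegrallyClosed R ∧
      IsAdicComplete (IsLocalRing.maximalIdeal R) R ∧ ringKrullDim R = 3 ∧
      Function.Bijective (algebraMap ℂ (IsLocalRing.ResidueField R)) ∧
      ∀ (M : Type) [AddCommGroup M] [Module R M], Module.Finite R M → Nontrivial M →
        ∀ rs : List R, rs.length = 3 → (∀ r ∈ rs, r ∈ IsLocalRing.maximalIdeal R) →
          ¬ RingTheory.Sequence.IsRegular M rs := by
  obtain ⟨τ, T, _, _, 𝒜, _, _, -, _, -, -, -, t, x, hx, hrel, hfin, hinj, -, -⟩ :=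
    Crest.Agent.R169.exists_T
  obtain ⟨R, _, _, _, h1, h2, h3, h4, h5, h6, ψ, h7, h8⟩ :=
    Crest.Agent.R169.exists_complete T x hfin hinj
  refine ⟨R, inferInstance, inferInstance, inferInstance, h1, h2, h3, h4, h5, h6, ?_⟩
  intro M _ _ hM hM' rs hl hm
  refine Crest.Agent.R169.no_mcm τ h6.2 (fun γ => (ψ : T →+* R) (t γ)) (fun F j hF hR => ?_)
    (fun i => ψ (x i)) ?_ h7 h8 M hM hM' rs hl hm
  · rw [Crest.Agent.R169.aeval_map_int, hrel F j hF hR, map_zero]
  · rw [Crest.Agent.R169.aeval_map_int, Crest.Agent.R169.aeval_map_int, hx]
    funext i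
    fin_cases i <;> rfl

end Crest.Agent.S0256
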