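import Crest.Statements.S0257
import Crest.Agent.R169.Final

set_option autoImplicit false
open Crest Crest.AlgebraR

namespace Crest.Agent.S0257

/-- There is a finitely generated commutative algebra over the complex numbers that is a domain of Krull dimension three, graded by the natural numbers so that the ideal of elements with zero degree-zero component is maximal with the complex numbers as quotient, whose localisation at that ideal has Krull dimension three and admits no nonzero finitely generated module with a regular sequence of length three in the maximal ideal (no maximal Cohen–Macaulay module). -/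
theorem result :
    ∃ (T : Type) (_ : CommRing T) (_ : Algebra ℂ T) (𝒜 : ℕ → Submodule ℂ T) (_ : GradedAlgebra 𝒜)
      (_ : (HomogeneousIdeal.irrelevant 𝒜).toIdeal.IsMaximal),
      Algebra.FiniteType ℂ T ∧ IsDomain T ∧ ringKrullDim T = 3 ∧
      Function.Bijective (algebraMap ℂ (T ⧸ (HomogeneousIdeal.irrelevant 𝒜).toIdeal)) ∧
      ringKrullDim (Localization.AtPrime (HomogeneousIdeal.irrelevant 𝒜).toIdeal) = 3 ∧
      ∀ (M : Type) [AddCommGroup M] [Module (Localization.AtPrime (HomogeneousIdeal.irrelevant 𝒜).toIdeal) M],
        Module.Finite (Localization.AtPrime (HomogeneousIdeal.irrelevant 𝒜).toIdeal) M → Nontrivial M →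
        ∀ rs : List (Localization.AtPrime (HomogeneousIdeal.irrelevant 𝒜).toIdeal), rs.length = 3 →
          (∀ r ∈ rs, r ∈ IsLocalRing.maximalIdeal (Localization.AtPrime (HomogeneousIdeal.irrelevant 𝒜).toIdeal)) →
          ¬ RingTheory.Sequence.IsRegular M rs := by
  obtain ⟨τ, T, _, _, 𝒜, _, _, h1, h2, h3, h4, h5, t, x, hx, hrel, -, -, h8, h9⟩ :=
    Crest.Agent.R169.exists_T
  refine ⟨T, inferInstance, inferInstance, 𝒜, inferInstance, inferInstance, h1, h2, h3, h4, h5, ?_⟩
  intro M _ _ hM hM' rs hl hm
  set P := (HomogeneousIdeal.irrelevant 𝒜).toIdeal with hP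
  have : IsNoetherianRing T := Algebra.FiniteType.isNoetherianRing ℂ T
  have hmax : IsLocalRing.maximalIdeal (Localization.AtPrime P) =
      P.map (algebraMap T (Localization.AtPrime P)) :=
    (Localization.AtPrime.map_eq_maximalIdeal).symm
  refine Crest.Agent.R169.no_mcm τ ?_ (fun γ => algebraMap T (Localization.AtPrime P) (t γ))
    (fun F j hF hR => ?_) (fun i => algebraMap T (Localization.AtPrime P) (x i)) ?_ ?_ ?_
    M hM hM' rs hl hm
  · intro a
    obtain ⟨b, rfl⟩ := (IsLocalization.AtPrime.equivQuotMaximalIdeal P
      (Localization.AtPrime P)).surjective a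
    obtain ⟨c, rfl⟩ := h4.2 b
    exact ⟨c, rfl⟩
  · rw [Crest.Agent.R169.aeval_map_int, hrel F j hF hR, map_zero]
  · rw [Crest.Agent.R169.aeval_map_int, Crest.Agent.R169.aeval_map_int, hx]
    funext i
    fin_cases i <;> rfl
  · intro i
    rw [hmax]
    exact Ideal.mem_map_of_mem _ (h8 i)
  · rw [hmax]
    refine (Ideal.map_mono h9).trans ((Ideal.map_radical_le _).trans (le_of_eq ?_))
    rw [Ideal.map_span, ← Set.range_comp]
    rfl

end Crest.Agent.S0257
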