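import Crest.Statements.S0267
import Crest.Agent.R177.Ring
import Crest.Agent.R177.Top

set_option autoImplicit false
open Crest.Topology
open Crest Crest.AlgebraR

namespace Crest.Agent.S0267

/-- There is a finitely presented group in which only the identity has finite order, having a finite classifying complex of dimension at most two (a finite Hausdorff CW complex with no cells above dimension two, with a contractible cover and with fundamental group isomorphic to the group), together with two nonzero elements of its group algebra over the field with two elements whose product is zero. -/
theorem result :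
    ∃ (G : Type) (_ : Group G), Group.IsFinitelyPresented G ∧ (∀ g : G, IsOfFinOrder g → g = 1) ∧
      HasFiniteClassifyingComplex G 2 ∧
      ∃ a b : MonoidAlgebra (ZMod 2) G, a ≠ 0 ∧ b ≠ 0 ∧ a * b = 0 := by
  obtain ⟨α, T, _, _, Q, deg, hpos, hadd, hasph, -, a, b, c, hab, hac, hc⟩ := R177.char_two_main
  refine ⟨Q.Grp, inferInstance, ?_, fun g hg => hasph.torsionFree Q g hg,
    hasph.classifying Q deg hpos hadd, a, c, ?_, hc, hac⟩
  · haveI : Finite Q.rels := Set.finite_range _ |>.to_subtype
    infer_instance
  · rintro rfl
    rw [zero_mul] at hab
    exact zero_ne_one hab

end Crest.Agent.S0267
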