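import Crest.Statements.S0309
import Crest.Agent.R202.HMain
import Crest.Agent.R202.HCount

set_option autoImplicit false
open scoped ContDiff
open Crest.GeometryTopology.CoordMetric Crest.GeometryTopology.ChartCurvature
open Crest Crest.GeometryTopology

namespace Crest.Agent.S0309

/-- For all v ∈ (4/9, 1), c ∈ (1, 9v/4) and all large k some complete C^∞ Riemannian metric on ℝ³ (matrix field in standard coordinates), Euclidean near 0, has Ric ≥ 0, positive definite outside a ball, asymptotic volume ratio v, points tending to infinity where a plane containing the radial direction (taken as the position vector, as in geodesic polar coordinates about 0) has negative sectional curvature, and at least c(k+1)² independent C^∞ harmonic f with abs f ≤ C_f (1 + distance to 0)^k. -/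
theorem result
    (v : ℝ) (hv : 4 / 9 < v) (hv' : v < 1) (c : ℝ) (hc : 1 < c) (hc' : c < 9 * v / 4) :
    ∃ k₀ : ℕ, ∀ k : ℕ, k₀ ≤ k → ∃ g : MetricField 3,
      IsRiemannianOn g Set.univ ∧ IsCompleteOn g Set.univ ∧
      (∃ r : ℝ, 0 < r ∧ ∀ x : EuclideanSpace ℝ (Fin 3), ‖x‖ < r → g x = 1) ∧
      RicciNonnegOn g Set.univ ∧
      (∃ R : ℝ, ∀ x : EuclideanSpace ℝ (Fin 3), R < ‖x‖ →
        ∀ w : EuclideanSpace ℝ (Fin 3), w ≠ 0 → 0 < ∑ i, ∑ j, ricci g x i j * w i * w j) ∧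
      HasAsymptoticVolumeRatio g v ∧
      (∃ p : ℕ → EuclideanSpace ℝ (Fin 3), Filter.Tendsto (fun j => ‖p j‖) Filter.atTop Filter.atTop ∧
        ∀ j, ∃ w : EuclideanSpace ℝ (Fin 3),
          0 < gramDet g (p j) (p j) w ∧ secNumer g (p j) (p j) w < 0) ∧
      ∃ m : ℕ, c * ((k : ℝ) + 1) ^ 2 ≤ m ∧ ∃ f : Fin m → EuclideanSpace ℝ (Fin 3) → ℝ,
        LinearIndependent ℝ f ∧ ∀ i, IsHarmonicOn g Set.univ (f i) ∧
          ∃ C : ℝ, ∀ x, abs (f i x) ≤ C * (1 + riemDist g Set.univ 0 x) ^ k := by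
  have hv0 : 0 < v := by linarith
  have ha : 0 < Real.sqrt v := Real.sqrt_pos.2 hv0
  have ha1 : Real.sqrt v < 1 := by
    rw [Real.sqrt_lt' one_pos]; linarith
  have ha2 : Real.sqrt v ^ 2 = v := Real.sq_sqrt hv0.le
  obtain ⟨l₀, h⟩ := Crest.Agent.R202.main_blk 1 ha ha1
  obtain ⟨k₀, hk⟩ := Crest.Agent.R202.count3 ha hc (by rw [ha2]; exact hc') l₀
  refine ⟨k₀, fun k hk0 => ?_⟩
  obtain ⟨lo, K, θ₀, h1, h2, h3, h4, h5, h6⟩ := hk k hk0
  have hJ : ∀ j ∈ Finset.range 2, j ≤ 1 := fun j hj => by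
    have := Finset.mem_range.1 hj; omega
  obtain ⟨g, ⟨g1, g2, g3, g4, g5, g6, g7⟩, hH⟩ := h k (Finset.range 2) (fun _ => lo) (fun _ => lo)
    (fun _ => K) θ₀ (fun j hj _ => hJ j hj) (fun _ _ => le_rfl)
    (fun j hj => by have := hJ j hj; omega) ⟨0, by simp, h3⟩ (fun j hj => h5 j (hJ j hj))
    (fun j _ l a b _ => absurd a (by omega)) (fun j _ _ => ⟨h1, Or.inl rfl⟩) (by simpa using h4)
  rw [show Real.sqrt v ^ (1 + 1) = v from ha2] at g6
  refine ⟨g, g1, g2, g3, g4, g5, g6, g7, _, h6.trans ?_, hH⟩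
  unfold Crest.Agent.R202.cnt
  refine Nat.cast_le.2 (Finset.sum_le_sum fun j hj => ?_)
  rw [Crest.Agent.R202.card_blk]
  exact Nat.le_mul_of_pos_right _ (Crest.Agent.R202.finrank_harm_pos fun _ => hJ j hj)

end Crest.Agent.S0309
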