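import Crest.Statements.S0310
import Crest.Agent.R202.HMain
import Crest.Agent.R202.HCount

set_option autoImplicit false
open scoped ContDiff
open Crest.GeometryTopology.CoordMetric
open Crest Crest.GeometryTopology

namespace Crest.Agent.S0310

/-- For some even n ≥ 8 and some natural number k ≥ 2, some C^∞ Riemannian metric on ℝⁿ (a matrix field in standard coordinates) is complete, equals the Euclidean metric near the origin, has Ricci curvature non-negative everywhere, has asymptotic volume ratio v for some 0 < v < 1, and admits m linearly independent C^∞ harmonic functions f bounded in absolute value by C_f (1 + d(0,x))^k, d its path distance, for some m exceeding C(n+k-1,k) + C(n+k-2,k-1), the count for the Euclidean metric. -/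
theorem result :
    ∃ n : ℕ, Even n ∧ 8 ≤ n ∧ ∃ k : ℕ, 2 ≤ k ∧ ∃ g : MetricField n,
      IsRiemannianOn g Set.univ ∧ IsCompleteOn g Set.univ ∧
      (∃ r : ℝ, 0 < r ∧ ∀ x : EuclideanSpace ℝ (Fin n), ‖x‖ < r → g x = 1) ∧
      RicciNonnegOn g Set.univ ∧
      (∃ v : ℝ, 0 < v ∧ v < 1 ∧ HasAsymptoticVolumeRatio g v) ∧
      ∃ m : ℕ, Nat.choose (n + k - 1) k + Nat.choose (n + k - 2) (k - 1) < m ∧
        ∃ f : Fin m → EuclideanSpace ℝ (Fin n) → ℝ,
          LinearIndependent ℝ f ∧ ∀ i, IsHarmonicOn g Set.univ (f i) ∧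
            ∃ C : ℝ, ∀ x, abs (f i x) ≤ C * (1 + riemDist g Set.univ 0 x) ^ k := by
  have ha : (0 : ℝ) < 1 - 1 / 20000 := by norm_num
  have ha1 : (1 - 1 / 20000 : ℝ) < 1 := by norm_num
  obtain ⟨l₀, h⟩ := Crest.Agent.R202.main_blk 6 ha ha1
  obtain ⟨t, ht2, htl⟩ : ∃ t : ℕ, 2 ≤ t ∧ l₀ ≤ t := ⟨max 2 l₀, le_max_left _ _, le_max_right _ _⟩
  have ht : (2 : ℝ) ≤ t := by exact_mod_cast ht2
  obtain ⟨g, ⟨g1, g2, g3, g4, -, g6, -⟩, hH⟩ := h (10000 * t) (Finset.range (9999 * t)) (fun _ => 0)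
    (fun j => if 2500 * t ≤ j ∧ j ≤ 5000 * t then 7500 * t else 9999 * t + 1)
    (fun j => if 2500 * t ≤ j ∧ j ≤ 5000 * t then 11000 * t else 9999 * t) ((9999 * t : ℕ) : ℝ)
    (fun j _ hd => absurd hd (by norm_num)) (fun _ _ => Nat.zero_le _)
    (fun j hj => by have := Finset.mem_range.1 hj; split_ifs <;> omega)
    ⟨2500 * t, Finset.mem_range.2 (by omega), by
      rw [if_pos ⟨le_rfl, by omega⟩, if_pos ⟨le_rfl, by omega⟩]; omega⟩
    (fun j _ => by
      by_cases hj : 2500 * t ≤ j ∧ j ≤ 5000 * t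
      · rw [if_pos hj, if_pos hj]
        exact Crest.Agent.R202.count8_avg (by omega) hj.2
      · rw [if_neg hj, if_neg hj, Finset.Icc_eq_empty (by omega), Finset.sum_empty])
    (fun j _ l _ b _ => by
      refine Nat.cast_le.2 ?_
      split_ifs at b <;> omega)
    (fun j _ hj => by
      split_ifs at hj ⊢ with h1
      · exact ⟨by omega, Or.inr ⟨by omega, by omega⟩⟩
      · omega)
    (by push_cast; nlinarith)
  refine ⟨8, by decide, le_rfl, 10000 * t, by omega, g, g1, g2, g3, g4,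
    ⟨_, by positivity, pow_lt_one₀ ha.le ha1 (by norm_num), g6⟩, _,
    (Crest.Agent.R202.count8 ht2).trans_le ?_, hH⟩
  unfold Crest.Agent.R202.cnt
  refine Finset.sum_le_sum fun j _ => ?_
  rw [Crest.Agent.R202.card_blk]
  exact Nat.mul_le_mul_left _ (Crest.Agent.R202.finrank_harm_six j)

end Crest.Agent.S0310
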