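import Crest.Statements.S0323
import Crest.Agent.R210.Params

set_option autoImplicit false
open Crest.GeometryTopology.EditDistance
open Crest Crest.GeometryTopology Crest.GeometryTopology.EditDistance

namespace Crest.Agent.S0323

/-- There are constants `c > 0` and `d₀` such that for every `d ≥ d₀` some length `n ≤ d` has the following property: any map `f` from binary words into real `ℓ¹` that, after a common rescaling `s > 0`, satisfies `s · ed(x,y) ≤ ‖f x - f y‖ ≤ D · s · ed(x,y)` for all distinct binary words `x`, `y` of length exactly `n`, has `D ≥ exp (c √(log d · log log d))`. Here `ed` is unit-cost edit distance (insertions, deletions, substitutions, intermediate words of any length). -/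
theorem result :
    ∃ c : ℝ, 0 < c ∧ ∃ d₀ : ℕ, ∀ d : ℕ, d₀ ≤ d → ∃ n : ℕ, n ≤ d ∧
      ∀ (f : List Bool → lp (fun _ : ℕ => ℝ) 1) (s D : ℝ), 0 < s →
        (∀ x y : List Bool, x.length = n → y.length = n → x ≠ y →
          s * (editDist x y : ℝ) ≤ ‖f x - f y‖ ∧ ‖f x - f y‖ ≤ D * s * (editDist x y : ℝ)) →
        Real.exp (c * Real.sqrt (Real.log d * Real.log (Real.log d))) ≤ D := by
  obtain ⟨K₁, hK₁⟩ : ∃ K₁ : ℕ, ∀ K ≥ K₁, K ^ 31 ≤ 2 ^ K := by
    have h := (tendsto_pow_const_div_const_pow_of_one_lt 31 (r := 2) one_lt_two).eventually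
      (gt_mem_nhds one_pos)
    obtain ⟨K₁, hK₁⟩ := Filter.eventually_atTop.mp h
    refine ⟨K₁, fun K hK => ?_⟩
    have h1 := hK₁ K hK
    rw [div_lt_one (by positivity)] at h1
    exact_mod_cast h1.le
  obtain ⟨K₀, hK₀, hK₀'⟩ : ∃ K₀ : ℕ, 4096 ≤ K₀ ∧ K₁ ≤ K₀ :=
    ⟨max 4096 K₁, le_max_left _ _, le_max_right _ _⟩
  refine ⟨1 / 56, by norm_num, K₀ ^ (24 * K₀ ^ 2), fun d hd => ?_⟩
  obtain ⟨K, hK, hKd, hdK⟩ : ∃ K : ℕ, K₀ ≤ K ∧ K ^ (24 * K ^ 2) ≤ d ∧
      d < (K + 1) ^ (24 * (K + 1) ^ 2) := by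
    classical
    have hex : ∃ k : ℕ, d < (K₀ + k + 1) ^ (24 * (K₀ + k + 1) ^ 2) := by
      refine ⟨d, lt_of_lt_of_le (by omega : d < K₀ + d + 1) (Nat.le_self_pow ?_ _)⟩
      positivity
    refine ⟨K₀ + Nat.find hex, by omega, ?_, Nat.find_spec hex⟩
    rcases Nat.eq_zero_or_pos (Nat.find hex) with h0 | h0
    · rw [h0]; exact hd
    · have h1 := Nat.find_min hex (m := Nat.find hex - 1) (by omega)
      have e : K₀ + (Nat.find hex - 1) + 1 = K₀ + Nat.find hex := by omega
      rw [e] at h1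
      exact not_lt.mp h1
  obtain ⟨n, hn, hcore⟩ := R210.core K (by omega) (hK₁ K (by omega))
  refine ⟨n, hn.trans hKd, fun f s D hs hf => ?_⟩
  have h1 := hcore f s D hs hf
  have hKr : (4096 : ℝ) ≤ K := by exact_mod_cast hK₀.trans hK
  have hK0 : (0 : ℝ) < K := by linarith
  have hl4 : 0 < Real.log 4 := Real.log_pos (by norm_num)
  have hlogK : 6 * Real.log 4 ≤ Real.log K := by
    have := Real.log_le_log (by norm_num) hKr
    rwa [show (4096 : ℝ) = 4 ^ 6 by norm_num, Real.log_pow] at this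
  have hlK : 0 < Real.log K := by linarith
  have hlogK' : Real.log K ≤ K := (Real.log_le_sub_one_of_pos hK0).trans (by linarith)
  have hd1 : (K : ℝ) ≤ d := by
    have hKpos : 0 < K := lt_of_lt_of_le (by norm_num) (hK₀.trans hK)
    have hne : 24 * K ^ 2 ≠ 0 := Nat.mul_ne_zero (by norm_num) (pow_ne_zero 2 hKpos.ne')
    have : K ≤ d := (Nat.le_self_pow hne K).trans hKd
    exact_mod_cast this
  have h3' : (d : ℝ) ≤ ((K : ℝ) + 1) ^ (24 * (K + 1) ^ 2) := by exact_mod_cast hdK.le
  clear hdK hKd hd hcore hn hf hK₁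
  have hld : 0 < Real.log d := Real.log_pos (by linarith only [hd1, hKr])
  have h2 : Real.log d ≤ 192 * K ^ 2 * Real.log K := by
    refine (Real.log_le_log (lt_of_lt_of_le hK0 hd1) h3').trans ?_
    clear h3'
    rw [Real.log_pow]
    have h4 : Real.log ((K : ℝ) + 1) ≤ 2 * Real.log K := by
      have : (K : ℝ) + 1 ≤ (K : ℝ) ^ 2 := by nlinarith
      refine (Real.log_le_log (by linarith) this).trans ?_
      rw [Real.log_pow]
      norm_num
    have h5 : ((24 * (K + 1) ^ 2 : ℕ) : ℝ) ≤ 96 * (K : ℝ) ^ 2 := by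
      push_cast
      nlinarith
    calc ((24 * (K + 1) ^ 2 : ℕ) : ℝ) * Real.log ((K : ℝ) + 1)
        ≤ (96 * (K : ℝ) ^ 2) * (2 * Real.log K) :=
          mul_le_mul h5 h4 (Real.log_nonneg (by linarith)) (by positivity)
      _ = _ := by ring
  clear h3'
  have h3 : Real.log (Real.log d) ≤ 4 * Real.log K := by
    have h4 : Real.log d ≤ (K : ℝ) ^ 4 := by
      refine h2.trans ?_
      have h5 : 192 * Real.log K ≤ (K : ℝ) * K := mul_le_mul (by linarith) hlogK' hlK.le hK0.le
      have h6 : (0 : ℝ) ≤ (K : ℝ) ^ 2 := by positivity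
      nlinarith
    refine (Real.log_le_log hld h4).trans ?_
    rw [Real.log_pow]
    norm_num
  have h4 : Real.sqrt (Real.log d * Real.log (Real.log d)) ≤ 28 * K * Real.log K := by
    rw [Real.sqrt_le_left (by positivity)]
    calc Real.log d * Real.log (Real.log d) ≤ Real.log d * (4 * Real.log K) :=
          mul_le_mul_of_nonneg_left h3 hld.le
      _ ≤ (192 * K ^ 2 * Real.log K) * (4 * Real.log K) :=
          mul_le_mul_of_nonneg_right h2 (by positivity)
      _ = 768 * (K * Real.log K) ^ 2 := by ring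
      _ ≤ 784 * (K * Real.log K) ^ 2 := by gcongr; norm_num
      _ = _ := by ring
  have hD : 0 < D := by
    by_contra hcon
    have h5 : 16 * 4 ^ K * D ≤ 0 :=
      mul_nonpos_of_nonneg_of_nonpos (by positivity) (not_lt.mp hcon)
    have : (0 : ℝ) < (K : ℝ) ^ K := by positivity
    linarith
  rw [← Real.le_log_iff_exp_le hD]
  have h5 := Real.log_le_log (by positivity) h1
  rw [Real.log_pow, Real.log_mul (by positivity) hD.ne', Real.log_mul (by norm_num) (by positivity),
    Real.log_pow, show (16 : ℝ) = 4 ^ 2 by norm_num, Real.log_pow] at h5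
  have h6 : (K : ℝ) * (6 * Real.log 4) ≤ K * Real.log K := mul_le_mul_of_nonneg_left hlogK hK0.le
  have h7 : Real.log 4 ≤ K * Real.log 4 := le_mul_of_one_le_left hl4.le (by linarith)
  push_cast at h5
  nlinarith

end Crest.Agent.S0323
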