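import Crest.Statements.S0324
import Crest.Agent.R211.Proj

set_option autoImplicit false
open MeasureTheory
open scoped ENNReal
open Crest Crest.GeometryTopology Crest.GeometryTopology.Convex

namespace Crest.Agent.S0324

theorem exists_scalar : ∃ c : ℝ, 0 < c ∧ ∀ S : Set (EuclideanSpace ℝ (Fin 3)),
    (μH[(2 : ℝ)] S).toReal = c * (μHE[2] S).toReal := by
  have h0 := Measure.addHaarScalarFactor_volume_hausdorffMeasure_ne_zero 2
  set k := Measure.addHaarScalarFactor (volume : Measure (EuclideanSpace ℝ (Fin 2))) μH[(2 : ℕ)]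
    with hk
  have hk0 : (0 : ℝ) < k := by positivity
  refine ⟨(k : ℝ)⁻¹, by positivity, fun S => ?_⟩
  rw [Measure.euclideanHausdorffMeasure_def, ← hk, Measure.smul_apply, ENNReal.smul_def,
    smul_eq_mul, ENNReal.toReal_mul, ENNReal.coe_toReal, ← mul_assoc, inv_mul_cancel₀ hk0.ne',
    one_mul]
  norm_num

/-- The regular tetrahedron `K` with vertices `(±1, 0, 0)`, `(0, ±1, √2)` is covered by finitely many cylinders `Bᵢ + ℝ uᵢ`, each with unit direction `uᵢ` and base `Bᵢ` a triangle (convex hull of three points) in the plane `uᵢ^⊥`, whose total base area `∑ᵢ area(Bᵢ)` is smaller, by a positive margin, than half the area of the orthogonal projection of `K` onto `v^⊥` for every unit vector `v`; areas are 2-dimensional Hausdorff measure. -/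
theorem result :
    ∃ (m : ℕ) (u p q r : Fin m → EuclideanSpace ℝ (Fin 3)),
      (∀ i, ‖u i‖ = 1) ∧
      (∀ i, inner ℝ (p i) (u i) = 0 ∧ inner ℝ (q i) (u i) = 0 ∧ inner ℝ (r i) (u i) = 0) ∧
      convexHull ℝ {!₂[1, 0, 0], !₂[-1, 0, 0], !₂[0, 1, Real.sqrt 2], !₂[0, -1, Real.sqrt 2]} ⊆
        ⋃ i, {x : EuclideanSpace ℝ (Fin 3) | ∃ b ∈ convexHull ℝ {p i, q i, r i}, ∃ t : ℝ, x = b + t • u i} ∧
      ∃ δ : ℝ, 0 < δ ∧ ∀ v : EuclideanSpace ℝ (Fin 3), ‖v‖ = 1 →
        ∑ i, (μH[(2 : ℝ)] (convexHull ℝ {p i, q i, r i})).toReal + δ ≤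
          (μH[(2 : ℝ)] ((fun y => y - inner ℝ y v • v) '' convexHull ℝ {!₂[1, 0, 0], !₂[-1, 0, 0], !₂[0, 1, Real.sqrt 2], !₂[0, -1, Real.sqrt 2]})).toReal / 2 := by
  have hs : 0 < Real.sqrt 2 := by positivity
  obtain ⟨u, p, q, r, hcov, hA⟩ := R211.exists_triCov_K0 (n := 1000000) le_rfl
  obtain ⟨u', p', q', r', ⟨c1, c2, c3⟩, hA'⟩ := hcov.pad hA (m := 3000000)
    (by rw [Fintype.card_sum, Fintype.card_fin]; omega)
  obtain ⟨c, hc0, hc⟩ := exists_scalar
  refine ⟨_, u', p', q', r', c1, c2, c3, c * (Real.sqrt 2 / 100000000),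
    mul_pos hc0 (div_pos hs (by norm_num)),
    fun v hv => ?_⟩
  simp only [hc, R211.area_tri_toReal]
  rw [← Finset.mul_sum, hA', R211.proj_fun_eq hv]
  have := mul_le_mul_of_nonneg_left (R211.sqrt_two_le_area_proj hv) hc0.le
  unfold R211.K0 at this
  linarith

end Crest.Agent.S0324
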