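import Crest.Statements.S0328
import Crest.Agent.R211.Sweep

set_option autoImplicit false
open MeasureTheory
open scoped ENNReal
open Crest Crest.GeometryTopology Crest.GeometryTopology.Convex

namespace Crest.Agent.S0328

/-- Unit e; a, b, p₀ ∈ e^⊥, a, b independent; α < β; L > 0; R ≥ 0, λ both continuous on [α, β]; w(t) ∈ e^⊥, w′ = λ(t)(a + tb). S = {p₀ + ρ(a + t b) + s(e + w t) : α ≤ t ≤ β, 0 ≤ ρ ≤ R t, ‖s‖ ≤ L}; A = κ ∫_α^β R²/(2√(1 + ‖w‖²)), κ = area spanned by a, b. For η > 0 a δ > 0 makes each partition t₀ < … < t_N of [α, β] of mesh ≤ δ, tags cᵢ, admit N cylinders (axes e + w(cᵢ), nondegenerate triangle bases) covering S, total area within η of A; same for S's pieces tᵢ ≤ t ≤ tᵢ₊₁ projected along these axes. -/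
theorem result
    (e a b p₀ : EuclideanSpace ℝ (Fin 3)) (he : ‖e‖ = 1)
    (ha : inner ℝ a e = 0) (hb : inner ℝ b e = 0) (hp₀ : inner ℝ p₀ e = 0)
    (hab : LinearIndependent ℝ ![a, b]) (L : ℝ) (hL : 0 < L) (α β : ℝ) (hαβ : α < β)
    (R : ℝ → ℝ) (hR : ContinuousOn R (Set.Icc α β)) (hR0 : ∀ t ∈ Set.Icc α β, 0 ≤ R t)
    (w : ℝ → EuclideanSpace ℝ (Fin 3)) (hw : ∀ t ∈ Set.Icc α β, inner ℝ (w t) e = 0)
    (lam : ℝ → ℝ) (hlam : ContinuousOn lam (Set.Icc α β))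
    (hw' : ∀ t ∈ Set.Icc α β, HasDerivWithinAt w (lam t • (a + t • b)) (Set.Icc α β) t)
    (η : ℝ) (hη : 0 < η) :
    ∃ δ : ℝ, 0 < δ ∧ ∀ (N : ℕ) (t : Fin (N + 1) → ℝ) (c : Fin N → ℝ),
      StrictMono t → t 0 = α → t (Fin.last N) = β →
      (∀ i : Fin N, t i.succ - t i.castSucc ≤ δ) →
      (∀ i : Fin N, t i.castSucc ≤ c i ∧ c i ≤ t i.succ) →
      (∃ (p q r : Fin N → EuclideanSpace ℝ (Fin 3)),
        (∀ i, inner ℝ (p i) (e + w (c i)) = 0 ∧ inner ℝ (q i) (e + w (c i)) = 0 ∧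
          inner ℝ (r i) (e + w (c i)) = 0) ∧
        (∀ i, AffineIndependent ℝ ![p i, q i, r i]) ∧
        {x : EuclideanSpace ℝ (Fin 3) | ∃ τ ∈ Set.Icc α β, ∃ ρ ∈ Set.Icc 0 (R τ), ∃ s : ℝ, abs s ≤ L ∧
            x = p₀ + ρ • (a + τ • b) + s • (e + w τ)} ⊆
          ⋃ i, {x : EuclideanSpace ℝ (Fin 3) | ∃ y ∈ convexHull ℝ {p i, q i, r i}, ∃ σ : ℝ,
            x = y + σ • (e + w (c i))} ∧
        abs ((∑ i, (μHE[2] (convexHull ℝ ({p i, q i, r i} : Set (EuclideanSpace ℝ (Fin 3))))).toReal) -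
            Real.sqrt (‖a‖ ^ 2 * ‖b‖ ^ 2 - inner ℝ a b ^ 2) *
              ∫ τ in α..β, R τ ^ 2 / (2 * Real.sqrt (1 + ‖w τ‖ ^ 2))) ≤ η) ∧
      abs ((∑ i : Fin N, (μHE[2] ((fun y => y - (inner ℝ y (e + w (c i)) / ‖e + w (c i)‖ ^ 2) • (e + w (c i))) ''
            {x : EuclideanSpace ℝ (Fin 3) | ∃ τ ∈ Set.Icc (t i.castSucc) (t i.succ), ∃ ρ ∈ Set.Icc 0 (R τ),
              ∃ s : ℝ, abs s ≤ L ∧ x = p₀ + ρ • (a + τ • b) + s • (e + w τ)})).toReal) -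
          Real.sqrt (‖a‖ ^ 2 * ‖b‖ ^ 2 - inner ℝ a b ^ 2) *
            ∫ τ in α..β, R τ ^ 2 / (2 * Real.sqrt (1 + ‖w τ‖ ^ 2))) ≤ η := by
  have hκ : 0 < R211.par a b := R211.par_pos hab
  obtain ⟨M, hM⟩ := isCompact_Icc.exists_bound_of_continuousOn hlam
  obtain ⟨B, hB⟩ := isCompact_Icc.exists_bound_of_continuousOn hR
  have hM0 : 0 ≤ M := (norm_nonneg _).trans (hM α ⟨le_rfl, hαβ.le⟩)
  have hB0 : 0 ≤ B := (norm_nonneg _).trans (hB α ⟨le_rfl, hαβ.le⟩)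
  have hwc : ContinuousOn w (Set.Icc α β) := fun t ht => (hw' t ht).continuousWithinAt
  have hF : ContinuousOn (fun τ => R τ ^ 2 / (2 * Real.sqrt (1 + ‖w τ‖ ^ 2))) (Set.Icc α β) := by
    refine (hR.pow 2).div (continuousOn_const.mul
      ((continuousOn_const.add (hwc.norm.pow 2)).sqrt)) fun τ _ => ?_
    positivity
  obtain ⟨C, hC⟩ : ∃ C, C = 6 * B + 10 + 2 * (B + 3) ^ 2 := ⟨_, rfl⟩
  have hC0 : 0 < C := by rw [hC]; positivity
  have hβα : 0 < β - α := by linarith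
  obtain ⟨θ, hθ, hθ1, hθη⟩ : ∃ θ : ℝ, 0 < θ ∧ θ ≤ 1 ∧ R211.par a b * (θ * C) * (β - α) ≤ η := by
    refine ⟨min 1 (η / (R211.par a b * C * (β - α))), by positivity, min_le_left _ _, ?_⟩
    have h1 := min_le_right 1 (η / (R211.par a b * C * (β - α)))
    rw [le_div_iff₀ (by positivity)] at h1
    linarith
  obtain ⟨δ₁, hδ₁, h₁⟩ := Metric.uniformContinuousOn_iff.mp
    (isCompact_Icc.uniformContinuousOn_of_continuous hR) θ hθ
  obtain ⟨δ₂, hδ₂, h₂⟩ := Metric.uniformContinuousOn_iff.mp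
    (isCompact_Icc.uniformContinuousOn_of_continuous hF) θ hθ
  refine ⟨min (min (δ₁ / 2) (δ₂ / 2)) (θ ^ 2 / (2 * (L * M + 1))), by positivity,
    fun N t c ht h0 h1 hδ hc => ?_⟩
  have hmem : ∀ j, t j ∈ Set.Icc α β := fun j =>
    ⟨h0 ▸ ht.monotone (Fin.zero_le j), h1 ▸ ht.monotone (Fin.le_last j)⟩
  have hsub : ∀ i : Fin N, Set.Icc (t i.castSucc) (t i.succ) ⊆ Set.Icc α β := fun i =>
    Set.Icc_subset_Icc (hmem _).1 (hmem _).2
  have hdist : ∀ i : Fin N, ∀ τ ∈ Set.Icc (t i.castSucc) (t i.succ),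
      dist τ (c i) < δ₁ ∧ dist τ (c i) < δ₂ := by
    intro i τ hτ
    have k1 := (hδ i).trans ((min_le_left _ _).trans (min_le_left _ _))
    have k2 := (hδ i).trans ((min_le_left _ _).trans (min_le_right _ _))
    have : dist τ (c i) ≤ t i.succ - t i.castSucc := by
      rw [Real.dist_eq, abs_le]; constructor <;> linarith [(hc i).1, (hc i).2, hτ.1, hτ.2]
    constructor <;> linarith
  have key := fun i : Fin N => R211.piece_est p₀ he ha hb hκ hL hw hM hw' hR0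
    (fun t ht => (le_abs_self _).trans (hB t ht)) (hmem i.castSucc).1 (hmem i.succ).2
    (ht Fin.castSucc_lt_succ) (hc i) hθ hθ1
    (by
      have k1 := (hδ i).trans (min_le_right _ _)
      rw [le_div_iff₀ (by positivity)] at k1
      have k2 : 0 < t i.succ - t i.castSucc := sub_pos.mpr (ht Fin.castSucc_lt_succ)
      linarith)
    (fun τ hτ => (h₁ τ (hsub i hτ) (c i) (hsub i (hc i)) (hdist i τ hτ).1).le)
  choose p q r k1 k2 k3 k4 using key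
  rw [← hC] at k4
  have k5 := fun i τ hτ => k4 i _ (h₂ τ (hsub i hτ) (c i) (hsub i (hc i)) (hdist i τ hτ).2).le
  refine ⟨⟨p, q, r, k1, k2, ?_, ?_⟩, ?_⟩
  · rintro z ⟨τ, hτ, ρ, hρ, s, hs, hz⟩
    obtain ⟨i, hi⟩ := R211.exists_piece (t := t) (τ := τ) (by rw [h0, h1]; exact hαβ)
      (by rw [h0]; exact hτ.1) (by rw [h1]; exact hτ.2)
    refine Set.mem_iUnion.mpr ⟨i, _, k3 i ⟨z, ⟨τ, hi, ρ, hρ, s, hs, hz⟩, rfl⟩,
      inner ℝ z (e + w (c i)) / ‖e + w (c i)‖ ^ 2, ?_⟩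
    simp [R211.proj]
  · exact (R211.riemann_bound hF ht h0 h1 fun i τ hτ => (k5 i τ hτ).1).trans hθη
  · exact (R211.riemann_bound hF ht h0 h1 fun i τ hτ => (k5 i τ hτ).2).trans hθη

end Crest.Agent.S0328
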