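import Crest.Statements.S0346
import Crest.Agent.R224.Main
import Crest.Agent.R224.Deck
import Crest.Agent.R224.Metric
import Crest.Agent.R224.Unif
import Crest.Agent.R224.Contr
import Crest.Agent.R224.Refine
import Crest.Agent.R224.Tors
import Crest.Agent.R224.MV
import Crest.Agent.R224.Susp
import Crest.Agent.R224.Box
import Crest.Agent.R224.Cell
import Crest.Agent.R224.Zig
import Crest.Agent.R224.Cmp
import Crest.Agent.R224.HX
import Crest.Agent.R224.Fill
import Crest.Agent.R224.G1
import Crest.Agent.R224.G2
import Crest.Agent.R224.Dip
import Crest.Agent.R224.Met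
import Crest.Agent.R224.Coarea
import Crest.Agent.R224.Two
import Crest.Agent.R224.Conv
import Crest.Agent.R224.Ess
import Crest.Agent.R224.Kon
import Crest.Agent.R224.Pick
import Crest.Agent.R224.GP
import Crest.Agent.R224.PF
import Crest.Agent.R224.Line
import Crest.Agent.R224.Wall
import Crest.Agent.R224.Par
import Crest.Agent.R224.DirTr
import Crest.Agent.R224.Ray
import Crest.Agent.R224.S3
import Crest.Agent.R224.Germ
import Crest.Agent.R224.Len
import Crest.Agent.R224.Good
import Crest.Agent.R224.S4

set_option autoImplicit false
open Crest.Topology
open Crest Crest.GeometryTopology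

namespace Crest.Agent.S0346

/-- Let M be a compact connected Hausdorff second-countable space with charts into Euclidean four-space (a closed topological four-manifold) that is aspherical: a contractible space covers it by a surjective covering map. Fix a base point x, a finite set S generating the fundamental group Γ of M at x, and a real function f on Γ whose energy terms, the squares of f (g * s) - f g for g in Γ and s in S, are summable. Then for every ε > 0 the energy of f - u is below ε for some finitely supported u. -/
theorem result
    (M : Type) [TopologicalSpace M] [T2Space M] [SecondCountableTopology M] [CompactSpace M]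
    [ConnectedSpace M] [ChartedSpace (EuclideanSpace ℝ (Fin 4)) M]
    (hM : HasContractibleCover M) (x : M)
    (S : Finset (FundamentalGroup M x))
    (hS : Subgroup.closure (S : Set (FundamentalGroup M x)) = ⊤)
    (f : FundamentalGroup M x → ℝ)
    (hf : Summable fun p : FundamentalGroup M x × S =>
      (f (p.1 * (p.2 : FundamentalGroup M x)) - f p.1) ^ 2)
    (ε : ℝ) (hε : 0 < ε) :
    ∃ u : FundamentalGroup M x → ℝ, (Function.support u).Finite ∧
      ∃ E : ℝ, HasSum (fun p : FundamentalGroup M x × S =>
        ((f - u) (p.1 * (p.2 : FundamentalGroup M x)) - (f - u) p.1) ^ 2) E ∧ E < ε := by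
  obtain ⟨E, _, p, hE, hp, hs⟩ := hM
  exact R224.main_of
    ⟨R224.deckP, R224.metricP, R224.unifP, R224.refineP R224.contrP, R224.fillXP R224.contrP,
      R224.torsP, R224.cellPP (R224.boxP R224.suspP R224.transpP) R224.transpP R224.mvP,
      R224.zigP, R224.cmpP, R224.hxP, R224.fillP, R224.g1P, R224.g2P, R224.dipP,
      R224.metP R224.levP, R224.convP R224.coareaP, R224.twoP R224.coareaP, R224.essP,
      R224.konP R224.coareaP, R224.pickP, R224.limP, R224.gpP, R224.pfP, R224.lineP, R224.wallP,
      R224.parP, R224.dirTrP, R224.rayP, R224.s3P, R224.germP, R224.lenP, R224.goodP, R224.s4P⟩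
    M E p hp hs x S hS f hf ε hε

end Crest.Agent.S0346
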