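import Crest.Statements.S0351
import Crest.Agent.R227.MainP

set_option autoImplicit false
open Crest.LubinTate
open Crest Crest.GeometryTopology

namespace Crest.Agent.S0351

/-- Let p be prime, n ≥ 1, k the field with p^n elements, Γ a commutative formal group law over k with p-series X^(p^n), H a universal deformation of Γ over E₀ = W(k)[[u₁,…,u_{n-1}]], and M ≥ 1. Put I_0(H) = 0 and let I_{h+1}(H) be generated by I_h(H) and the coefficient of X^(p^h) in the p-series of H. An ideal of E₀ stable under all automorphisms of Γ congruent to X modulo X^M is prime exactly when it is one of I_0(H), …, I_n(H), and radical exactly when it is one of these or all of E₀. -/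
theorem result
    (p : ℕ) [Fact p.Prime] (n : ℕ) (hn : 1 ≤ n)
    (Γ : FormalGroup (GaloisField p n)) [Γ.IsComm]
    (hΓ : mulSeries Γ p = PowerSeries.X ^ (p ^ n))
    (H : FormalGroup (LTRing p n)) [H.IsComm] (hH : IsUniversalDeformation p n Γ H)
    (M : ℕ) (hM : 1 ≤ M) :
    (∀ P : Ideal (LTRing p n),
        (P.IsPrime ∧ IsStableIdeal p n Γ H M P) ↔ ∃ h : ℕ, h ≤ n ∧ P = heightIdeal p n H h) ∧
    (∀ J : Ideal (LTRing p n),
        (J.IsRadical ∧ IsStableIdeal p n Γ H M J) ↔
          (∃ h : ℕ, h ≤ n ∧ J = heightIdeal p n H h) ∨ J = ⊤) := by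
  have S : R227.LTS Γ H := ⟨hn, hΓ, hH⟩
  have key : ∀ J : Ideal (LTRing p n), J.IsRadical → IsStableIdeal p n Γ H M J → J ≠ ⊤ →
      ∃ h : ℕ, h ≤ n ∧ J = heightIdeal p n H h := by
    intro J hJ hst htop
    by_cases hall : ∀ j < n, R227.vv p H j ∈ J
    · refine ⟨n, le_rfl, ?_⟩
      have h1 := R227.heightIdeal_le_iff.2 hall
      rw [S.heightIdeal_n] at h1 ⊢
      exact (R227.isMaximal_mE.eq_of_le htop h1).symm
    · push Not at hall
      classical
      let h := Nat.find hall
      have h1 : h < n ∧ R227.vv p H h ∉ J := Nat.find_spec hall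
      have h2 : heightIdeal p n H h ≤ J := R227.heightIdeal_le_iff.2 fun j hj => by
        by_contra hc
        exact Nat.find_min hall hj ⟨hj.trans h1.1, hc⟩
      refine ⟨h, h1.1.le, ?_⟩
      rcases Nat.eq_zero_or_pos h with h0 | h0
      · rw [h0] at h1 ⊢
        rw [R227.vv_zero] at h1
        exact R227.main0 S hJ hst h1.2
      · exact R227.mainP S h0 h1.1 hJ hst h2 h1.2
  refine ⟨fun P => ⟨fun hP => key P hP.1.isRadical hP.2 hP.1.ne_top, ?_⟩, fun J => ⟨fun hJ => ?_, ?_⟩⟩
  · rintro ⟨h, hh, rfl⟩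
    exact ⟨S.isPrime hh, S.isStable M h⟩
  · by_cases htop : J = ⊤
    · exact Or.inr htop
    · exact Or.inl (key J hJ.1 hJ.2 htop)
  · rintro (⟨h, hh, rfl⟩ | rfl)
    · exact ⟨(S.isPrime hh).isRadical, S.isStable M h⟩
    · exact ⟨fun _ _ => Submodule.mem_top, fun _ _ _ _ _ => Ideal.comap_top⟩

end Crest.Agent.S0351
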