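import Crest.Statements.S0358
import Crest.Agent.R232.Core
import Crest.Agent.R232.Disc

set_option autoImplicit false
open MeasureTheory
open scoped ENNReal
universe u
open Crest Crest.GeometryTopology

namespace Crest.Agent.S0358

/-- Fix an exponent `1 < p < ∞` with `p ≠ 2` and a distortion `D > 1`, and put `γ = 2 - p` if `p < 2` and `γ = 1 - 2/p` if `p > 2`. There is a constant `C`, depending only on `p` and `D`, such that for every `n ≥ 2`, every `n` distinct points of any real `L^p` space can be mapped to points of the `d`-dimensional real `ℓ^p` space for some `d ≤ exp (C (log n)^γ)`, so that after a common rescaling by some `s > 0` all pairwise distances are preserved up to the factor `D`. -/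
theorem result
    (p : ℝ≥0∞) [Fact (1 ≤ p)] (hp1 : 1 < p) (hptop : p ≠ ⊤) (hp2 : p ≠ 2)
    (D : ℝ) (hD : 1 < D) :
    ∃ C : ℝ, ∀ (n : ℕ), 2 ≤ n →
      ∀ (α : Type u) [MeasurableSpace α] (μ : Measure α) (x : Fin n → Lp ℝ p μ),
        Function.Injective x →
        ∃ d : ℕ, (d : ℝ) ≤ Real.exp (C * Real.log n ^ (if p.toReal < 2 then 2 - p.toReal else 1 - 2 / p.toReal)) ∧
          ∃ (y : Fin n → PiLp p (fun _ : Fin d => ℝ)) (s : ℝ), 0 < s ∧
            ∀ i j, s * ‖x i - x j‖ ≤ ‖y i - y j‖ ∧ ‖y i - y j‖ ≤ D * s * ‖x i - x j‖ := by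
  classical
  set q := p.toReal with hq
  have hq1 : 1 < q := by
    have := (ENNReal.toReal_lt_toReal ENNReal.one_ne_top hptop).mpr hp1
    simpa using this
  have hq2 : q ≠ 2 := fun h => hp2 (by
    rw [← ENNReal.ofReal_toReal hptop, ← hq, h]; simp)
  have hq0 : 0 < q := by linarith
  set η := (D - 1) / (8 + 7 * D) with hη
  have hη0 : 0 < η := div_pos (by linarith) (by linarith)
  have hη1 : η * (8 + 7 * D) = D - 1 := by rw [hη]; field_simp
  have hη2 : 7 * η < 1 := by nlinarith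
  obtain ⟨C, hC⟩ := R232.core (γ := if q < 2 then 2 - q else 1 - 2 / q) hq1 hq2 hη0
    (by linarith)
    (by
      split_ifs with h
      · linarith
      · have : 2 < q := lt_of_le_of_ne (not_lt.mp h) (Ne.symm hq2)
        rw [sub_pos, div_lt_one hq0]; exact this)
    (by
      split_ifs with h
      · linarith
      · linarith [show 0 < 2 / q by positivity])
    (by
      split_ifs with h
      · rw [abs_of_neg (by linarith)]; nlinarith
      · rw [abs_of_nonneg (by linarith), sub_mul, div_mul_cancel₀ _ hq0.ne']; linarith)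
  refine ⟨C, fun n hn α _ μ x hx => ?_⟩
  have : Nonempty (Fin n) := ⟨⟨0, by omega⟩⟩
  have ha : ∀ i j, i ≠ j → 0 < ‖x i - x j‖ ^ q := fun i j hij =>
    Real.rpow_pos_of_pos (norm_pos_iff.mpr (sub_ne_zero.mpr (hx.ne hij))) _
  obtain ⟨e0, he0⟩ := Finite.exists_min
    (fun e : Fin n × Fin n => if e.1 = e.2 then 1 else η * ‖x e.1 - x e.2‖ ^ q)
  obtain ⟨Ω, _, φ, hφ⟩ := R232.discretize hptop x
    (ε := if e0.1 = e0.2 then 1 else η * ‖x e0.1 - x e0.2‖ ^ q) (by
      split_ifs with h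
      · exact one_pos
      · exact mul_pos hη0 (ha _ _ h))
  have hφ' : ∀ i j, i ≠ j →
      |‖x i - x j‖ ^ q - ∑ ω, |φ ω i - φ ω j| ^ q| ≤ η * ‖x i - x j‖ ^ q := fun i j hij => by
    have := (hφ i j).le.trans (he0 (i, j))
    simpa only [if_neg hij] using this
  obtain ⟨d, hd, F, σ, hσ, hF⟩ := hC n hn Ω φ (fun i j hij => by
    have := (abs_le.mp (hφ' i j hij)).2
    nlinarith [ha i j hij])
  have h7 : 0 < σ * (1 - 7 * η) := mul_pos hσ (by linarith)
  refine ⟨d, hd, fun i => WithLp.toLp p (fun k => F k i), (σ * (1 - 7 * η)) ^ q⁻¹,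
    Real.rpow_pos_of_pos h7 _, fun i j => ?_⟩
  rcases eq_or_ne i j with rfl | hij
  · simp
  have h1 : ‖WithLp.toLp p (fun k => F k i) - WithLp.toLp p (fun k => F k j)‖ =
      (∑ k, |F k i - F k j| ^ q) ^ q⁻¹ := by
    rw [PiLp.norm_eq_sum hq0, one_div]; simp [hq]
  have h2 := abs_le.mp (hφ' i j hij)
  have h3 := abs_le.mp (hF i j hij)
  have h4 := ha i j hij
  have h5 : ‖x i - x j‖ = (‖x i - x j‖ ^ q) ^ q⁻¹ :=
    (Real.rpow_rpow_inv (norm_nonneg _) hq0.ne').symm
  have h6 : D ≤ D ^ q := by simpa using Real.rpow_le_rpow_of_exponent_le hD.le hq1.le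
  have h8 : D = (D ^ q) ^ q⁻¹ := (Real.rpow_rpow_inv (by linarith) hq0.ne').symm
  generalize ‖x i - x j‖ ^ q = a at *
  generalize ∑ ω, |φ ω i - φ ω j| ^ q = S at *
  have hT : 0 ≤ ∑ k, |F k i - F k j| ^ q := Finset.sum_nonneg fun k _ => by positivity
  generalize ∑ k, |F k i - F k j| ^ q = T at *
  have k1 : σ * ((1 - η) * a) ≤ σ * S := mul_le_mul_of_nonneg_left (by linarith) hσ.le
  have k2 : σ * S ≤ σ * ((1 + η) * a) := mul_le_mul_of_nonneg_left (by linarith) hσ.le
  have k3 : 0 < σ * a := mul_pos hσ h4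
  rw [h1, h5]
  constructor
  · rw [← Real.mul_rpow h7.le h4.le]
    refine Real.rpow_le_rpow (by positivity) ?_ (by positivity)
    nlinarith [mul_le_mul_of_nonneg_left k1 (by linarith : 0 ≤ 1 - 6 * η),
      mul_pos (mul_pos hη0 hη0) k3]
  · rw [h8, ← Real.mul_rpow (by positivity) h7.le, ← Real.mul_rpow (by positivity) h4.le]
    refine Real.rpow_le_rpow hT ?_ (by positivity)
    have k4 : T ≤ (1 + 8 * η) * (σ * a) := by
      nlinarith [mul_le_mul_of_nonneg_left k2 (by linarith : 0 ≤ 1 + 6 * η),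
        mul_pos (mul_pos hη0 (by linarith : 0 < 1 - 6 * η)) k3]
    have k5 : 1 + 8 * η ≤ D ^ q * (1 - 7 * η) := by nlinarith
    nlinarith [mul_le_mul_of_nonneg_right k5 k3.le]

end Crest.Agent.S0358
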