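import Crest.Statements.S0359
import Crest.Agent.R232.Iso

set_option autoImplicit false
open MeasureTheory
open scoped ENNReal
open Crest Crest.GeometryTopology

namespace Crest.Agent.S0359

/-- Fix an exponent 1 < p < ∞ with p ≠ 2 and n ≥ 9. If d is a dimension such that every n distinct points of any real L^p space can be mapped to the d-dimensional real ℓ^p space with all pairwise distances multiplied by one common factor s > 0 (an isometric embedding up to scaling), then ⌊(n − 1)/4⌋² ≤ d. -/
theorem result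
    (p : ℝ≥0∞) [Fact (1 ≤ p)] (hp1 : 1 < p) (hptop : p ≠ ⊤) (hp2 : p ≠ 2)
    (n : ℕ) (hn : 9 ≤ n) (d : ℕ)
    (hd : ∀ (α : Type) [MeasurableSpace α] (μ : Measure α) (x : Fin n → Lp ℝ p μ),
      Function.Injective x →
      ∃ (y : Fin n → PiLp p (fun _ : Fin d => ℝ)) (s : ℝ), 0 < s ∧
        ∀ i j, ‖y i - y j‖ = s * ‖x i - x j‖) :
    ((n - 1) / 4) ^ 2 ≤ d := by
  classical
  set q := p.toReal with hq
  have hq1 : 1 < q := by
    have := (ENNReal.toReal_lt_toReal ENNReal.one_ne_top hptop).mpr hp1
    simpa using this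
  have hq2 : q ≠ 2 := fun h => hp2 (by
    rw [← ENNReal.ofReal_toReal hptop, ← hq, h]; simp)
  have hq0 : 0 < q := by linarith
  set m := (n - 1) / 4 with hm
  let L : (Fin m × Fin m → ℝ) → Lp ℝ p (Measure.count : Measure (Fin m × Fin m)) :=
    fun f => (MemLp.of_discrete : MemLp f p Measure.count).toLp f
  have hL : ∀ f g, ‖L f - L g‖ ^ q = ∑ a, |f a - g a| ^ q := fun f g => by
    rw [(R232.lp_norm_rpow hptop (L f) (L g)).2, ← integral_count]
    refine integral_congr_ae ?_
    filter_upwards [(MemLp.of_discrete : MemLp f p Measure.count).coeFn_toLp,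
      (MemLp.of_discrete : MemLp g p Measure.count).coeFn_toLp] with a h1 h2
    rw [← h1, ← h2]
  have hinf : Infinite (Lp ℝ p (Measure.count : Measure (Fin m × Fin m))) := by
    refine Infinite.of_injective (fun t : ℝ => L (fun _ => t)) fun s t hst => ?_
    have h1 := hL (fun _ => s) (fun _ => t)
    simp only at hst
    rw [hst, sub_self, norm_zero, Real.zero_rpow hq0.ne'] at h1
    have h2 := (Finset.sum_eq_zero_iff_of_nonneg (fun _ _ => by positivity)).mp h1.symm
      (⟨0, by omega⟩, ⟨0, by omega⟩) (Finset.mem_univ _)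
    rw [Real.rpow_eq_zero (abs_nonneg _) hq0.ne', abs_eq_zero] at h2
    linarith
  let A : Bool × Fin m → Fin m × Fin m → ℝ := fun r a =>
    if r.1 then (if a.1 = r.2 then 1 else 0) else (if a.2 = r.2 then 1 else 0)
  let z : Option (Bool × Bool × Fin m) → Fin m × Fin m → ℝ := fun i a =>
    i.elim 0 fun r => if r.1 then A r.2 a else -A r.2 a
  obtain ⟨T, hT, hTn⟩ := Infinite.exists_superset_card_eq (Finset.univ.image fun i => L (z i)) n
    (Finset.card_image_le.trans (by simp; omega))
  obtain ⟨y, s, hs, hy⟩ := hd _ Measure.count (fun k => ((T.equivFinOfCardEq hTn).symm k).1)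
    (Subtype.val_injective.comp (Equiv.injective _))
  have hmem : ∀ i, L (z i) ∈ T := fun i => hT (Finset.mem_image_of_mem _ (Finset.mem_univ i))
  obtain ⟨U, hU1, hU2⟩ := R232.transfer hq1 hq2 (Real.rpow_pos_of_pos hs q) A
    (fun i k => y (T.equivFinOfCardEq hTn ⟨_, hmem i⟩) k) z (fun _ => rfl) (fun _ _ => rfl)
    (fun _ _ => rfl) (fun i j => by
      have h1 := hy (T.equivFinOfCardEq hTn ⟨_, hmem i⟩) (T.equivFinOfCardEq hTn ⟨_, hmem j⟩)
      simp only [Equiv.symm_apply_apply] at h1
      rw [← hL, ← Real.mul_rpow hs.le (norm_nonneg _), ← h1, PiLp.norm_eq_sum hq0, one_div,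
        Real.rpow_inv_rpow (Finset.sum_nonneg fun _ _ => by positivity) hq0.ne']
      simp [hq])
  simpa using R232.grid_bound hq0 m A (fun _ _ => rfl) (fun _ _ => rfl) U hU1 hU2

end Crest.Agent.S0359
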