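import Crest.Statements.S0370
import Crest.Agent.R239.Main

set_option autoImplicit false
open Crest Crest.GeometryTopology

namespace Crest.Agent.S0370

/-- There is an absolute constant `C` such that, in every dimension `d`, every finite sequence of vectors of Euclidean norm at most one in `ℝ^d` admits one choice of signs `±1` under which every signed prefix sum has Euclidean norm at most `C * √d`. -/
theorem result :
    ∃ C : ℝ, ∀ (d N : ℕ) (v : Fin N → EuclideanSpace ℝ (Fin d)),
      (∀ i, ‖v i‖ ≤ 1) →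
      ∃ ε : Fin N → ℤ, (∀ i, ε i = 1 ∨ ε i = -1) ∧
        ∀ k : ℕ, k ≤ N →
          ‖∑ i ∈ Finset.univ.filter (fun i : Fin N => (i : ℕ) < k), (ε i : ℝ) • v i‖ ≤ C * Real.sqrt d := by
  obtain ⟨C, hC, h⟩ := Crest.Agent.R239.main
  refine ⟨C, fun d N v hv => ?_⟩
  rcases Nat.eq_zero_or_pos d with rfl | hd
  · refine ⟨fun _ => 1, fun _ => Or.inl rfl, fun k _ => ?_⟩
    rw [Subsingleton.elim (∑ i ∈ _, _ : EuclideanSpace ℝ (Fin 0)) 0, norm_zero]
    positivity
  obtain ⟨η, hη, hb⟩ := h d N hd (fun s => if hs : s < N then (v ⟨s, hs⟩).ofLp else 0) (fun s => by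
    split_ifs with hs
    · have h1 := EuclideanSpace.real_norm_sq_eq (v ⟨s, hs⟩)
      have h2 := pow_le_one₀ (norm_nonneg _) (hv ⟨s, hs⟩) (n := 2)
      rw [h1] at h2
      simpa [dotProduct, sq] using h2
    · simp)
  refine ⟨fun i => if η i = 1 then 1 else -1, fun i => by by_cases h1 : η i = 1 <;> simp [h1], fun k hk => ?_⟩
  refine le_trans (le_of_eq (congrArg _ ?_)) (hb k hk)
  have e1 : ∀ i, ((if η i = 1 then 1 else -1 : ℤ) : ℝ) = η i := fun i => by
    rcases hη i with h1 | h1
    · simp [h1]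
    · rw [if_neg (by rw [h1]; norm_num), h1]; simp
  simp only [e1]
  rw [WithLp.toLp_sum]
  refine Finset.sum_bij (fun i _ => (i : ℕ)) (fun i hi => by simpa using hi)
    (fun i _ j _ hij => Fin.ext hij)
    (fun s hs => ⟨⟨s, lt_of_lt_of_le (Finset.mem_range.1 hs) hk⟩, by simpa using hs, rfl⟩)
    (fun i _ => ?_)
  rw [Crest.Agent.R239.extL_coe, dif_pos i.2]
  rfl

end Crest.Agent.S0370
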