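import Crest.Statements.S0375
import Crest.Agent.R242.Midpoint
import Crest.Agent.R242.GradEstProof
import Crest.Agent.R242.GoodOf
import Crest.Agent.R242.BallGrowth
import Crest.Agent.R242.Proper

set_option autoImplicit false
open Crest.GeometryTopology.SyntheticRicci
open Crest Crest.GeometryTopology

namespace Crest.Agent.S0375

open Crest.Agent.R242 in
/-- Let X be a complete separable metric space with a Borel measure m charging every non-empty open set, finite on balls, and satisfying the Riemannian curvature-dimension condition RCD(K,N), 1 < N (τ-coefficients, not the reduced variant; quadratic Cheeger energy). If F is bounded Lipschitz, G bounded continuous, and the weak Hessian of F is at most G times the metric, then along every constant-speed minimizing geodesic σ on [0,1], (F ∘ σ)'' ≤ dist(σ 0, σ 1)² (G ∘ σ) in distributions on (0,1). -/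
theorem result
    (X : Type*) [MetricSpace X] [CompleteSpace X] [TopologicalSpace.SeparableSpace X]
    [MeasurableSpace X] [BorelSpace X] (m : MeasureTheory.Measure X)
    [MeasureTheory.Measure.IsOpenPosMeasure m] (hfin : IsFiniteOnBalls m)
    (K N : ℝ) (hN : 1 < N) (hRCD : IsRCD m K N)
    (F G : X → ℝ) (hFb : ∃ B : ℝ, ∀ x, |F x| ≤ B) (hFl : ∃ L : NNReal, LipschitzWith L F)
    (hGb : ∃ B : ℝ, ∀ x, |G x| ≤ B) (hGc : Continuous G)
    (hH : HasWeakHessLe m F G) (γ : UCurve X) (hγ : IsCSGeodesic γ) :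
    SecondDerivAlongLe F G γ := by
  obtain ⟨A, β, hA, hβ, hgr⟩ := ball_growth hfin hN hRCD.1
  have : ProperSpace X := properSpace_of_growth hfin hA hβ hgr
  have : MeasureTheory.IsLocallyFiniteMeasure m := isLocallyFiniteMeasure_of_balls hfin
  have hG : Good m |K| := good_of_rcd hN hRCD (exp_integrable_of_growth hfin hA hβ hgr)
  obtain ⟨lam₀, hE⟩ := exists_gradEst hG
  have H : Hyp m |K| lam₀ F G := ⟨hG, hE, hFb, hFl, hGb, hGc, hH⟩
  obtain ⟨L, hL⟩ := hFl
  have hγc : Continuous fun t : ℝ => γ.ext t :=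
    continuous_ext.comp (continuous_const.prodMk continuous_id)
  intro φ hφ hc hs h0
  have hl0 : 0 ≤ len γ := dist_nonneg
  have key := second_deriv_of_second_diff (f := fun t => F (γ.ext t))
    (g := fun t => len γ ^ 2 * G (γ.ext t)) (hL.continuous.comp hγc)
    (continuous_const.mul (hGc.comp hγc)) ?_ hφ hc hs h0
  · have e : (fun t => len γ ^ 2 * G (γ.ext t) * φ t) =
        fun t => len γ ^ 2 * (G (γ.ext t) * φ t) := by
      funext t; ring
    rw [e, MeasureTheory.integral_const_mul] at key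
    exact key
  intro η hη
  have hK : IsCompact (Metric.closedBall (γ.ext 0) (len γ + 1)) := isCompact_closedBall _ _
  have hU := hK.uniformContinuousOn_of_continuous hGc.continuousOn
  rw [Metric.uniformContinuousOn_iff_le] at hU
  have hη' : 0 < η / (len γ ^ 2 + 1) := by positivity
  obtain ⟨ρ, hρ, hU⟩ := hU _ hη'
  have hρ' : 0 < min ρ 1 := lt_min hρ one_pos
  refine ⟨min ρ 1 / 64 / (len γ + 1), by positivity, ?_⟩
  intro t τ hτ hτδ h1 h2
  have ht : t ∈ Set.Icc (0 : ℝ) 1 := ⟨by linarith, by linarith⟩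
  have hp : t + τ ∈ Set.Icc (0 : ℝ) 1 := ⟨by linarith, h2⟩
  have hm : t - τ ∈ Set.Icc (0 : ℝ) 1 := ⟨h1, by linarith⟩
  have hz : dist (γ.ext t) (γ.ext 0) ≤ len γ := by
    rw [geo_dist_ext hγ ht ⟨le_rfl, zero_le_one⟩, sub_zero, abs_of_nonneg ht.1]
    nlinarith [ht.2]
  have hrR : τ * len γ ≤ min ρ 1 / 64 := by
    rw [le_div_iff₀ (by positivity)] at hτδ
    nlinarith
  have hmid := midpoint_le H (x := γ.ext (t + τ)) (y := γ.ext (t - τ)) (z := γ.ext t)
    (r := τ * len γ) (R := min ρ 1 / 64) (k := G (γ.ext t) + η / (len γ ^ 2 + 1))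
    (by positivity) hrR
    (by rw [geo_dist_ext hγ hp ht, add_sub_cancel_left, abs_of_pos hτ])
    (by rw [geo_dist_ext hγ hm ht, sub_sub_cancel_left, abs_neg, abs_of_pos hτ])
    (by
      rw [geo_dist_ext hγ hp hm, show t + τ - (t - τ) = 2 * τ by ring, abs_of_pos (by positivity)]
      ring)
    (by
      intro w hw
      have hw' : dist w (γ.ext t) ≤ min ρ 1 := by linarith
      have hw1 : w ∈ Metric.closedBall (γ.ext 0) (len γ + 1) := by
        rw [Metric.mem_closedBall]
        have := dist_triangle w (γ.ext t) (γ.ext 0)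
        have := min_le_right ρ 1
        linarith
      have hw2 : γ.ext t ∈ Metric.closedBall (γ.ext 0) (len γ + 1) := by
        rw [Metric.mem_closedBall]; linarith
      have := hU w hw1 _ hw2 (hw'.trans (min_le_left _ _))
      rw [Real.dist_eq] at this
      linarith [le_abs_self (G w - G (γ.ext t))])
  have hq : η / (len γ ^ 2 + 1) * len γ ^ 2 ≤ η := by
    rw [div_mul_eq_mul_div, div_le_iff₀ (by positivity)]
    nlinarith
  have hτ2 : 0 ≤ τ ^ 2 := sq_nonneg _
  calc F (γ.ext (t + τ)) + F (γ.ext (t - τ)) - 2 * F (γ.ext t)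
      ≤ (G (γ.ext t) + η / (len γ ^ 2 + 1)) * (τ * len γ) ^ 2 := hmid
    _ = (len γ ^ 2 * G (γ.ext t) + η / (len γ ^ 2 + 1) * len γ ^ 2) * τ ^ 2 := by ring
    _ ≤ (len γ ^ 2 * G (γ.ext t) + η) * τ ^ 2 := by gcongr

end Crest.Agent.S0375
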