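import Crest.Statements.S0377
import Crest.Agent.R244.Main

set_option autoImplicit false
open Bundle Crest.GeometryTopology.Geodesic
open scoped ContDiff Manifold
open Crest Crest.GeometryTopology Crest.GeometryTopology.Geodesic

namespace Crest.Agent.S0377

/-- There is a compact connected orientable smooth 3-manifold `M` (Hausdorff, second countable, charted on `ℝ³`, hence without boundary) that carries a smooth Riemannian metric with no conjugate points — along every geodesic, a Jacobi field vanishing at two distinct parameters vanishes identically, geodesics and Jacobi fields being the solutions of the usual coordinate equations in charts — while no smooth Riemannian metric on `M` has all its sectional curvatures at most zero. -/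
theorem result :
    ∃ (M : Type) (_ : TopologicalSpace M) (_ : ChartedSpace (EuclideanSpace ℝ (Fin 3)) M)
      (_ : IsManifold 𝓘(ℝ, EuclideanSpace ℝ (Fin 3)) ∞ M),
      T2Space M ∧ SecondCountableTopology M ∧ CompactSpace M ∧ ConnectedSpace M ∧
      IsOrientable 3 M ∧
      (∃ g : ContMDiffRiemannianMetric 𝓘(ℝ, EuclideanSpace ℝ (Fin 3)) ∞ (EuclideanSpace ℝ (Fin 3))
          (fun x : M => TangentSpace 𝓘(ℝ, EuclideanSpace ℝ (Fin 3)) x), NoConjugatePoints g) ∧
      ∀ g : ContMDiffRiemannianMetric 𝓘(ℝ, EuclideanSpace ℝ (Fin 3)) ∞ (EuclideanSpace ℝ (Fin 3))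
          (fun x : M => TangentSpace 𝓘(ℝ, EuclideanSpace ℝ (Fin 3)) x), ¬ HasNonposSectionalCurvature g :=
  Crest.Agent.R244.main

end Crest.Agent.S0377
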