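import Crest.Statements.S0378
import Crest.Agent.R245.Main
import Crest.Agent.R245.Curv
import Crest.Agent.R245.Complete
import Crest.Agent.R245.Metric
import Crest.Agent.R245.MainIneq
import Crest.Agent.R245.Err
import Crest.Agent.R245.Num
import Crest.Agent.R245.Hart
import Crest.Agent.R245.Top
import Crest.Agent.R245.Pot
import Crest.Agent.R245.Const
import Crest.Agent.R245.AJet
import Crest.Agent.R245.BaseJet
import Crest.Agent.R245.Prof
import Crest.Agent.R245.Net
import Crest.Agent.R245.WellsJet
import Crest.Agent.R245.Kill
import Crest.Agent.R245.Param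

set_option autoImplicit false
open Crest Crest.GeometryTopology

namespace Crest.Agent.S0378

/-- There are an open connected contractible U ⊆ ℂ³ (as Fin 3 → ℂ), a smooth positive definite Hermitian metric on U (HermitianMetricOn) that is Kähler and complete for its induced distance, and constants 0 < A ≤ B with every sectional curvature of the underlying Riemannian metric, at each point of U and each real two-plane, in [-B, -A]; and every map ℂ³ → ℂ³ that is complex differentiable on U with bounded image of U has a point of U where the determinant of its complex derivative vanishes. -/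
theorem result :
    ∃ U : Set (Fin 3 → ℂ), IsOpen U ∧ IsConnected U ∧ ContractibleSpace U ∧
      ∃ g : Crest.GeometryTopology.HermitianMetricOn 3 U, g.IsKahler ∧ g.IsComplete ∧
        (∃ A B : ℝ, 0 < A ∧ A ≤ B ∧ ∀ p ∈ U, ∀ X Y : (Fin 3 → ℂ),
          g.riem p X X * g.riem p Y Y - g.riem p X Y ^ 2 ≠ 0 →
            -B ≤ g.sectional p X Y ∧ g.sectional p X Y ≤ -A) ∧
        ∀ F : (Fin 3 → ℂ) → (Fin 3 → ℂ), DifferentiableOn ℂ F U → Bornology.IsBounded (F '' U) →
          ∃ p ∈ U, (fderiv ℂ F p).det = 0 := by
  exact R245.main78 (R245.metric R245.curv) R245.complete R245.top R245.pot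
    (R245.hart (R245.num R245.mainIneq R245.err)) (R245.baseJet R245.psiJet R245.aJet)
    R245.wellsJet R245.kill R245.det (R245.param78 R245.prof R245.net)

end Crest.Agent.S0378
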