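import Crest.Statements.S0379
import Crest.Agent.R245.Main
import Crest.Agent.R245.Curv
import Crest.Agent.R245.Complete
import Crest.Agent.R245.Metric
import Crest.Agent.R245.MainIneq
import Crest.Agent.R245.Err
import Crest.Agent.R245.Num
import Crest.Agent.R245.Hart
import Crest.Agent.R245.Top
import Crest.Agent.R245.Pot
import Crest.Agent.R245.Const
import Crest.Agent.R245.AJet
import Crest.Agent.R245.BaseJet
import Crest.Agent.R245.Prof
import Crest.Agent.R245.Net
import Crest.Agent.R245.WellsJet
import Crest.Agent.R245.Kill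
import Crest.Agent.R245.Param

set_option autoImplicit false
open scoped ContDiff
open Crest Crest.GeometryTopology

namespace Crest.Agent.S0379

/-- For some integer m ≥ 2 there are an open U ⊆ ℂ^m (as Fin m → ℂ) that is diffeomorphic to ℝ^{2m} (a smooth map of ℂ^m onto U with a smooth inverse on U), and a smooth Hermitian metric on U (HermitianMetricOn) that is Kähler and complete for its induced distance, whose sectional curvatures (each point of U, each non-degenerate real two-plane) are all at most -1 and are not bounded below, such that every function ℂ^m → ℂ that is complex differentiable on U and bounded on U is constant on U. -/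
theorem result :
    ∃ m : ℕ, 2 ≤ m ∧ ∃ U : Set (Fin m → ℂ), IsOpen U ∧
      (∃ Φ Ψ : (Fin m → ℂ) → (Fin m → ℂ), ContDiff ℝ ∞ Φ ∧ ContDiffOn ℝ ∞ Ψ U ∧
        Set.range Φ = U ∧ ∀ x, Ψ (Φ x) = x) ∧
      ∃ g : Crest.GeometryTopology.HermitianMetricOn m U, g.IsKahler ∧ g.IsComplete ∧
        (∀ p ∈ U, ∀ X Y : (Fin m → ℂ), g.riem p X X * g.riem p Y Y - g.riem p X Y ^ 2 ≠ 0 →
          g.sectional p X Y ≤ -1) ∧
        (∀ B : ℝ, ∃ p ∈ U, ∃ X Y : (Fin m → ℂ),
          g.riem p X X * g.riem p Y Y - g.riem p X Y ^ 2 ≠ 0 ∧ g.sectional p X Y < B) ∧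
        ∀ f : (Fin m → ℂ) → ℂ, DifferentiableOn ℂ f U → Bornology.IsBounded (f '' U) →
          ∀ p ∈ U, ∀ q ∈ U, f p = f q := by
  exact R245.main79 (R245.metric R245.curv) R245.complete R245.top R245.pot
    (R245.hart (R245.num R245.mainIneq R245.err)) (R245.baseJet R245.psiJet R245.aJet)
    R245.wellsJet R245.kill R245.const (R245.param79 R245.prof R245.net)

end Crest.Agent.S0379
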