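import Crest.Statements.S0392
import Crest.Agent.R254.Assemble

set_option autoImplicit false
open Crest.GeometryTopology
universe u v
open Crest Crest.GeometryTopology

namespace Crest.Agent.R254

theorem doubling_of_card {B : Type*} [NormedAddCommGroup B] {K : Set B} {Λ : ℕ}
    (h : ∀ r : ℝ, 0 < r → ∀ Q : Finset B, ↑Q ⊆ K → Sep Q r → (∀ p ∈ Q, ∀ q ∈ Q, ‖p - q‖ ≤ 4 * r) →
      Q.card ≤ Λ) : DoublingConstLE K Λ := by
  classical
  intro x _ r hr
  let P : ℕ → Prop := fun n =>
    ∃ Q : Finset B, ↑Q ⊆ K ∩ Metric.closedBall x (2 * r) ∧ Sep Q r ∧ Q.card = n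
  have hP : ∀ n, P n → n ≤ Λ := by
    rintro _ ⟨Q, hQ, hs, rfl⟩
    refine h r hr Q (fun p hp => (hQ hp).1) hs fun p hp q hq => ?_
    have h1 := mem_closedBall_iff_norm.1 (hQ hp).2
    have h2 := mem_closedBall_iff_norm.1 (hQ hq).2
    have h3 := norm_sub_le_norm_sub_add_norm_sub p x q
    rw [norm_sub_rev x q] at h3
    linarith
  have h0 : P 0 := ⟨∅, by simp, fun p hp => by simp at hp, rfl⟩
  obtain ⟨Q, hQ, hs, hc⟩ := Nat.findGreatest_spec (P := P) (Nat.zero_le Λ) h0
  refine ⟨Q, fun p hp => (hQ hp).1, hc ▸ Nat.findGreatest_le Λ, fun y hy => ?_⟩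
  by_contra hn
  simp only [Set.mem_iUnion, not_exists, mem_closedBall_iff_norm, not_le] at hn
  have hyQ : y ∉ Q := fun hy' => by
    have := hn y hy'
    rw [sub_self, norm_zero] at this
    linarith
  have h1 : P (Q.card + 1) := by
    refine ⟨insert y Q, ?_, ?_, Finset.card_insert_of_notMem hyQ⟩
    · rw [Finset.coe_insert]
      exact Set.insert_subset hy hQ
    · intro p hp q hq hne
      rcases Finset.mem_insert.1 hp with h1 | h1 <;> rcases Finset.mem_insert.1 hq with h2 | h2
      · exact absurd (h1.trans h2.symm) hne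
      · rw [h1]; exact hn q h2
      · rw [h2, norm_sub_rev]; exact hn p h1
      · exact hs p h1 q h2 hne
  have h2 := Nat.le_findGreatest (hP _ h1) h1
  omega

end Crest.Agent.R254

namespace Crest.Agent.S0392

/-- There is a universal constant `Λ` such that every infinite-dimensional real Banach space contains a compact subset that is doubling with constant at most `Λ` and admits no map into any finite-dimensional real normed space that is Lipschitz with a Lipschitz inverse on its image, whatever the two Lipschitz constants. Doubling is measured with closed balls centred at points of the subset. -/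
theorem result :
    ∃ Λ : ℕ, ∀ (B : Type u) [NormedAddCommGroup B] [NormedSpace ℝ B] [CompleteSpace B],
      ¬ FiniteDimensional ℝ B →
      ∃ K : Set B, IsCompact K ∧ DoublingConstLE K Λ ∧
        ∀ (Y : Type v) [NormedAddCommGroup Y] [NormedSpace ℝ Y] [FiniteDimensional ℝ Y]
          (f : K → Y) (c C : NNReal), ¬ (LipschitzWith C f ∧ AntilipschitzWith c f) := by
  classical
  refine ⟨2000000001 * 17, fun B _ _ _ hB => ?_⟩
  obtain ⟨S⟩ := R254.exists_sys hB
  refine ⟨S.K, S.isCompact_K, R254.doubling_of_card fun r hr Q => S.card_le hr Q, ?_⟩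
  rintro Y _ _ _ f c C ⟨h1, h2⟩
  let e := toEuclidean (E := Y)
  have h3 := e.lipschitz.comp h1
  have h4 := e.antilipschitz.comp h2
  generalize _ * C = C' at h3
  generalize c * _ = c' at h4
  obtain ⟨D, hD⟩ := exists_nat_ge (max (C' : ℝ) c')
  refine S.not_biLip D _ (fun p => if h : p ∈ S.K then e (f ⟨p, h⟩) else 0) fun p hp q hq => ?_
  simp only [hp, hq, dif_pos]
  have h5 := h3.dist_le_mul ⟨p, hp⟩ ⟨q, hq⟩
  have h6 := h4.le_mul_dist ⟨p, hp⟩ ⟨q, hq⟩
  rw [Subtype.dist_eq] at h5 h6
  simp only [Function.comp_apply, dist_eq_norm] at h5 h6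
  constructor
  · exact h6.trans (mul_le_mul_of_nonneg_right (by linarith [le_max_right (C' : ℝ) c'])
      (norm_nonneg _))
  · exact h5.trans (mul_le_mul_of_nonneg_right (by linarith [le_max_left (C' : ℝ) c'])
      (norm_nonneg _))

end Crest.Agent.S0392
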