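import Crest.Statements.S0397
import Crest.Agent.R259.Degen
import Crest.Agent.R259.Gen

set_option autoImplicit false
open Crest Crest.AlgGeometry

namespace Crest.Agent.S0397

/-- For every `r ≥ 10` there is a countable family of nonzero polynomial conditions on `r`-tuples of points of the complex affine plane, avoided by at least one tuple, such that at every tuple avoiding all of them the following holds: if a nonzero polynomial in two variables of total degree at most `d`, with `d ≥ 1`, vanishes to order at least `m i` at the `i`-th point for every `i`, then `∑ m i < d * √r`. -/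
theorem result (r : ℕ) (hr : 10 ≤ r) :
    ∃ S : Set (MvPolynomial (Fin r × Fin 2) ℂ),
      S.Countable ∧ (∀ g ∈ S, g ≠ 0) ∧
      (∃ p : Fin r → Fin 2 → ℂ, ∀ g ∈ S, MvPolynomial.eval (fun ij : Fin r × Fin 2 => p ij.1 ij.2) g ≠ 0) ∧
      ∀ p : Fin r → Fin 2 → ℂ, (∀ g ∈ S, MvPolynomial.eval (fun ij : Fin r × Fin 2 => p ij.1 ij.2) g ≠ 0) →
        ∀ (d : ℕ) (f : MvPolynomial (Fin 2) ℂ) (m : Fin r → ℕ),
          1 ≤ d → f ≠ 0 → f.totalDegree ≤ d →
          (∀ i, Crest.AlgGeometry.VanishesToOrder f (p i) (m i)) →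
          (∑ i, (m i : ℝ)) < (d : ℝ) * Real.sqrt (r : ℝ) := by
  classical
  have key : ∀ (d : ℕ) (m : Fin r → ℕ), 1 ≤ d → (d : ℝ) * Real.sqrt r ≤ ∑ i, (m i : ℝ) →
      ∃ g : MvPolynomial (Fin r × Fin 2) ℂ, g ≠ 0 ∧ ∀ p : Fin r → Fin 2 → ℂ,
        MvPolynomial.eval (fun ij : Fin r × Fin 2 => p ij.1 ij.2) g ≠ 0 →
        ∀ f : MvPolynomial (Fin 2) ℂ, f.totalDegree ≤ d →
          (∀ i, VanishesToOrder f (p i) (m i)) → f = 0 := by
    intro d m hd hle
    have hr1 : 1 ≤ r := by omega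
    have hs : Real.sqrt r * Real.sqrt r = r := Real.mul_self_sqrt (Nat.cast_nonneg r)
    have hs0 : 0 ≤ Real.sqrt r := Real.sqrt_nonneg _
    have hm : ((r * d : ℕ) : ℝ) ≤ Real.sqrt r * ((∑ l, m l : ℕ) : ℝ) := by
      push_cast
      calc (r : ℝ) * d = Real.sqrt r * (d * Real.sqrt r) := by
            conv_lhs => rw [← hs]
            ring
        _ ≤ _ := mul_le_mul_of_nonneg_left hle hs0
    obtain ⟨P, hP⟩ := R259.exists_special r hr (r * d) (∑ l, m l)
      (Nat.mul_pos hr1 hd) hm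
    obtain ⟨π, hπ⟩ := R259.exists_shift_empty r d hr1 m P hP
    exact R259.exists_condition r d m (fun i => P (π i)) hπ
  choose! g hg0 hg using key
  let S : Set (MvPolynomial (Fin r × Fin 2) ℂ) :=
    (fun q : ℕ × (Fin r → ℕ) => g q.1 q.2) ''
      {q | 1 ≤ q.1 ∧ (q.1 : ℝ) * Real.sqrt r ≤ ∑ i, (q.2 i : ℝ)}
  have hSc : S.Countable := (Set.to_countable _).image _
  have hS0 : ∀ x ∈ S, x ≠ 0 := by
    rintro _ ⟨q, hq, rfl⟩
    exact hg0 q.1 q.2 hq.1 hq.2
  refine ⟨S, hSc, hS0, ?_, ?_⟩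
  · obtain ⟨x, hx⟩ := R259.exists_avoid S hSc hS0
    exact ⟨fun i j => x (i, j), hx⟩
  · intro p hp d f m hd hf hfd hv
    by_contra hlt
    have hle : (d : ℝ) * Real.sqrt r ≤ ∑ i, (m i : ℝ) := not_lt.1 hlt
    exact hf (hg d m hd hle p (hp _ ⟨(d, m), ⟨hd, hle⟩, rfl⟩) f hfd hv)

end Crest.Agent.S0397
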