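import Crest.Statements.S0409
import Crest.Agent.R268.Crit

set_option autoImplicit false
open Crest Crest.AlgGeometry

namespace Crest.Agent.S0409

/-- There is a polynomial F in four variables over the complex numbers with all of the following properties: the quotient of ℂ[x₀,x₁,x₂,x₃] by the ideal generated by F is isomorphic as a ℂ-algebra to a polynomial ring in three variables; all four partial derivatives of F vanish at some point of ℂ⁴; and no ℂ-algebra automorphism of ℂ[x₀,x₁,x₂,x₃] sends F to x₀. -/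
theorem result :
    ∃ F : MvPolynomial (Fin 4) ℂ,
      Nonempty ((MvPolynomial (Fin 4) ℂ ⧸ Ideal.span {F}) ≃ₐ[ℂ] MvPolynomial (Fin 3) ℂ) ∧
      (∃ p : Fin 4 → ℂ, ∀ i : Fin 4, MvPolynomial.eval p (MvPolynomial.pderiv i F) = 0) ∧
      ¬ ∃ τ : MvPolynomial (Fin 4) ℂ ≃ₐ[ℂ] MvPolynomial (Fin 4) ℂ, τ F = MvPolynomial.X 0 := by
  have key : ∀ E : Derivation ℂ (MvPolynomial (Fin 4) ℂ) (MvPolynomial (Fin 4) ℂ),
      MvPolynomial.eval ![2, 0, -1 / 2, 1 / 2] (E (R268.fH (MvPolynomial.X 0) (MvPolynomial.X 1)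
        (MvPolynomial.X 2) (MvPolynomial.X 3) - 1)) = 0 := by
    intro E
    rw [map_sub, Derivation.map_one_eq_zero, sub_zero]
    exact R268.crit _ (by simp) (by simp) (by simp) (by simp) E
  exact ⟨_, R268.fibre_one, ⟨_, fun i => key _⟩, R268.not_coord 0 _ _ key⟩

end Crest.Agent.S0409
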