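import Crest.Statements.S0423
import Crest.Agent.R280.Meas

set_option autoImplicit false
open Crest Crest.AlgGeometry

namespace Crest.Agent.S0423

open MeasureTheory Crest.Agent.R280 in
lemma weight_eq (s : ℝ) : truncExpWeight s = 1 - ∫ y in Set.Iic s, w y := by
  unfold truncExpWeight
  split_ifs with h
  · rw [int_w_Iic_zero h, sub_zero]
  · rw [int_w_Iic (not_le.1 h).le]; ring

lemma weight_measurable : Measurable truncExpWeight := by
  unfold truncExpWeight
  exact Measurable.ite measurableSet_Iic measurable_const (by fun_prop)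

lemma weight_bound (s : ℝ) : ‖truncExpWeight s‖ ≤ 1 := by
  unfold truncExpWeight
  split_ifs with h
  · simp
  · have h1 : 0 < s := not_le.1 h
    rw [Real.norm_eq_abs, abs_of_nonneg (by positivity), Real.exp_neg, ← div_eq_mul_inv,
      div_le_one (Real.exp_pos _)]
    linarith [Real.add_one_le_exp s]

open MeasureTheory Crest.Agent.R280 in
lemma key (N : ℕ) (a : Fin N → ℝ) :
    ∫ x in Set.pi Set.univ (fun _ : Fin N => Set.Ioi (0 : ℝ)),
      truncExpWeight (4 / 3 + ∑ i, a i * x i) * Real.exp (-∑ i, x i)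
      = 1 - ∫ y, w y * surv (law N a) y := by
  rw [orthant_integral N a weight_measurable, ← int_cdf_eq]
  have hint : Integrable truncExpWeight (law N a) :=
    Integrable.mono' (integrable_const 1) weight_measurable.aestronglyMeasurable
      (Filter.Eventually.of_forall weight_bound)
  have h : (fun s => ∫ y in Set.Iic s, w y) = fun s => 1 - truncExpWeight s := by
    funext s; rw [weight_eq]; ring
  rw [h, integral_sub (integrable_const _) hint]
  simp

lemma const_eq : Real.exp (4 / 3) / (4 / 3) * (1 - 4 / 9 * Real.exp (-(1 / 3)))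
    = 3 / 4 * Real.exp (4 / 3) - Real.exp 1 / 3 := by
  have : Real.exp 1 = Real.exp (4 / 3) * Real.exp (-(1 / 3)) := by
    rw [← Real.exp_add]; norm_num
  rw [this]; ring

/-- For independent mean-one exponential random variables `X_1, …, X_N` (written as an integral over the positive orthant against the density `exp (-(x_1 + ⋯ + x_N))`), real coefficients `a_1, …, a_N` summing to zero, and the weight `g = truncExpWeight`, the quantity `(e^{4/3} / (4/3)) · E[g(4/3 + a_1 X_1 + ⋯ + a_N X_N)]` has supremum over all `N ≥ 1` and all such `a` exactly `(3/4) e^{4/3} − e/3`: it never exceeds this value, and comes within any `ε > 0` of it for some `N` and `a`. -/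
theorem result :
    (∀ (N : ℕ) (a : Fin N → ℝ), 1 ≤ N → ∑ i, a i = 0 →
      Real.exp (4 / 3) / (4 / 3) *
          ∫ x in Set.pi Set.univ (fun _ : Fin N => Set.Ioi (0 : ℝ)),
            Crest.AlgGeometry.truncExpWeight (4 / 3 + ∑ i, a i * x i) * Real.exp (-∑ i, x i)
        ≤ 3 / 4 * Real.exp (4 / 3) - Real.exp 1 / 3) ∧
    (∀ ε : ℝ, 0 < ε → ∃ (N : ℕ) (a : Fin N → ℝ), 1 ≤ N ∧ ∑ i, a i = 0 ∧
      3 / 4 * Real.exp (4 / 3) - Real.exp 1 / 3 - ε <
        Real.exp (4 / 3) / (4 / 3) *
          ∫ x in Set.pi Set.univ (fun _ : Fin N => Set.Ioi (0 : ℝ)),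
            Crest.AlgGeometry.truncExpWeight (4 / 3 + ∑ i, a i * x i) * Real.exp (-∑ i, x i)) := by
  have hpos : 0 < Real.exp (4 / 3) / (4 / 3) := by positivity
  refine ⟨fun N a _ ha => ?_, fun ε hε => ?_⟩
  · rw [key, ← const_eq]
    exact mul_le_mul_of_nonneg_left (by linarith [R280.law_lower N a ha]) hpos.le
  · have h1 : Filter.Tendsto (fun n : ℕ => ((1 + 1 / (n : ℝ)) ^ n)⁻¹) Filter.atTop
        (nhds (Real.exp 1)⁻¹) := (Real.tendsto_one_add_div_pow_exp 1).inv₀ (Real.exp_pos _).ne'
    have h2 := (((h1.const_mul (4 / 9 * Real.exp (2 / 3))).const_sub 1).const_mul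
      (Real.exp (4 / 3) / (4 / 3)))
    have h3 : Real.exp (4 / 3) / (4 / 3) * (1 - 4 / 9 * Real.exp (2 / 3) * (Real.exp 1)⁻¹)
        = 3 / 4 * Real.exp (4 / 3) - Real.exp 1 / 3 := by
      rw [← const_eq, ← Real.exp_neg, mul_assoc (4 / 9 : ℝ), ← Real.exp_add]; norm_num
    rw [h3] at h2
    obtain ⟨n, hn, hn1⟩ := ((h2.eventually (lt_mem_nhds (sub_lt_self _ hε))).and
      (Filter.eventually_ge_atTop 1)).exists
    have hn0 : (0 : ℝ) < n := by exact_mod_cast hn1
    refine ⟨n + 1, R280.vec (2 / n) n, by omega, ?_, ?_⟩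
    · rw [R280.vec_sum]; field_simp; ring
    · rw [key]
      refine hn.trans_le (mul_le_mul_of_nonneg_left ?_ hpos.le)
      have h4 := R280.law_upper (c := 2 / n) (by positivity) n
      have h5 : (1 + 2 / (n : ℝ) / 2) = 1 + 1 / n := by field_simp
      rw [h5, inv_pow] at h4
      linarith

end Crest.Agent.S0423
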