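import Crest.Statements.S0431
import Crest.Agent.R286.Final

set_option autoImplicit false
open Crest.Enc Crest.Sched3
open Crest Crest.LogicCS

namespace Crest.Agent.S0431

/-- There is a map on bit strings, computable by a multi-stack machine within C·(L+2)^150020 + C steps on every input of length L for some constant C, which, given the code of any acyclic precedence table on n ≥ 1 unit-length jobs, returns the code of a feasible schedule on three identical machines (slots numbered from 1, at most three jobs per slot, a job constrained to precede another in a strictly earlier slot) whose largest slot is as small as that of any feasible schedule. -/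
theorem result :
    ∃ f : List Bool → List Bool,
      (∃ C : ℕ, Crest.DTime.TimeBound f (fun L => C * (L + 2) ^ 150020 + C)) ∧
      ∀ (n : ℕ) (E : Fin n → Fin n → Bool), 1 ≤ n → Acyclic E →
        ∃ τ : Fin n → ℕ, f (precCode n E) = listCode (List.ofFn τ) ∧ IsSchedule E τ ∧
          ∀ τ' : Fin n → ℕ, IsSchedule E τ' → Finset.univ.sup τ ≤ Finset.univ.sup τ' := by
  obtain ⟨Φ, -, hΦ⟩ := Crest.Agent.R286.exists_Phi 67
  exact ⟨Crest.Agent.R286.alg Φ 67, (Crest.Agent.R286.cd_alg Φ).timeBound (by omega),
    fun n E hn hac => Crest.Agent.R286.alg_correct hΦ hn hac⟩

end Crest.Agent.S0431
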