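import Crest.Statements.S0432
import Crest.Agent.R287.Conn
import Crest.Agent.R287.Poly
import Crest.Agent.R287.Euler

set_option autoImplicit false
open Crest.Enc
open Crest Crest.LogicCS

namespace Crest.Agent.S0432

/-- Strings are finite lists of natural-number symbols; a family of strings is coded by the number of its members followed by the self-delimiting codes of the members. There is a polynomial-time map on bit strings sending the code of every finite family to the code of a string that contains each member as a contiguous substring and is at most twice as long as any string with that property. -/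
theorem result :
    ∃ f : List Bool → List Bool, Crest.Complexity.PolyTime f ∧
      ∀ S : List (List ℕ), ∃ T : List ℕ,
        f (natCode S.length ++ (S.map listCode).flatten) = listCode T ∧
        (∀ s ∈ S, s <:+: T) ∧
        ∀ T' : List ℕ, (∀ s ∈ S, s <:+: T') → T.length ≤ 2 * T'.length := by
  open Crest.Agent.R287 Crest.Agent.Lib.PolyTime in
  have h1 : Crest.Agent.Lib.PolyTime.Poly fun w : List Bool =>
      listCode (alg (pList (pList pNat) w).1) :=
    ((poly_alg boundStmt).comp
      (Poly.pList (p := fun _ => pList pNat) (by fun_prop) Poly.id').fst).listCode
  open Crest.Agent.R287 Crest.Agent.Lib.PolyTime in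
  refine ⟨_, h1.polyTime, fun S => ⟨alg S, ?_, algStmt_of balStmt costStmt connStmt S⟩⟩
  open Crest.Agent.R287 Crest.Agent.Lib.PolyTime in
  have h2 := pList_code (p := pList pNat) (c := listCode) (v := id) (l := S)
    (fun x _ w => pList_listCode x w) (fun x _ => by simp [listCode, natCode_ne_nil]) []
  simp only [List.append_nil, List.map_id] at h2
  simp only [h2]

end Crest.Agent.S0432
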