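import Crest.Statements.S0448
import Crest.Agent.R296.Succ
import Crest.Agent.R296.Final0
import Crest.Agent.R296.Frame0
import Crest.Agent.R296.Cond0
import Crest.Agent.R296.Conj
import Crest.Agent.R296.ZFBasic
import Crest.Agent.R296.ZFScheme
import Crest.Agent.R296.Extract
import Crest.Agent.R296.Syntax
import Crest.Agent.R296.SyntaxWO
import Crest.Agent.R296.SupInf
import Crest.Agent.R296.Stable
import Crest.Agent.R296.PP
import Crest.Agent.R296.ACWO
import Crest.Agent.R296.NotAC

set_option autoImplicit false
open FirstOrder FirstOrder.Language Crest.LogicCS.SetTheory
open Crest Crest.LogicCS

namespace Crest.Agent.S0448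

/-- If first-order ZF (extensionality, pairing, union, power set, infinity, foundation, separation and replacement schemes; one membership symbol) has a model, then so does ZF with the partition principle (if a set is the graph of a map from X onto Y, some set is the graph of a one-to-one map from Y into X), choice for families indexed by an ordinal (a transitive set of transitive sets), and the negation of choice for sets of non-empty pairwise disjoint sets (a set meeting each exactly once). -/
theorem result (h : Theory.IsSatisfiable ZF) : Theory.IsSatisfiable (ZF ∪ {ppAx, acwoAx, ∼acAx}) := by
  open Crest.Agent.R296 in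
  exact assemble succStmt finalOfSuccStmt frameStmt condStmt conjStmt zfBasicStmt zfSchemeStmt
    extractStmt syntaxStmt syntaxWOStmt supInfStmt stableStmt rigidStmt ppStmt acwoStmt notACStmt

end Crest.Agent.S0448
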