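import Crest.Statements.S0453
import Crest.Agent.R299.Kernel

set_option autoImplicit false
open Finset
open Crest Crest.LogicCS

namespace Crest.Agent.S0453

/-- For every n ≥ 4 and every labeled degree vector on n vertices with a simple realization: the lazy switch chain (hold with probability 1/2, else take a uniform four-vertex set and a uniform ordered pair of distinct perfect matchings on it, swapping the first for the second when the first is present and the second absent) is, from every realization, within total variation 1/4 of uniform on the realizations after some t ≤ 2n^8 steps; and Var(f) ≤ 24 n² C(n,4) ⟨f, (I − P) f⟩ for the uniform law. -/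
theorem result (n : ℕ) (hn : 4 ≤ n)
    (d : Fin n → ℕ) (hd : (Crest.SwitchChain.realizations d).Nonempty) :
    (∃ t : ℕ, t ≤ 2 * n ^ 8 ∧ ∀ G ∈ Crest.SwitchChain.realizations d,
        Crest.SwitchChain.tvDist (fun G' => (Crest.SwitchChain.kernel n ^ t) G G')
          (Crest.SwitchChain.unifOn (Crest.SwitchChain.realizations d)) ≤ 1 / 4) ∧
      ∀ f : Finset (Crest.SwitchChain.Edge n) → ℝ,
        ((Crest.SwitchChain.realizations d).card : ℝ) *
              (∑ G ∈ Crest.SwitchChain.realizations d, f G ^ 2) -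
            (∑ G ∈ Crest.SwitchChain.realizations d, f G) ^ 2 ≤
          24 * (n : ℝ) ^ 2 * (n.choose 4 : ℝ) * (Crest.SwitchChain.realizations d).card *
            ∑ G ∈ Crest.SwitchChain.realizations d,
              f G * (f G - ∑ G' ∈ Crest.SwitchChain.realizations d,
                Crest.SwitchChain.kernel n G G' * f G') := by
  refine ⟨⟨2 * n ^ 8, le_rfl, fun G hG => ?_⟩, R299.poincare_kernel hn d⟩
  have hn4 : (4 : ℝ) ≤ n := by exact_mod_cast hn
  have hC : (1 : ℝ) ≤ n.choose 4 := by exact_mod_cast Nat.choose_pos hn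
  have hC2 : (n.choose 4 : ℝ) ≤ (n : ℝ) ^ 4 / 24 := by
    have := Nat.choose_le_pow_div (α := ℝ) 4 n
    simpa [Nat.factorial] using this
  set c : ℝ := 24 * (n : ℝ) ^ 2 * (n.choose 4 : ℝ) with hc
  have hn2 : (16 : ℝ) ≤ (n : ℝ) ^ 2 := by nlinarith
  have hc1 : 1 ≤ c := by nlinarith
  have hc6 : c ≤ (n : ℝ) ^ 6 := by nlinarith
  have h := R299.mixing (Crest.SwitchChain.kernel n) (Crest.SwitchChain.realizations d)
    R299.kernel_symm R299.kernel_nonneg (R299.kernel_row hn) R299.kernel_lazy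
    R299.kernel_closed c hc1 (R299.poincare_kernel hn d) G hG (2 * n ^ 8)
  have hc0 : 0 < c := by linarith
  have hq : 0 ≤ 1 - 1 / c := by rw [sub_nonneg, div_le_one hc0]; exact hc1
  have h1 : (1 - 1 / c) ^ (2 * n ^ 8) ≤ Real.exp (-(2 * (n : ℝ) ^ 2)) := by
    calc (1 - 1 / c) ^ (2 * n ^ 8) ≤ Real.exp (-(1 / c)) ^ (2 * n ^ 8) :=
          pow_le_pow_left₀ hq (by linarith [Real.add_one_le_exp (-(1 / c))]) _
      _ = Real.exp (((2 * n ^ 8 : ℕ) : ℝ) * -(1 / c)) := (Real.exp_nat_mul _ _).symm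
      _ ≤ _ := by
          refine Real.exp_le_exp.2 ?_
          push_cast
          rw [mul_neg, neg_le_neg_iff, mul_one_div, le_div_iff₀ hc0]
          nlinarith
  have h2 : ((Crest.SwitchChain.realizations d).card : ℝ) ≤ 2 ^ (n ^ 2) := by
    have a1 : (Crest.SwitchChain.realizations d).card ≤ 2 ^ n.choose 2 := by
      refine (card_le_univ _).trans (le_of_eq ?_)
      rw [Fintype.card_finset, Sym2.card_subtype_not_diag, Fintype.card_fin]
    have a2 : 2 ^ n.choose 2 ≤ 2 ^ (n ^ 2) :=
      Nat.pow_le_pow_right (by norm_num) (Nat.choose_le_pow n 2)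
    exact_mod_cast a1.trans a2
  have h3 : (2 : ℝ) ^ (n ^ 2) * Real.exp (-(2 * (n : ℝ) ^ 2)) ≤ 1 / 4 := by
    have a1 : (2 : ℝ) ^ (n ^ 2) ≤ Real.exp ((n : ℝ) ^ 2) := by
      calc (2 : ℝ) ^ (n ^ 2) ≤ Real.exp 1 ^ (n ^ 2) :=
            pow_le_pow_left₀ (by norm_num) (by linarith [Real.add_one_le_exp 1]) _
        _ = _ := by rw [← Real.exp_nat_mul]; push_cast; ring_nf
    have a2 : 4 ≤ Real.exp ((n : ℝ) ^ 2) := by linarith [Real.add_one_le_exp ((n : ℝ) ^ 2)]
    have a3 : Real.exp (-(2 * (n : ℝ) ^ 2)) =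
        (Real.exp ((n : ℝ) ^ 2) * Real.exp ((n : ℝ) ^ 2))⁻¹ := by
      rw [← Real.exp_add, ← Real.exp_neg]; ring_nf
    rw [a3, ← div_eq_mul_inv, div_le_iff₀ (by positivity)]
    nlinarith
  have h4 : ((Crest.SwitchChain.realizations d).card : ℝ) * (1 - 1 / c) ^ (2 * n ^ 8) ≤
      (1 / 2) ^ 2 :=
    (mul_le_mul h2 h1 (pow_nonneg hq _) (by positivity)).trans (h3.trans (by norm_num))
  have h5 := abs_le_of_sq_le_sq' (h.trans h4) (by norm_num)
  unfold Crest.SwitchChain.tvDist Crest.SwitchChain.unifOn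
  linarith [h5.2]

end Crest.Agent.S0453
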