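import Crest.Statements.S0462
import Crest.Agent.R302.Final
import Crest.Agent.R302.Matroid

set_option autoImplicit false
open Crest.Polymatroid
open Crest Crest.LogicCS

namespace Crest.Agent.S0462

/-- Counting common bases of two matroids of rank r on an n-set given by independence oracles (answer 1 for an independent query set, 0 otherwise): one randomized oracle word-RAM program such that for all such matroids and rationals ε, δ in (0,1), given the words n, r, ε, δ, every run halts within C·(S+1)^d steps, queries included (S = n + bit lengths + ⌈1/ε⌉), outputting a nonnegative rational that is 0 on all runs when the count is 0 and within 1 ± ε of it with probability ≥ 1−δ. -/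
theorem result :
    ∃ (P : Crest.OracleRAM.OProgram) (c₀ C d : ℕ),
      ∀ (n r : ℕ) (M₁ M₂ : Matroid (Fin n)) (ε δ : ℚ),
        M₁.E = Set.univ → M₂.E = Set.univ → M₁.eRank = r → M₂.eRank = r →
        0 < ε → ε < 1 → 0 < δ → δ < 1 →
        (∀ ρ : ℕ → ℕ, (Crest.OracleRAM.orun P n (indepOracle M₁ M₂)
            (c₀ * Nat.clog 2 (n + r + ε.num.natAbs + ε.den + δ.num.natAbs + δ.den + 2)) ρ
            (countInput n r ε δ) (C * (sizeParam n r ε δ + 1) ^ d)).cfg.halted = true) ∧
        (∀ ρ : ℕ → ℕ, ∃ z : ℚ, 0 ≤ z ∧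
          Crest.OracleRAM.decodeRat
              (c₀ * Nat.clog 2 (n + r + ε.num.natAbs + ε.den + δ.num.natAbs + δ.den + 2))
              (Crest.OracleRAM.orun P n (indepOracle M₁ M₂)
                (c₀ * Nat.clog 2 (n + r + ε.num.natAbs + ε.den + δ.num.natAbs + δ.den + 2)) ρ
                (countInput n r ε δ) (C * (sizeParam n r ε δ + 1) ^ d)).cfg.output = some z) ∧
        (numCommonBases M₁ M₂ = 0 → ∀ ρ : ℕ → ℕ,
          Crest.OracleRAM.decodeRat
              (c₀ * Nat.clog 2 (n + r + ε.num.natAbs + ε.den + δ.num.natAbs + δ.den + 2))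
              (Crest.OracleRAM.orun P n (indepOracle M₁ M₂)
                (c₀ * Nat.clog 2 (n + r + ε.num.natAbs + ε.den + δ.num.natAbs + δ.den + 2)) ρ
                (countInput n r ε δ) (C * (sizeParam n r ε δ + 1) ^ d)).cfg.output = some 0) ∧
        1 - (δ : ℝ) ≤ Crest.OracleRAM.oprobAfter P n (indepOracle M₁ M₂)
            (c₀ * Nat.clog 2 (n + r + ε.num.natAbs + ε.den + δ.num.natAbs + δ.den + 2))
            (countInput n r ε δ) (C * (sizeParam n r ε δ + 1) ^ d)
            (fun c => ∃ z : ℚ, Crest.OracleRAM.decodeRat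
                (c₀ * Nat.clog 2 (n + r + ε.num.natAbs + ε.den + δ.num.natAbs + δ.den + 2))
                c.cfg.output = some z ∧
              (1 - ε) * numCommonBases M₁ M₂ ≤ z ∧ z ≤ (1 + ε) * numCommonBases M₁ M₂) := by
  classical
  let P : R302.Inst → Prop := fun I => ∃ M : Bool → Matroid (Fin I.n),
    (∀ s, (M s).E = Set.univ ∧ (M s).eRank = I.R) ∧ I.O = indepOracle (M false) (M true)
  have hc : ∀ I : Subtype P, ∃ M : Bool → Matroid (Fin I.1.n),
      (∀ s, (M s).E = Set.univ ∧ (M s).eRank = I.1.R) ∧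
        I.1.O = indepOracle (M false) (M true) := fun I => I.2
  choose M hM hO using hc
  obtain ⟨prog, c₀, C, d, h⟩ := R302.exists_counter P (fun I s => R302.mrk (M I s))
    (fun I s => R302.mrk_poly (hM I s).1 (hM I s).2)
    (R302.opoly_mrk P M (fun I s => (hM I s).1) hO)
  refine ⟨prog, c₀, C, d, fun n r M₁ M₂ ε δ h₁ h₂ e₁ e₂ ε0 ε1 δ0 δ1 => ?_⟩
  let I : Subtype P := ⟨⟨n, r, ε, δ, indepOracle M₁ M₂, ε0, ε1, δ0, δ1, fun b A => by
      unfold indepOracle; split_ifs <;> omega⟩,
    ⟨fun s => if s then M₂ else M₁, fun s => by cases s; exacts [⟨h₁, e₁⟩, ⟨h₂, e₂⟩], rfl⟩⟩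
  have hI := h I
  have hind : ∀ (s : Bool) (A : Finset (Fin n)),
      (if s then M₂ else M₁).Indep (A : Set (Fin n)) ↔
        (if s then M I true else M I false).Indep (A : Set (Fin n)) := by
    intro s A
    have := congrFun (congrFun (hO I) s) A
    change indepOracle M₁ M₂ s A = _ at this
    unfold indepOracle at this
    by_cases ha : (if s then M₂ else M₁).Indep (A : Set (Fin n)) <;>
      by_cases hb : (if s then M I true else M I false).Indep (A : Set (Fin n)) <;> simp_all
  have key : ∀ (N N' : Matroid (Fin n)), N.E = Set.univ → N'.E = Set.univ →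
      (∀ A : Finset (Fin n), N.Indep (A : Set (Fin n)) ↔ N'.Indep (A : Set (Fin n))) → N = N' := by
    intro N N' a b hh
    refine Matroid.ext_indep (a.trans b.symm) fun A _ => ?_
    simpa using hh A.toFinset
  have k₁ : M₁ = M I false := key _ _ h₁ (hM I false).1 (by simpa using hind false)
  have k₂ : M₂ = M I true := key _ _ h₂ (hM I true).1 (by simpa using hind true)
  have e : numCommonIntBases r (R302.mrk (M I false)) (R302.mrk (M I true)) =
      numCommonBases M₁ M₂ := by
    rw [← k₁, ← k₂]; exact R302.numCommon_eq h₁ h₂ e₁ e₂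
  rw [← e]
  exact hI

end Crest.Agent.S0462
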