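import Crest.Statements.S0468
import Crest.Agent.R305.Split
import Crest.Agent.R305.Sparse
import Crest.Agent.R305.Compress
import Crest.Agent.R305.Rank
import Crest.Agent.R305.SLI
import Crest.Agent.R305.Acc
import Crest.Agent.R305.Det
import Crest.Agent.R305.Gain
import Crest.Agent.R305.Core
import Crest.Agent.R305.Value
import Crest.Agent.R305.Rule
import Crest.Agent.R305.Final

set_option autoImplicit false
universe u
open Crest.OnlineMatroid
open Crest Crest.LogicCS

namespace Crest.Agent.S0468

/-- For every matroid on a finite ground set there are a seed probability space and a one-sample online rule (all samples seen in advance, each value on arrival) whose accepted set is always independent, such that for nonnegative sample/value pairs with all coordinates independent, each sample distributed as its value and finite expected optimum, the expected minimum over arrival orders of the accepted value (over seed and environment) is at least 2^(−310) of the expected optimum. -/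
theorem result (k : ℕ) (M : Matroid (Fin k)) :
    ∃ (ΩR : Type) (_ : MeasurableSpace ΩR) (μR : MeasureTheory.Measure ΩR) (R : SampleRule ΩR k),
      MeasureTheory.IsProbabilityMeasure μR ∧
      (∀ (r : ΩR) (s v : Fin k → ℝ) (order : List (Fin k)),
        M.Indep (sAccepted R r s v order : Set (Fin k))) ∧
      ∀ (Ω : Type u) [MeasurableSpace Ω] (P : MeasureTheory.Measure Ω)
        [MeasureTheory.IsProbabilityMeasure P] (S V : Ω → Fin k → ℝ),
        Measurable S → Measurable V → (∀ ω e, 0 ≤ S ω e ∧ 0 ≤ V ω e) →
        ProbabilityTheory.iIndepFun
          (fun (i : Fin k × Bool) (ω : Ω) => if i.2 = true then S ω i.1 else V ω i.1) P →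
        (∀ e, P.map (fun ω => S ω e) = P.map (fun ω => V ω e)) →
        ∫⁻ ω, optWeight M (V ω) ∂P ≠ ⊤ →
        (2 : ENNReal)⁻¹ ^ 310 * ∫⁻ ω, optWeight M (V ω) ∂P ≤
          ∫⁻ p, ⨅ σ : Equiv.Perm (Fin k),
            ENNReal.ofReal (∑ e ∈ sAccepted R p.1 (S p.2) (V p.2) (List.ofFn σ), V p.2 e)
            ∂(μR.prod P) := by
  have hD := R305.det R305.accStmt
  have hC := R305.coreStmt (R305.rank (R305.compress (R305.sparse R305.split)))
    (R305.gainStmt R305.sli)
  exact R305.final hD (R305.value hD hC) R305.rule k M

end Crest.Agent.S0468
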