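import Crest.Statements.S0479
import Crest.Agent.R309.Tab

set_option autoImplicit false
open Crest.Enc Crest.FinProb Crest.Randomized Crest.Tables
open Crest Crest.LogicCS

namespace Crest.Agent.S0479

open Crest.Agent.Lib.PolyTime Crest.Agent.R309

/-- The accuracy parameters. -/
def pTail : List Bool → (ℚ × ℚ × Un) × List Bool := pSeq pRat (pSeq pRat pUn)

/-- A given number of naturals. -/
def pNats (n : ℕ) : List Bool → List ℕ × List Bool := pRep pNat n

/-- The margins and the bounds, read after `m` and `n`. -/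
def pBody (m n : ℕ) : List Bool → (List ℕ × List ℕ × List ℕ × ℚ × ℚ × Un) × List Bool :=
  pSeq (pNats m) (pSeq (pNats n) (pSeq (pNats (m * n)) pTail))

/-- The parsed input. -/
def parse (w : List Bool) : List ℕ × List ℕ × List ℕ × ℚ × ℚ × Un :=
  (pBody (pNat w).1 (pNat (pNat w).2).1 (pNat (pNat w).2).2).1

/-- The instance handed to the estimator. -/
def inst (x : List ℕ × List ℕ × List ℕ × ℚ × ℚ × Un) : (List ℕ × List ℕ) × (List ℕ × List ℕ) × Un :=
  ((x.1, x.2.1), (x.2.2.1.map fun _ => 0, x.2.2.1), x.2.2.2.2.2)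

/-- The number of repetitions. -/
def reps (x : List ℕ × List ℕ × List ℕ × ℚ × ℚ × Un) : ℕ := x.2.2.2.2.1.den.size

theorem poly_pTail : Poly pTail :=
  Poly.pSeq (p := fun _ => pRat) (q := fun _ => pSeq pRat pUn) Poly.id'.snd.pRat
    (Poly.pSeq (p := fun _ => pRat) (q := fun _ => pUn) Poly.id'.snd.pRat Poly.id'.snd.pUn
      Poly.id'.snd) Poly.id'

theorem poly_pNats {α : Type} [PEnc α] {n : α → ℕ} {w : α → List Bool} (hn : Poly n)
    (hw : Poly w) : Poly fun a => pNats (n a) (w a) :=
  Poly.pRep (p := fun _ => pNat) Poly.id'.snd.pNat hn hw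

theorem poly_pBody : Poly fun x : (ℕ × ℕ) × List Bool => pBody x.1.1 x.1.2 x.2 :=
  Poly.pSeq (poly_pNats Poly.id'.fst.fst.fst Poly.id'.snd)
    (Poly.pSeq (poly_pNats Poly.id'.fst.fst.fst.snd Poly.id'.snd)
      (Poly.pSeq (q := fun _ => pTail)
        (poly_pNats (Poly.id'.fst.fst.fst.fst.fst.mul Poly.id'.fst.fst.fst.fst.snd) Poly.id'.snd)
        (poly_pTail.comp Poly.id'.snd) Poly.id'.snd) Poly.id'.snd) Poly.id'.snd

theorem poly_parse : Poly parse :=
  (poly_pBody.comp (g := fun w : List Bool => (((pNat w).1, (pNat (pNat w).2).1),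
    (pNat (pNat w).2).2)) (by fun_prop)).fst

theorem poly_inst : Poly inst := by unfold inst; fun_prop

theorem poly_reps : Poly reps := by unfold reps; fun_prop

theorem pb_reps : PB reps := by unfold reps; fun_prop

theorem boundsCode_eq {m n : ℕ} (b : Fin m → Fin n → ℕ) :
    boundsCode b = ((flat b).map natCode).flatten := by
  simp only [boundsCode, flat, List.map_flatten, List.flatten_flatten, List.map_ofFn,
    Function.comp_def]

theorem parse_code {m n : ℕ} (rs : Fin m → ℕ) (cs : Fin n → ℕ) (b : Fin m → Fin n → ℕ) (ε δ : ℚ)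
    (k : ℕ) :
    parse (marginsCode rs cs ++ boundsCode b ++ ratCode ε ++ ratCode δ ++ List.replicate k true) =
      (List.ofFn rs, List.ofFn cs, flat b, ε, δ, ⟨k⟩) := by
  have h : ∀ (l : List ℕ) (j : ℕ), l.length = j → ∀ w,
      pRep pNat j ((l.map natCode).flatten ++ w) = (l, w) := fun l j hj w => by
    simpa using pRep_code (p := pNat) (c := natCode) (v := id) (l := l) (fun x _ => pNat_code x)
      (fun x _ => natCode_ne_nil x) hj w
  simp only [parse, marginsCode, boundsCode_eq, List.append_assoc, pNat_code, pBody, pTail, pNats,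
    pSeq, h _ _ List.length_ofFn, h _ _ (length_flat b), pRat_code, pUn_replicate]

theorem half_pow_le {δ : ℚ} (h : 0 < δ) : (1 / 2 : ℝ) ^ δ.den.size ≤ δ := by
  have h1 : (δ.den : ℝ) ≤ 2 ^ δ.den.size := by exact_mod_cast (Nat.lt_size_self δ.den).le
  have h2 : (1 : ℝ) ≤ δ.num := by exact_mod_cast Rat.num_pos.2 h
  have h3 : (0 : ℝ) < δ.den := by exact_mod_cast δ.den_pos
  rw [Rat.cast_def, one_div, inv_pow, inv_eq_one_div]
  exact div_le_div₀ (by linarith) h2 h3 h1

/-- A randomized polynomial-time approximation scheme counts contingency tables with cell bounds: one algorithm and one polynomial r such that, on the codes of margins, of cell bounds, of rationals ε, δ in (0,1) and a unary block of length ⌈1/ε⌉, run with r(input length) fair random bits, every tape yields the code of a nonnegative rational, which with probability at least 1 − δ is within a factor 1 ± ε of the number of bounded tables, and which is 0 on every tape when there is no such table. -/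
theorem result :
    ∃ (A : List Bool × List Bool → List Bool) (r : Polynomial ℕ), RandPolyTime A ∧
      ∀ (m n : ℕ) (rs : Fin m → ℕ) (cs : Fin n → ℕ) (b : Fin m → Fin n → ℕ) (ε δ : ℚ),
        0 < ε → ε < 1 → 0 < δ → δ < 1 →
        (∀ ω : Fin (r.eval (marginsCode rs cs ++ boundsCode b ++ ratCode ε ++ ratCode δ ++ List.replicate ⌈ε⁻¹⌉₊ true).length) → Bool,
          ∃ z : ℚ, 0 ≤ z ∧ A (marginsCode rs cs ++ boundsCode b ++ ratCode ε ++ ratCode δ ++ List.replicate ⌈ε⁻¹⌉₊ true, List.ofFn ω) = ratCode z) ∧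
        (numBoundedTables rs cs b = 0 →
          ∀ ω : Fin (r.eval (marginsCode rs cs ++ boundsCode b ++ ratCode ε ++ ratCode δ ++
              List.replicate ⌈ε⁻¹⌉₊ true).length) → Bool,
            A (marginsCode rs cs ++ boundsCode b ++ ratCode ε ++ ratCode δ ++
              List.replicate ⌈ε⁻¹⌉₊ true, List.ofFn ω) = ratCode 0) ∧
        1 - (δ : ℝ) ≤ uniformProb {ω : Fin (r.eval (marginsCode rs cs ++ boundsCode b ++ ratCode ε ++
              ratCode δ ++ List.replicate ⌈ε⁻¹⌉₊ true).length) → Bool |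
            ∃ z : ℚ, A (marginsCode rs cs ++ boundsCode b ++ ratCode ε ++ ratCode δ ++
                List.replicate ⌈ε⁻¹⌉₊ true, List.ofFn ω) = ratCode z ∧
              (1 - ε) * numBoundedTables rs cs b ≤ z ∧ z ≤ (1 + ε) * numBoundedTables rs cs b} := by
  obtain ⟨Est, p, hE, hEst⟩ := exists_estT
  have h1 := poly_parse
  have h2 := poly_inst
  have h3 := poly_reps
  have h4 := pb_reps
  obtain ⟨q, hq⟩ : PB fun w : List Bool => reps (parse w) * p.eval (sz (inst (parse w))) := by
    fun_prop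
  refine ⟨fun x => ratCode (medQ (draws (fun v => Est (inst (parse x.1), v))
    (p.eval (sz (inst (parse x.1)))) (reps (parse x.1)) x.2)),
    q.comp (4 * Polynomial.X + 1), Poly.randPolyTime (by fun_prop), ?_⟩
  intro m n rs cs b ε δ hε hε1 hδ hδ1
  have hp := parse_code rs cs b ε δ ⌈ε⁻¹⌉₊
  generalize marginsCode rs cs ++ boundsCode b ++ ratCode ε ++ ratCode δ ++
    List.replicate ⌈ε⁻¹⌉₊ true = w at hp ⊢
  have hr : reps (parse w) * p.eval (sz (inst (parse w))) ≤
      (q.comp (4 * Polynomial.X + 1)).eval w.length :=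
    (hq w).trans (by simpa using eval_mono q (sz_listBool_le w))
  generalize (q.comp (4 * Polynomial.X + 1)).eval w.length = N at hr ⊢
  have hi : inst (parse w) = ((List.ofFn rs, List.ofFn cs), (List.replicate (m * n) 0, flat b),
      ⟨⌈ε⁻¹⌉₊⟩) := by
    rw [hp, inst, List.map_const', length_flat]
  have ht : reps (parse w) = δ.den.size := by rw [hp, reps]
  have hκ : 1 ≤ ⌈ε⁻¹⌉₊ := Nat.one_le_ceil_iff.2 (inv_pos.2 hε)
  obtain ⟨e1, e2, e3⟩ := hEst (List.ofFn rs) (List.ofFn cs) (List.replicate (m * n) 0) (flat b)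
    ⟨⌈ε⁻¹⌉₊⟩ (by simp) (by simp [length_flat]) hκ
  rw [boxCard_eq] at e2 e3
  rw [← hi] at e1 e2 e3
  have hmem : ∀ u, ∀ x ∈ draws (fun v => Est (inst (parse w), v)) (p.eval (sz (inst (parse w))))
      (reps (parse w)) u, ∃ v, x = Est (inst (parse w), v) := fun u x hx => by
    obtain ⟨v, -, hv⟩ := List.mem_map.1 hx
    exact ⟨v, hv.symm⟩
  refine ⟨fun ω => ⟨_, ?_, rfl⟩, fun h0 ω => congrArg ratCode ?_, ?_⟩
  · rcases medQ_mem_or _ with h | h
    · obtain ⟨v, hv⟩ := hmem _ _ h
      rw [hv]; exact e1 v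
    · exact h.ge
  · rcases medQ_mem_or _ with h | h
    · obtain ⟨v, hv⟩ := hmem _ _ h
      rw [hv]; exact e2 h0 v
    · exact h
  · have hb := Pr_half_bad (fun v => Est (inst (parse w), v))
      (fun x => !(decide ((1 - ε) * numBoundedTables rs cs b ≤ x) &&
        decide (x ≤ (1 + ε) * numBoundedTables rs cs b))) hr (by
        have a1 := e3 _ le_rfl
        refine (Pr_mono (q := fun u => ¬ |(Est (inst (parse w), u) : ℝ) -
          numBoundedTables rs cs b| ≤ numBoundedTables rs cs b / (⌈ε⁻¹⌉₊ : ℕ))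
          fun u _ hu hc => ?_).trans (by rw [Pr_not]; linarith)
        have a2 : (numBoundedTables rs cs b : ℝ) / (⌈ε⁻¹⌉₊ : ℕ) ≤ ε * numBoundedTables rs cs b := by
          have a3 : (1 : ℚ) ≤ ε * (⌈ε⁻¹⌉₊ : ℕ) := by
            rw [← mul_inv_cancel₀ hε.ne']
            exact mul_le_mul_of_nonneg_left (Nat.le_ceil _) hε.le
          have a4 : (1 : ℝ) ≤ ε * (⌈ε⁻¹⌉₊ : ℕ) := by exact_mod_cast a3
          rw [div_le_iff₀ (by exact_mod_cast hκ), mul_right_comm]
          exact le_mul_of_one_le_left (Nat.cast_nonneg _) a4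
        obtain ⟨a5, a6⟩ := abs_le.1 (hc.trans a2)
        have a7 : (1 - ε) * numBoundedTables rs cs b ≤ Est (inst (parse w), u) := by
          rw [← Rat.cast_le (K := ℝ)]; push_cast; linarith
        have a8 : Est (inst (parse w), u) ≤ (1 + ε) * numBoundedTables rs cs b := by
          rw [← Rat.cast_le (K := ℝ)]; push_cast; linarith
        simp [a7, a8] at hu)
    have hδ' := half_pow_le hδ
    rw [← ht] at hδ'
    refine le_trans ?_ (uniformProb_eq_Pr N fun u => ∃ z : ℚ, ratCode (medQ (draws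
      (fun v => Est (inst (parse w), v)) (p.eval (sz (inst (parse w)))) (reps (parse w)) u)) =
        ratCode z ∧ (1 - ε) * numBoundedTables rs cs b ≤ z ∧
          z ≤ (1 + ε) * numBoundedTables rs cs b).ge
    refine le_trans ((sub_le_sub_left (hb.trans hδ') 1).trans_eq (Pr_not _ _).symm)
      (Pr_mono fun u _ hu => ⟨_, rfl, medQ_between ?_⟩)
    rw [length_draws]
    exact not_le.1 hu

end Crest.Agent.S0479
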