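import Crest.Statements.S0480
import Crest.Agent.R309.Reject

set_option autoImplicit false
open Crest.Enc Crest.FinProb Crest.Randomized Crest.Tables
open Crest Crest.LogicCS

namespace Crest.Agent.S0480

/-- An almost-uniform sampler for contingency tables in randomized polynomial time: one algorithm and one polynomial r such that, on the code of margins with equal totals followed by a unary block of length k ≥ 1, run with r(input length) fair random bits, every tape yields the code of a table with those margins, and half the sum over matrices of the absolute difference between the probability of being output and the uniform weight on such tables is at most 2^(−k). -/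
theorem result :
    ∃ (A : List Bool × List Bool → List Bool) (r : Polynomial ℕ), RandPolyTime A ∧
      ∀ (m n : ℕ) (rs : Fin m → ℕ) (cs : Fin n → ℕ) (k : ℕ), 1 ≤ k → ∑ i, rs i = ∑ j, cs j →
        (∀ ω : Fin (r.eval (marginsCode rs cs ++ List.replicate k true).length) → Bool,
          ∃ X : Fin m → Fin n → ℕ, IsTable rs cs X ∧
            A (marginsCode rs cs ++ List.replicate k true, List.ofFn ω) = matrixCode X) ∧
        (∑ X : (i : Fin m) → (j : Fin n) → Fin (∑ i, rs i + 1),
            |uniformProb {ω : Fin (r.eval (marginsCode rs cs ++ List.replicate k true).length) → Bool |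
                A (marginsCode rs cs ++ List.replicate k true, List.ofFn ω) =
                  matrixCode (fun i j => (X i j : ℕ))} -
              uniformTableWeight rs cs (fun i j => (X i j : ℕ))|) / 2
          ≤ (2 : ℝ)⁻¹ ^ k := by
  classical
  obtain ⟨S, L, hS, hL, h⟩ := R309.exists_sampler
  obtain ⟨q, hq⟩ := hL.comp R309.poly_pMargins
  have hp := R309.poly_pMargins
  refine ⟨fun a => natCode (R309.pMargins a.1).1.1.length ++ natCode (R309.pMargins a.1).1.2.length ++
      ((S (R309.pMargins a.1, a.2)).map natCode).flatten, q.comp (4 * Polynomial.X + 1),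
    Lib.PolyTime.Poly.randPolyTime (by fun_prop), fun m n rs cs k _ hs => ?_⟩
  obtain ⟨h1, h2⟩ := h (List.ofFn rs) (List.ofFn cs) ⟨k⟩ (by rw [List.sum_ofFn, List.sum_ofFn, hs])
  have hlen : ∀ u, (S (((List.ofFn rs, List.ofFn cs), ⟨k⟩), u)).length = m * n := fun u => by
    simpa using (R309.Tabs_bound (h1 u)).1
  simp only [R309.pMargins_code, List.length_ofFn, R309.code_eq_iff (hlen _)]
  refine ⟨fun ω => ?_, ?_⟩
  · obtain ⟨X, hX⟩ := R309.exists_flat (hlen (List.ofFn ω))
    exact ⟨X, (R309.flat_mem_Tabs rs cs X).1 (hX ▸ h1 _), hX.symm⟩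
  have h3 := h2 ((q.comp (4 * Polynomial.X + 1)).eval
    (marginsCode rs cs ++ List.replicate k true).length) (by
      have := hq (marginsCode rs cs ++ List.replicate k true)
      simp only [R309.pMargins_code] at this
      exact this.trans ((Lib.PolyTime.eval_mono q (Lib.PolyTime.sz_listBool_le _)).trans
        (by simp)))
  generalize (q.comp (4 * Polynomial.X + 1)).eval
    (marginsCode rs cs ++ List.replicate k true).length = N at h3 ⊢
  set T := R309.Tabs (List.ofFn rs) (List.ofFn cs) with hT
  set G : List ℕ → ℝ := fun x => |R309.Pr N (fun u => S (((List.ofFn rs, List.ofFn cs), ⟨k⟩), u) = x) -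
    if x ∈ T then 1 / (T.card : ℝ) else 0| with hG
  have e : ∀ X : Fin m → Fin n → ℕ, |uniformProb {ω : Fin N → Bool |
      S (((List.ofFn rs, List.ofFn cs), ⟨k⟩), List.ofFn ω) = R309.flat X} -
        uniformTableWeight rs cs X| = G (R309.flat X) := by
    intro X
    rw [R309.uniformProb_eq_Pr N fun u => S (((List.ofFn rs, List.ofFn cs), ⟨k⟩), u) = R309.flat X]
    simp only [hG, hT, uniformTableWeight, R309.flat_mem_Tabs, R309.card_Tabs]
  simp only [e]
  rw [← Finset.sum_image (s := Finset.univ)
    (g := fun X : (i : Fin m) → (j : Fin n) → Fin (∑ i, rs i + 1) => R309.flat fun i j => (X i j : ℕ))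
    (f := G) fun X _ Y _ hXY => funext fun i => funext fun j =>
      Fin.ext (congrFun (congrFun (R309.flat_inj hXY) i) j)]
  have h4 : ∀ s : Finset (List ℕ), ∑ x ∈ s, G x ≤ ∑ x ∈ T, G x := by
    intro s
    rw [← Finset.sum_filter_of_ne (p := (· ∈ T)) fun x _ hx => by
      by_contra hx'
      refine hx ?_
      simp only [hG, if_neg hx', sub_zero, abs_eq_zero, R309.Pr]
      rw [← R309.Ex_const N 0]
      exact R309.Ex_congr fun u _ => R309.ind_false fun e => hx' (e ▸ h1 u)]
    exact Finset.sum_le_sum_of_subset_of_nonneg (fun x hx => (Finset.mem_filter.1 hx).2)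
      fun _ _ _ => abs_nonneg _
  have h5 : ∑ x ∈ T, G x ≤ 2⁻¹ ^ k :=
    (Finset.sum_congr rfl fun x hx => by simp only [hG, if_pos hx]).trans_le h3
  have h6 : (0 : ℝ) < 2⁻¹ ^ k := by positivity
  linarith [h4 (Finset.univ.image fun X : (i : Fin m) → (j : Fin n) → Fin (∑ i, rs i + 1) =>
    R309.flat fun i j => (X i j : ℕ))]

end Crest.Agent.S0480
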