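import Crest.Statements.S0481
import Crest.Agent.R309.Exact
import Crest.Agent.R309.RamC
import Crest.Agent.R309.RamProb

set_option autoImplicit false
open Crest.Tables
open Crest Crest.LogicCS

namespace Crest.Agent.S0481

open Crest.Agent.R309 Crest.Agent.Lib.PolyTime

theorem Pr_ne_none {n : ℕ} {f : List Bool → Option (List ℕ)} {T : Finset (List ℕ)} {c : ℝ}
    (h : ∀ u y, f u = some y → y ∈ T) (hc : ∀ y ∈ T, Pr n (fun u => f u = some y) = c) :
    Pr n (fun u => f u ≠ none) = T.card * c := by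
  rw [← nsmul_eq_mul, ← Finset.sum_const, ← Finset.sum_congr rfl hc]
  simp only [Pr, ← Ex_sum]
  refine Ex_congr fun u _ => ?_
  cases hu : f u with
  | none => simp [ind]
  | some y =>
    rw [Finset.sum_eq_single_of_mem y (h u y hu) fun z _ hz => ind_false (by simpa using hz.symm)]
    simp [ind]

theorem entries_lt {m n : ℕ} (rs : Fin m → ℕ) (cs : Fin n → ℕ) (h : ∑ i, rs i = ∑ j, cs j) :
    (∑ i, rs i < 2 ^ (m + n + Nat.clog 2 (∑ i, rs i + 2) + 1)) ∧
      ∀ a ∈ m :: n :: (List.ofFn rs ++ List.ofFn cs),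
        a < 2 ^ (m + n + Nat.clog 2 (∑ i, rs i + 2) + 1) := by
  have h1 : ∑ i, rs i < 2 ^ (m + n + Nat.clog 2 (∑ i, rs i + 2) + 1) :=
    lt_of_lt_of_le (by omega) ((Nat.le_pow_clog one_lt_two (∑ i, rs i + 2)).trans
      (Nat.pow_le_pow_right two_pos (by omega)))
  have h2 := (m + n + Nat.clog 2 (∑ i, rs i + 2) + 1).lt_two_pow_self
  refine ⟨h1, fun a ha => ?_⟩
  simp only [List.mem_cons, List.mem_append, List.mem_ofFn] at ha
  rcases ha with rfl | rfl | ⟨i, rfl⟩ | ⟨j, rfl⟩
  · omega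
  · omega
  · exact (Finset.single_le_sum (fun _ _ => Nat.zero_le _) (Finset.mem_univ i)).trans_lt h1
  · exact (Finset.single_le_sum (fun _ _ => Nat.zero_le _) (Finset.mem_univ j)).trans_lt (h ▸ h1)

/-- An exact uniform sampler for contingency tables in polynomial expected time on the unit-cost word RAM: one randomized program and constants c₀, c₁, C, d such that for all margins r, c of equal total N, writing S = m+n+⌈log₂(N+2)⌉+1, given the words m, n, r, c with word length c₀·S^c₁ the expected number of instructions is at most C·S^d, every halting run outputs (row by row) a table with these margins, and each such table is output with probability exactly one over the number of tables. -/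
theorem result :
    ∃ (P : Crest.WordRAM.Program) (c₀ c₁ C d : ℕ),
      ∀ (m n : ℕ) (rs : Fin m → ℕ) (cs : Fin n → ℕ), ∑ i, rs i = ∑ j, cs j →
        Crest.WordRAM.expectedTime P (c₀ * (m + n + Nat.clog 2 (∑ i, rs i + 2) + 1) ^ c₁)
            (m :: n :: (List.ofFn rs ++ List.ofFn cs))
          ≤ ((C * (m + n + Nat.clog 2 (∑ i, rs i + 2) + 1) ^ d : ℕ) : ENNReal) ∧
        (∀ (ρ : ℕ → ℕ) (T : ℕ) (out : List ℕ),
          Crest.WordRAM.HaltsWithin P (c₀ * (m + n + Nat.clog 2 (∑ i, rs i + 2) + 1) ^ c₁) ρ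
            (m :: n :: (List.ofFn rs ++ List.ofFn cs)) T out →
          ∃ X : Fin m → Fin n → ℕ, IsTable rs cs X ∧ out = (List.ofFn fun i => List.ofFn (X i)).flatten) ∧
        ∀ X : Fin m → Fin n → ℕ, IsTable rs cs X →
          Crest.WordRAM.probHaltsWith P (c₀ * (m + n + Nat.clog 2 (∑ i, rs i + 2) + 1) ^ c₁)
              (m :: n :: (List.ofFn rs ++ List.ofFn cs))
              (fun out => out = (List.ofFn fun i => List.ofFn (X i)).flatten)
            = 1 / (numBoundedTables rs cs (fun _ _ => ∑ i, rs i) : ℝ) := by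
  obtain ⟨r, f, T, C, d, hr, hf, h⟩ := exists_exact_round
  obtain ⟨P, C', d', hP⟩ := exists_roundSpec hr hf
  obtain ⟨c₀, c₁, hc⟩ := ExactAux.eval_le_pow (Polynomial.C C' +
    13 * Polynomial.X ^ 2 * Polynomial.C d' + Polynomial.C C * (13 * Polynomial.X ^ 2) ^ d + 1 +
      2 * Polynomial.X)
  obtain ⟨C₂, d₂, hC₂⟩ := ExactAux.eval_le_pow (Polynomial.C C' * (13 * Polynomial.X ^ 2) ^ d' +
    256 * (Polynomial.C C' * ((13 * Polynomial.X ^ 2) ^ d' +
      Polynomial.C C * (13 * Polynomial.X ^ 2) ^ d)))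
  refine ⟨P, c₀, c₁, C₂, d₂, fun m n rs cs hs => ?_⟩
  obtain ⟨hN, hent⟩ := entries_lt rs cs hs
  have hS : m + n + 1 ≤ m + n + Nat.clog 2 (∑ i, rs i + 2) + 1 := by omega
  generalize m + n + Nat.clog 2 (∑ i, rs i + 2) + 1 = S at hN hent hS ⊢
  have hs' : (List.ofFn rs).sum = (List.ofFn cs).sum := by rw [List.sum_ofFn, List.sum_ofFn, hs]
  obtain ⟨h1, ⟨c, h2, h3⟩, h4, h5⟩ := h (List.ofFn rs) (List.ofFn cs) hs'
    (m :: n :: (List.ofFn rs ++ List.ofFn cs)) (by simp)
  have hlen : (m :: n :: (List.ofFn rs ++ List.ofFn cs)).length ≤ 2 * S := by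
    simp only [List.length_cons, List.length_append, List.length_ofFn]
    omega
  generalize m :: n :: (List.ofFn rs ++ List.ofFn cs) = x at *
  have hsz : sz x ≤ 13 * S ^ 2 := by
    have := sz_list_le fun a ha => sz_le_of_lt_two_pow (hent a ha)
    have := Nat.mul_le_mul_right (4 * S + 1 + 1) hlen
    nlinarith
  have hw := hc S (by omega)
  have ht := hC₂ S (by omega)
  simp only [Polynomial.eval_add, Polynomial.eval_mul, Polynomial.eval_pow, Polynomial.eval_X,
    Polynomial.eval_C, Polynomial.eval_ofNat, Polynomial.eval_one] at hw ht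
  generalize c₀ * S ^ c₁ = w at hw ⊢
  have hS2 : 2 ^ S ≤ 2 ^ w := Nat.pow_le_pow_right two_pos (by omega)
  have e1 : sz x ^ d ≤ (13 * S ^ 2) ^ d := Nat.pow_le_pow_left hsz _
  have e2 : sz x ^ d' ≤ (13 * S ^ 2) ^ d' := Nat.pow_le_pow_left hsz _
  have e3 := Nat.mul_le_mul_left C e1
  obtain ⟨Start, hR⟩ := hP x w
    ⟨(hlen.trans_lt Nat.lt_two_pow_self).trans_le (Nat.pow_le_pow_right two_pos (by omega)),
      fun a ha => (hent a ha).trans_le hS2⟩
    (fun u hu => by
      have a1 : (13 * S ^ 2) ^ d' ≤ 2 ^ (13 * S ^ 2 * d' + C * (13 * S ^ 2) ^ d) := by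
        refine (Nat.pow_le_pow_left Nat.lt_two_pow_self.le _).trans ?_
        rw [← pow_mul]
        exact Nat.pow_le_pow_right two_pos (by omega)
      have a2 : T (x, u) ≤ 2 ^ (13 * S ^ 2 * d' + C * (13 * S ^ 2) ^ d) :=
        (h5 u hu).trans (Nat.pow_le_pow_right two_pos (by omega))
      calc _ < 2 ^ C' * 2 ^ (13 * S ^ 2 * d' + C * (13 * S ^ 2) ^ d + 1) :=
            Nat.mul_lt_mul_of_lt_of_le Nat.lt_two_pow_self (by rw [pow_succ 2]; omega)
              (by positivity)
        _ ≤ _ := by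
          rw [← pow_add]
          exact Nat.pow_le_pow_right two_pos (by omega))
    fun u out _ ho a ha => by
      have := (Tabs_bound (h1 u out ho)).2 a ha
      rw [List.sum_ofFn] at this
      omega
  have hcard : (0 : ℝ) < (Tabs (List.ofFn rs) (List.ofFn cs)).card := by
    exact_mod_cast (Tabs_nonempty hs').card_pos
  have hsuc := Pr_ne_none h1 h3
  have hlo : 1 / 256 ≤ Pr (r x).n fun u => f (x, u) ≠ none := by
    rw [hsuc]
    rw [div_le_iff₀ (by positivity)] at h2
    linarith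
  have hpos : 0 < Pr (r x).n fun u => f (x, u) ≠ none := lt_of_lt_of_le (by norm_num) hlo
  refine ⟨(hR.time (by omega) hpos).trans ?_, fun ρ T out ho => ?_, fun X hX => ?_⟩
  · rw [← ENNReal.ofReal_natCast]
    refine ENNReal.ofReal_le_ofReal (le_trans ?_ (Nat.cast_le.2 ht))
    rw [Nat.cast_add]
    refine add_le_add (Nat.cast_le.2 (Nat.mul_le_mul_left _ e2)) ?_
    have a1 : Ex (r x).n (fun u => ((C' * (sz x ^ d' + T (x, u)) : ℕ) : ℝ)) ≤
        (C' * ((13 * S ^ 2) ^ d' + C * (13 * S ^ 2) ^ d) : ℕ) := by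
      simp only [Nat.cast_mul C', Nat.cast_add]
      rw [Ex_mul_left, Ex_add, Ex_const]
      exact mul_le_mul_of_nonneg_left (add_le_add (Nat.cast_le.2 e2) (h4.trans (Nat.cast_le.2 e3)))
        (Nat.cast_nonneg _)
    rw [div_le_iff₀ hpos, Nat.cast_mul 256]
    refine a1.trans ?_
    have := mul_le_mul_of_nonneg_left hlo
      (Nat.cast_nonneg (α := ℝ) (C' * ((13 * S ^ 2) ^ d' + C * (13 * S ^ 2) ^ d)))
    push_cast at this ⊢
    linarith
  · obtain ⟨u, -, hu⟩ := hR.halts ho
    have hm := h1 u out hu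
    obtain ⟨X, rfl⟩ := exists_flat (m := m) (n := n) (x := out) (by simpa using (Tabs_bound hm).1)
    exact ⟨X, (flat_mem_Tabs rs cs X).1 hm, rfl⟩
  · have hc0 : 0 < c := lt_of_lt_of_le (by positivity) h2
    rw [hR.prob (by omega) hpos, hsuc, ← card_Tabs]
    rw [show (List.ofFn fun i => List.ofFn (X i)).flatten = flat X from rfl,
      h3 _ ((flat_mem_Tabs rs cs X).2 hX)]
    field_simp

end Crest.Agent.S0481
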