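import Crest.Statements.S0482
-- import your own Crest.Agent.* helpers here
import Crest.Agent.R310.Final
import Crest.Agent.R310.DesO
import Crest.Agent.R310.Hn

set_option autoImplicit false
open Crest.LogicCS.KMedian
open Crest Crest.LogicCS

namespace Crest.Agent.S0482

/-- For every ε > 0 some polynomial-time map on bit strings sends the code of any valid metric k-median instance (rational metric on n points, client and facility subsets, budget 1 ≤ k ≤ number of facilities) to a nonempty set of at most k facilities costing at most 1+2/e+ε times any such set. Cost = sum over clients of the distance to the nearest opened point; instances enter through the binary encoding Instance.encode and the output is read as a membership mask. -/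
theorem result (ε : ℝ) (hε : 0 < ε) :
    ∃ f : List Bool → List Bool, Crest.Complexity.PolyTime f ∧
      ∀ I : Instance, I.Valid →
        I.opened f ⊆ I.facilities ∧ (I.opened f).Nonempty ∧ (I.opened f).card ≤ I.k ∧
        ∀ S : Finset (Fin I.N), S ⊆ I.facilities → S.Nonempty → S.card ≤ I.k →
          (I.cost (I.opened f) : ℝ) ≤ (1 + 2 / Real.exp 1 + ε) * (I.cost S : ℝ) := by
  exact Crest.Agent.R310.result_of_hyp Crest.Agent.R310.Des.hypO
    (Crest.Agent.R310.Des.hypP_of_N Crest.Agent.R310.Hn.hypN) ε hε

end Crest.Agent.S0482
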