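import Crest.Statements.S0484
import Crest.Agent.R312.Final
import Crest.Agent.R312.ZMain
import Crest.Agent.R312.AlgMain

set_option autoImplicit false
open Crest Crest.LogicCS

namespace Crest.Agent.S0484

/-- There is one polynomial-time computable map of bit strings which, given any prime p in binary followed by the dense coefficient list of any nonzero polynomial f over the integers modulo p, returns a list of polynomials over that field, each written by its coefficient list, all monic and irreducible, whose product multiplied by the leading coefficient of f equals f: the complete factorization of f into irreducibles, each factor repeated according to its multiplicity. -/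
theorem result :
    ∃ F : List Bool → List Bool, Crest.Complexity.PolyTime F ∧
      ∀ (p : ℕ) [Fact p.Prime] (f : Polynomial (ZMod p)), f ≠ 0 →
        (∀ g ∈ Crest.PolyFactor.factorOutput p (F (Crest.PolyFactor.encodeInst p f)),
            g.Monic ∧ Irreducible g) ∧
          Polynomial.C f.leadingCoeff *
              (Crest.PolyFactor.factorOutput p (F (Crest.PolyFactor.encodeInst p f))).prod = f :=
  Crest.Agent.R312.alg_main (Crest.Agent.R312.auxPrime_of_mobAll Crest.Agent.R312.mobAll)

end Crest.Agent.S0484
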