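import Crest.Statements.S0486
import Crest.Agent.R314.Reduce
import Crest.Agent.R314.CoreC
import Crest.Agent.R314.TStep
import Crest.Agent.R314.EStep

set_option autoImplicit false
open Crest.LogicCS.KServer
open Crest Crest.LogicCS

namespace Crest.Agent.S0486

/-- There is an absolute constant C such that for every k ≥ 2, every metric space X with at least k + 1 points and every initial placement s of k labelled servers in X, some randomized online policy A and some real B ≥ 0 — with B = 0 when the initial positions are distinct — satisfy, for every finite request list σ and every way of serving σ by moving one server to each request in turn: the expected cost of A on σ is at most C·(log (k+1))²·(the cost of that way of serving σ) + B. -/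
theorem result : ∃ C : ℝ, ∀ (k : ℕ), 2 ≤ k → ∀ (X : Type*) [MetricSpace X], Nonempty (Fin (k + 1) ↪ X) → ∀ s : Fin k → X, ∃ (A : Policy X k) (B : ℝ), 0 ≤ B ∧ (Function.Injective s → B = 0) ∧ ∀ (σ : List X) (j : Fin σ.length → Fin k), expCost A s σ ≤ C * Real.log (k + 1) ^ 2 * pathCost s (σ.zip (List.ofFn j)) + B := by
  exact ⟨_, R314.reduce _ (by unfold R314.tau; positivity)
    (R314.core (by norm_num) (by positivity) R314.tsys_exists R314.esys_exists)⟩

end Crest.Agent.S0486
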