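import Crest.Statements.S0492
import Crest.Agent.R318.Build
import Crest.Agent.R318.Pack
import Crest.Agent.R318.LP

set_option autoImplicit false
open Crest.BinPacking
open Crest Crest.LogicCS

namespace Crest.Agent.S0492

/-- For every natural number c there is a bin-packing instance, given by distinct rational sizes in (1/6, 1] with positive multiplicities, and a natural number B such that the type configuration linear program has optimal value exactly B (some feasible solution costs B, none costs less), the configuration program on sets of item copies also has optimal value exactly B, and the item copies cannot be packed into B + c unit bins. -/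
theorem result (c : ℕ) :
    ∃ (m : ℕ) (σ : Fin m → ℚ) (mult : Fin m → ℕ) (B : ℕ),
      Function.Injective σ ∧ (∀ j, 0 < mult j) ∧ (∀ j, 1 / 6 < σ j ∧ σ j ≤ 1) ∧
      (∃ z, TypeLPFeasible σ mult z ∧ typeLPCost z = B) ∧
      (∀ z, TypeLPFeasible σ mult z → (B : ℝ) ≤ typeLPCost z) ∧
      (∃ y : Finset ((j : Fin m) × Fin (mult j)) → ℝ,
        CopyLPFeasible (fun i => σ i.1) y ∧ copyLPCost y = B) ∧
      (∀ y : Finset ((j : Fin m) × Fin (mult j)) → ℝ,
        CopyLPFeasible (fun i => σ i.1) y → (B : ℝ) ≤ copyLPCost y) ∧
      ¬ PacksInto (fun i : (j : Fin m) × Fin (mult j) => σ i.1) (B + c) := by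
  open Crest.Agent.R318 in
  obtain ⟨hw, hy, hn⟩ := k4_spec
  obtain ⟨h0, -, hg⟩ := Crest.Agent.R318.build_nrm (30 * c + 1) 4 2 Crest.Agent.R318.k4 (5 * c)
  obtain ⟨y, h1, h2⟩ := Crest.Agent.R318.sol_lp (Crest.Agent.R318.build_sol hw hy (30 * c + 1) (5 * c))
  exact Crest.Agent.R318.lp_final (Crest.Agent.R318.sz3_bounds h0.le hg)
    (Crest.Agent.R318.card_big h0.le hg) h1 h2 fun h =>
      Crest.Agent.R318.build_sound hw hn _ _ (Crest.Agent.R318.pack_rel h0.le hg h)

end Crest.Agent.S0492
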