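import Crest.Statements.S0493
import Crest.Agent.R318.Build
import Crest.Agent.R318.Pack
import Crest.Agent.R318.Cook
import Crest.Agent.R318.PolyB

set_option autoImplicit false
open Crest.Enc Crest.BinPacking
open Crest Crest.LogicCS

namespace Crest.Agent.S0493

/-- For every natural number c, every language in NP reduces in polynomial time to the following gap problem: the reduction sends each bit string to the code of a list of rational item sizes, all in (1/6, 1], followed by the code of a natural number B, such that members are sent to instances whose items pack into B unit bins and non-members to instances whose items do not pack into B + c unit bins. -/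
theorem result (c : ℕ) (A : Set (List Bool))
    (hA : Crest.Complexity.InNP A) :
    ∃ f : List Bool → List Bool, Crest.Complexity.PolyTime f ∧
      ∀ x : List Bool, ∃ (sizes : List ℚ) (B : ℕ),
        f x = natCode sizes.length ++ (sizes.map ratCode).flatten ++ natCode B ∧
        (∀ a ∈ sizes, 1 / 6 < a ∧ a ≤ 1) ∧
        (x ∈ A → PacksInto (fun i : Fin sizes.length => sizes.get i) B) ∧
        (x ∉ A → ¬ PacksInto (fun i : Fin sizes.length => sizes.get i) (B + c)) := by
  open Crest.Agent.R318 Crest.Agent.Lib.PolyTime in
  obtain ⟨N, s, S, hN, hN', hs, hS, h⟩ := cook hA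
  have hb := Crest.Agent.R318.poly_build (30 * c + 1) hN hN' hs hS
    (Crest.Agent.Lib.PolyTime.Poly.const (5 * c)) (Crest.Agent.Lib.PolyTime.PB.const (5 * c))
  refine ⟨_, (Crest.Agent.R318.poly_code hb.fst).polyTime, fun x => ⟨_, _, rfl, ?_⟩⟩
  obtain ⟨hw, hy, hn⟩ := h x
  obtain ⟨h0, -, hg⟩ := Crest.Agent.R318.build_nrm (30 * c + 1) (N x) (s x) (S x) (5 * c)
  obtain ⟨e, he⟩ := Crest.Agent.R318.sizes_equiv
    (Crest.Agent.R318.build (30 * c + 1) (N x) (s x) (S x) (5 * c)).1
  refine ⟨Crest.Agent.R318.sizes_bounds h0.le hg, fun hx => ?_, fun hx hp => ?_⟩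
  · rw [Crest.Agent.R318.packs_equiv e he]
    simpa using Crest.Agent.R318.sol_pack (Crest.Agent.R318.build_sol hw (hy hx) _ _)
  · rw [Crest.Agent.R318.packs_equiv e he] at hp
    exact Crest.Agent.R318.build_sound hw (hn hx) _ _
      (Crest.Agent.R318.pack_rel h0.le hg (by simpa using hp))

end Crest.Agent.S0493
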