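import Crest.Statements.S0501
import Crest.Agent.R324.Rec
import Crest.Agent.R324.CRT

set_option autoImplicit false
open Crest Crest.LogicCS

namespace Crest.Agent.S0501

open Crest.Agent.R324 Crest.FourierCircuit in
lemma le_of_two_pow_le {k c : ℕ} {w : ℝ} (hw : 1 ≤ w) (h : (2 : ℝ) ^ k ≤ 2 ^ c * w) :
    (k : ℝ) ≤ c + 2 * Real.log w := by
  have h1 := Real.log_le_log (by positivity) h
  rw [Real.log_mul (by positivity) (by positivity), Real.log_pow, Real.log_pow] at h1
  have h2 := Real.log_two_gt_d9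
  have h3 := Real.log_nonneg hw
  nlinarith

open Crest.Agent.R324 Crest.FourierCircuit in
/-- For some constant C and threshold N₀ and every n ≥ N₀, some exact complex linear circuit (each gate adds or subtracts two available values or multiplies one by an arbitrary fixed complex scalar; the inputs and the constant 0 are available at the start; every gate counts one) computes the unnormalized discrete Fourier transform of order n on every complex input vector with at most C · n · (log n)^θ · (log log n)^(4 − θ) gates, where θ = log_m (m − Δ/2^71), m = 10^6, Δ = 6871402692000000. -/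
theorem result :
    ∃ C : ℝ, ∃ N₀ : ℕ, ∀ n ≥ N₀, ∃ P : Crest.FourierCircuit.LinCircuit n,
      P.Computes (Crest.FourierCircuit.dftMatrix n) ∧
        (P.size : ℝ) ≤ C * n * Real.log n ^ Crest.FourierCircuit.savingExponent *
          Real.log (Real.log n) ^ (4 - Crest.FourierCircuit.savingExponent) := by
  obtain ⟨K, hK, hHC⟩ := HC.bound
  refine ⟨6 + 8 * (800000 * 81 + 1 + 800000 * 81 * (K * 5)), ⌈Real.exp (Real.exp 1)⌉₊,
    fun n hn => ?_⟩
  have hθ0 := theta_nonneg
  have hθ1 := theta_le_one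
  have hn1 : Real.exp (Real.exp 1) ≤ n := (Nat.le_ceil _).trans (by exact_mod_cast hn)
  have hx : Real.exp 1 ≤ Real.log n := (Real.le_log_iff_exp_le ((Real.exp_pos _).trans_le hn1)).2 hn1
  have hy : 1 ≤ Real.log (Real.log n) :=
    (Real.le_log_iff_exp_le ((Real.exp_pos _).trans_le hx)).2 hx
  have hx1 : 1 ≤ Real.log n := (Real.one_le_exp zero_le_one).trans hx
  have hnR : (1 : ℝ) ≤ n := (Real.one_le_exp (Real.exp_pos _).le).trans hn1
  have hnN : 1 ≤ n := by exact_mod_cast hnR
  obtain ⟨N, k, h1, h2, h3, h4⟩ := exists_modulus (2 * n) (by omega)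
  obtain ⟨ℓ, hl1, hl2⟩ := exists_pow_two_between (4 * (Nat.log 2 (2 * n) + 5)) (by omega)
  have hc : ∀ j ≤ k, HC j (K * ((k : ℝ) + 1) ^ savingExponent) := fun j hj =>
    (hHC j).mono (mul_le_mul_of_nonneg_left (Real.rpow_le_rpow (by positivity)
      (by exact_mod_cast Nat.succ_le_succ hj) hθ0) hK)
  have hcost := chirp_cost (n := n) h1 (by omega)
    (η := Complex.exp (Real.pi * Complex.I / n)) (Complex.exp_ne_zero _)
    (fun ω hω => (h4 ℓ hl1 ω hω).cost hc)
  have hmat : dft (Complex.exp (Real.pi * Complex.I / n) ^ 2) n = dftMatrix n := by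
    ext j l
    simp only [dft, dftMatrix, Matrix.of_apply]
    rw [← Complex.exp_nat_mul]
    congr 2
    push_cast
    ring
  rw [hmat] at hcost
  obtain ⟨P, hP, hs⟩ := hcost.toCircuit
  refine ⟨P, hP, hs.trans ?_⟩
  have hk : (k : ℝ) + 1 ≤ 5 * Real.log n := by
    have := le_of_two_pow_le (k := k) (c := 2) hnR (by
      have : ((2 ^ k : ℕ) : ℝ) ≤ ((2 * (2 * n) : ℕ) : ℝ) := by exact_mod_cast h3
      push_cast at this
      linarith)
    push_cast at this
    linarith
  have hm : (Nat.log 2 (2 * n) : ℝ) ≤ 1 + 2 * Real.log n := by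
    have := le_of_two_pow_le (k := Nat.log 2 (2 * n)) (c := 1) hnR (by
      have : ((2 ^ Nat.log 2 (2 * n) : ℕ) : ℝ) ≤ ((2 * n : ℕ) : ℝ) := by
        exact_mod_cast Nat.pow_log_le_self 2 (by omega)
      push_cast at this
      linarith)
    push_cast at this
    linarith
  have hl : (ℓ : ℝ) + 1 ≤ 9 * Real.log (Real.log n) := by
    have := le_of_two_pow_le (k := ℓ) (c := 6) hx1 (by
      have : ((2 ^ ℓ : ℕ) : ℝ) ≤ ((2 * (4 * (Nat.log 2 (2 * n) + 5)) : ℕ) : ℝ) := by
        exact_mod_cast hl2.le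
      push_cast at this
      linarith)
    push_cast at this
    linarith
  have hN : (N : ℝ) ≤ 4 * n := by
    have : (N : ℝ) ≤ ((2 * (2 * n) : ℕ) : ℝ) := by exact_mod_cast h2
    push_cast at this
    linarith
  have hX1 : 1 ≤ Real.log n ^ savingExponent := Real.one_le_rpow hx1 hθ0
  have hXk : ((k : ℝ) + 1) ^ savingExponent ≤ 5 * Real.log n ^ savingExponent := by
    refine (Real.rpow_le_rpow (by positivity) hk hθ0).trans ?_
    rw [Real.mul_rpow (by norm_num) (by linarith)]
    refine mul_le_mul_of_nonneg_right ?_ (by linarith)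
    calc (5 : ℝ) ^ savingExponent ≤ 5 ^ (1 : ℝ) :=
          Real.rpow_le_rpow_of_exponent_le (by norm_num) hθ1
      _ = 5 := Real.rpow_one _
  have hY2 : Real.log (Real.log n) ^ 2 ≤ Real.log (Real.log n) ^ (4 - savingExponent) := by
    rw [← Real.rpow_natCast]
    exact Real.rpow_le_rpow_of_exponent_le hy (by push_cast; linarith)
  have hY1 : 1 ≤ Real.log (Real.log n) ^ (4 - savingExponent) :=
    Real.one_le_rpow hy (by linarith)
  have hL : ((800000 * (ℓ + 1) ^ 2 : ℕ) : ℝ) ≤
      800000 * 81 * Real.log (Real.log n) ^ (4 - savingExponent) := by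
    push_cast
    have : ((ℓ : ℝ) + 1) ^ 2 ≤ (9 * Real.log (Real.log n)) ^ 2 :=
      pow_le_pow_left₀ (by positivity) hl 2
    nlinarith
  have hL0 : (0 : ℝ) ≤ ((800000 * (ℓ + 1) ^ 2 : ℕ) : ℝ) := Nat.cast_nonneg _
  have hk0 : (0 : ℝ) ≤ ((k : ℝ) + 1) ^ savingExponent := by positivity
  rw [Fintype.card_fin]
  generalize ((800000 * (ℓ + 1) ^ 2 : ℕ) : ℝ) = L at *
  generalize ((k : ℝ) + 1) ^ savingExponent = Z at *
  generalize Real.log n ^ savingExponent = X at *
  generalize Real.log (Real.log n) ^ (4 - savingExponent) = Y at *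
  have hXY : 1 ≤ X * Y := one_le_mul_of_one_le_of_one_le hX1 hY1
  have e1 : L ≤ 800000 * 81 * (X * Y) := by nlinarith
  have e2 : L * (K * Z) ≤ 800000 * 81 * (K * 5) * (X * Y) := by
    calc L * (K * Z) ≤ (800000 * 81 * Y) * (K * (5 * X)) :=
          mul_le_mul hL (mul_le_mul_of_nonneg_left hXk hK) (by positivity) (by positivity)
      _ = _ := by ring
  have e3 : L + 1 + L * (K * Z) ≤ (800000 * 81 + 1 + 800000 * 81 * (K * 5)) * (X * Y) := by
    nlinarith
  have e4 : (L + 1 + L * (K * Z)) * N ≤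
      ((800000 * 81 + 1 + 800000 * 81 * (K * 5)) * (X * Y)) * (4 * n) :=
    mul_le_mul e3 hN (Nat.cast_nonneg _) (by positivity)
  have e5 : (n : ℝ) ≤ n * (X * Y) := le_mul_of_one_le_right (by positivity) hXY
  nlinarith

end Crest.Agent.S0501
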