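import Crest.Statements.S0503
import Crest.Agent.R326.Final
import Crest.Agent.R326.Perm
import Crest.Agent.R326.Swap
import Crest.Agent.R326.Xor
import Crest.Agent.R326.Wht
import Crest.Agent.R326.FxMath
import Crest.Agent.R326.FxTape
import Crest.Agent.R326.Crt
import Crest.Agent.R326.Par
import Crest.Agent.R326.Dft
import Crest.Agent.R326.Net
import Crest.Agent.R326.WProg
import Crest.Agent.R326.SProg
import Crest.Agent.R326.Sieve

set_option autoImplicit false
open Crest.LogicCS.IntMul Crest.DTime
open Crest Crest.LogicCS

namespace Crest.Agent.S0503

open Crest.Agent.R326 in
/-- There are a natural number c and one machine with finitely many stacks which, started on any two bit strings of a common length n (presented as one tagged string of length N = 2n), halts with the 2n-bit binary representation of the product of the two numbers they denote (leftmost bit most significant) after at most c·⌈N·(log₂ N)^(1 − 2^(−182))⌉ + c steps. So one machine multiplies n-bit integers exactly in time of order n·(log n)^(1 − κ), κ = 2^(−182). -/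
theorem result : ∃ c : ℕ, TimeBoundComputable EqLenPair.enc (Computability.encodingList Bool).encode mulOutput (fun N => c * ⌈(N : ℝ) * (Real.logb 2 N) ^ (1 - 1 / (2 : ℝ) ^ 182)⌉₊ + c) := by
  have hS : SwapSpec := swapSpec_of permSpec (sProg_of_net netSpec_swap)
  have hW : WhtSpec := whtSpec_of permSpec (xorSpec_of permSpec hS) (wProg_of_net netSpec_wht)
  exact final (convSpec_of (fxTapeSpec_of mulSpec hW) fxMathSpec (crtSpec_of permSpec hS)
    (tabSpec_of dftSpec)) sieveSpec parSpec

end Crest.Agent.S0503
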