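import Crest.Statements.S0505
import Crest.Agent.R327.Upper

set_option autoImplicit false
universe u
open Crest Crest.LogicCS

namespace Crest.Agent.S0505

/-- For every field K and every n ≥ 2 there is a syntactically homogeneous depth-five sum-product circuit over K in the n³ matrix-entry variables (shared gates, unrestricted fan-in and bottom support) whose output is the top-left entry of the ordered product of the n variable matrices of order n and whose number of vertices, leaves included, is at most 2n³ + r·n² + r·n^(t+1) + n^(r−1) + 1 with t = ⌈√n⌉, r = ⌈n/t⌉, and also at most n^(√n + 4). Layers are indexed by initial segments of ℕ. -/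
theorem result (K : Type u) [Field K] (n : ℕ)
    (hn : 2 ≤ n) :
    ∃ (l b p s r : ℕ)
      (C : Crest.ArithCircuit.SPSPS K (Fin n × Fin n × Fin n) (Fin l) (Fin b) (Fin p) (Fin s) (Fin r)),
      C.IsHomogeneous ∧ C.output = Crest.ArithCircuit.imm K n ∧
        C.size ≤ 2 * n ^ 3 + ⌈(n : ℝ) / ⌈Real.sqrt n⌉₊⌉₊ * n ^ 2 +
          ⌈(n : ℝ) / ⌈Real.sqrt n⌉₊⌉₊ * n ^ (⌈Real.sqrt n⌉₊ + 1) +
          n ^ (⌈(n : ℝ) / ⌈Real.sqrt n⌉₊⌉₊ - 1) + 1 ∧
        (C.size : ℝ) ≤ (n : ℝ) ^ (Real.sqrt n + 4) := by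
  set t := ⌈Real.sqrt n⌉₊ with ht
  set ρ := ⌈(n : ℝ) / t⌉₊ with hρ
  have hn0 : (0 : ℝ) < n := by exact_mod_cast (by omega : 0 < n)
  have hn2 : (2 : ℝ) ≤ n := by exact_mod_cast hn
  have hs : Real.sqrt n ^ 2 = n := Real.sq_sqrt hn0.le
  have hs1 : 1 < Real.sqrt n := Real.lt_sqrt_of_sq_lt (by linarith)
  have ht1 : Real.sqrt n ≤ t := Nat.le_ceil _
  have ht2 : (t : ℝ) < Real.sqrt n + 1 := Nat.ceil_lt_add_one (by positivity)
  have ht3 : 2 ≤ t := by
    have : (1 : ℝ) < t := by linarith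
    exact_mod_cast this
  have ht0 : (0 : ℝ) < t := by linarith
  have htn : t ≤ n := by
    rw [ht, Nat.ceil_le]
    nlinarith
  have hρ0 : 0 < ρ := Nat.ceil_pos.2 (by positivity)
  have h1 : n ≤ ρ * t := by
    have : (n : ℝ) / t ≤ ρ := Nat.le_ceil _
    rw [div_le_iff₀ ht0] at this
    exact_mod_cast this
  have h2 : ∀ c < ρ, c * t < n := by
    intro c hc
    have := Nat.lt_ceil.1 hc
    rw [lt_div_iff₀ ht0] at this
    exact_mod_cast this
  have hρt : ρ ≤ t := by
    rw [hρ, Nat.ceil_le, div_le_iff₀ ht0]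
    nlinarith
  obtain ⟨l, b, p, s, r, C, hC, hout, hsize⟩ :=
    Crest.Agent.R327.construct K n t ρ (by omega) (by omega) hρ0 h1 h2
  refine ⟨l, b, p, s, r, C, hC, hout, hsize, ?_⟩
  have key : C.size ≤ n ^ (t + 3) := by
    refine hsize.trans ?_
    rcases Nat.eq_or_lt_of_le hn with h | h
    · have e1 : t = 2 := by omega
      have e2 : ρ = 1 := by
        by_contra h3
        have := h2 1 (by omega)
        omega
      rw [e1, e2, ← h]
      norm_num
    · have a1 : n ^ 3 ≤ n ^ (t + 1) := Nat.pow_le_pow_right (by omega) (by omega)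
      have a2 : ρ * n ^ 2 ≤ n ^ (t + 1) := by
        refine le_trans ?_ a1
        calc ρ * n ^ 2 ≤ n * n ^ 2 := Nat.mul_le_mul_right _ (by omega)
          _ = n ^ 3 := by ring
      have a3 : ρ * n ^ (t + 1) ≤ n * n ^ (t + 1) := Nat.mul_le_mul_right _ (by omega)
      have a4 : n ^ (ρ - 1) < n ^ (t + 1) := Nat.pow_lt_pow_right (by omega) (by omega)
      have a5 : n + 4 ≤ n ^ 2 := by nlinarith
      calc _ ≤ (n + 4) * n ^ (t + 1) := by nlinarith
        _ ≤ n ^ 2 * n ^ (t + 1) := Nat.mul_le_mul_right _ a5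
        _ = n ^ (t + 3) := by ring
  calc (C.size : ℝ) ≤ (n : ℝ) ^ (t + 3) := by exact_mod_cast key
    _ = (n : ℝ) ^ ((t + 3 : ℕ) : ℝ) := (Real.rpow_natCast _ _).symm
    _ ≤ _ := Real.rpow_le_rpow_of_exponent_le (by linarith) (by push_cast; linarith)

end Crest.Agent.S0505
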