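import Crest.Statements.S0529
import Crest.Agent.R338.Final
import Crest.Agent.R338.Red8
import Crest.Agent.R338.Kin
import Crest.Agent.R338.Dens
import Crest.Agent.R338.LowerE
import Crest.Agent.R338.Slice
import Crest.Agent.R338.Key
import Crest.Agent.R338.Cmp
import Crest.Agent.R338.MBLower
import Crest.Agent.R338.MBUpper
import Crest.Agent.R338.PH
import Crest.Agent.R338.NetLower
import Crest.Agent.R338.NetUpper
import Crest.Agent.R338.Loc
import Crest.Agent.R338.Prof
import Crest.Agent.R338.Fluct
import Crest.Agent.R338.Cell
import Crest.Agent.R338.CellTr
import Crest.Agent.R338.Layer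
import Crest.Agent.R338.Leak
import Crest.Agent.R338.Hop
import Crest.Agent.R338.Shape
import Crest.Agent.R338.Trial
import Crest.Agent.R338.TrialQ
import Crest.Agent.R338.Kq
import Crest.Agent.R338.Ker
import Crest.Agent.R338.Mid
import Crest.Agent.R338.EpSmooth
import Crest.Agent.R338.EpBound
import Crest.Agent.R338.First
import Crest.Agent.R338.Slab
import Crest.Agent.R338.Lat
import Crest.Agent.R338.Num
import Crest.Agent.R338.ASem
import Crest.Agent.R338.AYes
import Crest.Agent.R338.ANo
import Crest.Agent.R338.LayGeo
import Crest.Agent.R338.LayNet
import Crest.Agent.R338.OfPoly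
import Crest.Agent.R338.APoly
import Crest.Agent.R338.BPoly1
import Crest.Agent.R338.BPoly

set_option autoImplicit false
open Crest.Quantum.QMA Crest.MathPhysics.CoulombProblem
open Crest Crest.MathPhysics

namespace Crest.Agent.S0529

/-- The electronic ground-energy promise problem for clamped unit nuclei (instances: pairwise distinct rational nuclear positions, all charges one; `N ≥ 1` electrons, in unary; rational thresholds `a`, `b` with `b - a ≥ 1`; YES when the infimum `E₀` of the Coulomb energy over antisymmetric spinful `N`-electron unit states is `≤ a`, NO when it is `≥ b`) is QMA-hard: every promise problem with a polynomial-time uniform quantum verifier reduces to it by a polynomial-time many-one reduction. -/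
theorem result :
    QMAHard groundEnergyProblem := by
  open Crest.Agent.R338 in
  have hC := cmp slice (key slice)
  open Crest.Agent.R338 in
  have hT := trial loc (shape loc)
  open Crest.Agent.R338 in
  exact final
    (red loc (fluct loc) (leak loc (cell loc) (layer loc tr (zst loc))) (hopLe loc tr (cell loc))
      (off loc) hT (trialQ loc (shape loc) hT) (kq loc) num (prof loc) (grad loc)
      (latOK ker epSmooth (epBound mid tile comp) (first ker comp) slab hardy comp) layOK dotOK netOK
      ph netLower netUpper (mbLower slice (key slice) hC (lowerE (dens kin) slice))
      (mbUpper slice (key slice) hC (upperE kin)))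
    ofPoly apoly (bpoly bpoly1) (ayes asem (akit asem)) (ano asem (akit asem))

end Crest.Agent.S0529
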