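import Crest.Statements.S0530
import Crest.Agent.R339.PMain
import Crest.Agent.R339.QLimit
import Crest.Agent.R339.QModel
import Crest.Agent.R339.QSeed
import Crest.Agent.R339.QSim
import Crest.Agent.R339.QValue

set_option autoImplicit false
open MeasureTheory Crest.MathPhysics.SpinGlass
open Crest Crest.MathPhysics

namespace Crest.Agent.S0530

/-- For every accuracy `ε > 0` there are finitely many alternating cost and mixer angles, fixed once and for all, such that for all sufficiently many spins the disorder-averaged expected energy per spin of the alternating state prepared from the uniform superposition is at least the disorder-averaged maximal energy per spin minus `ε`; the model is the mean-field Ising spin glass with independent standard Gaussian pair couplings and normalisation `1/√n`. -/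
theorem result :
    ∀ ε > (0 : ℝ), ∃ angles : List (ℝ × ℝ), ∃ N : ℕ, ∀ n ≥ N,
      (∫ J, maxPairEnergy n J ∂(gaussianCouplings n)) / n - ε ≤
        (∫ J, expectedEnergy n J (alternatingState n J angles) ∂(gaussianCouplings n)) / n := by
  intro ε hε
  have h4 : 0 < ε / 4 := by positivity
  obtain ⟨K, A, hA⟩ := R339.amp_opt h4
  obtain ⟨H', _, _, _, ⟨𝓛⟩⟩ := R339.exists_label A
  obtain ⟨U, hU, hUv⟩ := 𝓛.exists_value
  obtain ⟨U₁, hU₁, hU₁v⟩ := hU.exists_ereach h4
  obtain ⟨H, _, _, _, 𝓜, hR⟩ := R339.exists_basic
  obtain ⟨V, hV, hVv⟩ := R339.Weyl.seeds hR R339.Label.eClosed hU₁ h4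
  obtain ⟨angles, rfl⟩ := hV.exists_qaoa
  have hlim := R339.qaoa_limit 𝓜 hR angles
  have hev := hlim.eventually (lt_mem_nhds
    (show 𝓜.energy (𝓜.br (𝓜.qaoa angles) 𝓜.Z) - ε / 4 < 𝓜.energy (𝓜.br (𝓜.qaoa angles) 𝓜.Z) by
      linarith))
  obtain ⟨N, hN⟩ := Filter.eventually_atTop.1 hev
  refine ⟨angles, max N 1, fun n hn => ?_⟩
  have h1 := hA n (le_trans (le_max_right _ _) hn)
  have h2 := hN n (le_trans (le_max_left _ _) hn)
  linarith

end Crest.Agent.S0530
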