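import Crest.Statements.S0554
import Crest.Agent.R350.Main

set_option autoImplicit false
open Crest.MathPhysics.Query
open Crest Crest.MathPhysics

namespace Crest.Agent.S0554

/-- For every `k ≥ 2` there are constants `c, C, b > 0` such that for every large enough power of four `m` some total Boolean function on finitely many bits has a quantum query algorithm with at most `C √m (log m)^b` queries and error at most `1/3` on every input, while every randomized algorithm with error at most `1/3` on every input reads at least `c m^{2 - 1/k} / (log m)^2` bits on some input. So no power below four bounds randomized by quantum query complexity. -/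
theorem result (k : ℕ) (hk : 2 ≤ k) :
    ∃ (c C b : ℝ), 0 < c ∧ 0 < C ∧ 0 < b ∧ ∃ m₀ : ℕ, ∀ m : ℕ, m₀ ≤ m → (∃ j : ℕ, m = 4 ^ j) →
      ∃ (n : ℕ) (F : (Fin n → Bool) → Bool),
        (∃ q : ℕ, (q : ℝ) ≤ C * Real.sqrt m * Real.log m ^ b ∧ QuantumComputes F q) ∧
        (∀ r : ℕ, RandomizedComputes F r →
          c * (m : ℝ) ^ (2 - 1 / (k : ℝ)) / Real.log m ^ 2 ≤ r) := by
  obtain ⟨μ, hμ⟩ : ∃ μ, μ + 1 = 2 * k := ⟨2 * k - 1, by omega⟩
  obtain ⟨a₂, ha₂⟩ : ∃ a₂, a₂ = 24 * k + 33 := ⟨_, rfl⟩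
  obtain ⟨σ, hσ⟩ : ∃ σ, σ + 5 = a₂ * μ := ⟨a₂ * μ - 5, by
    have : 5 ≤ a₂ * μ := by nlinarith
    omega⟩
  obtain ⟨u₀, hu₀⟩ := R350.main_u k μ a₂ σ hk hμ (by omega) hσ
  obtain ⟨E, hE⟩ : ∃ E, E = k * a₂ + 3 * μ + 10 := ⟨_, rfl⟩
  have hEpos : 0 < E := by omega
  refine ⟨3 / 20 / 2 ^ (4 * E), 1, 1, by positivity, one_pos, one_pos, 4 ^ (E * u₀ + 1), ?_⟩
  rintro m hm ⟨j, rfl⟩
  have hj : E * u₀ + 1 ≤ j := (Nat.pow_le_pow_iff_right (by norm_num)).1 hm
  have hu : u₀ ≤ j / E := (Nat.le_div_iff_mul_le hEpos).2 (by rw [mul_comm]; omega)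
  obtain ⟨n, F, ⟨q, hq, hQ⟩, hR⟩ := hu₀ (j / E) hu
  set u := j / E with hu'
  have hj₁ : E * u ≤ j := Nat.mul_div_le j E
  have hj₂ : j ≤ E * (u + 1) := (Nat.lt_mul_div_succ j hEpos).le
  have hlog : 1 ≤ Real.log ((4 ^ j : ℕ) : ℝ) := by
    rw [Real.le_log_iff_exp_le (by positivity)]
    have h1 : ((4 ^ 1 : ℕ) : ℝ) ≤ ((4 ^ j : ℕ) : ℝ) := by
      exact_mod_cast Nat.pow_le_pow_right (by norm_num) (by omega)
    have := Real.exp_one_lt_d9
    norm_num at h1 ⊢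
    linarith
  have h4 : ((4 ^ j : ℕ) : ℝ) = (2 : ℝ) ^ (2 * j) := by
    rw [pow_mul]; norm_num
  refine ⟨n, F, ⟨q, ?_, hQ⟩, fun r hr => ?_⟩
  · rw [one_mul, Real.rpow_one]
    have h1 : Real.sqrt ((4 ^ j : ℕ) : ℝ) = 2 ^ j := by
      rw [h4, mul_comm, pow_mul]; exact Real.sqrt_sq (by positivity)
    have h2 : (q : ℝ) ≤ 2 ^ j := by
      rw [← hE, ← pow_mul] at hq
      have : q ≤ 2 ^ j := hq.trans (Nat.pow_le_pow_right (by norm_num) (by rwa [mul_comm]))
      exact_mod_cast this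
    rw [h1]
    exact h2.trans (le_mul_of_one_le_right (by positivity) hlog)
  · refine le_trans ?_ (hR r hr)
    have hk0 : (0 : ℝ) < k := by exact_mod_cast (by omega : 0 < k)
    have hk2 : (2 : ℝ) ≤ k := by exact_mod_cast hk
    have h1 : ((4 ^ j : ℕ) : ℝ) ^ (2 - 1 / (k : ℝ))
        ≤ 2 ^ (4 * E) * ((2 : ℝ) ^ u) ^ (2 * (k * a₂) + σ) := by
      rw [h4, ← pow_mul, ← pow_add, ← Real.rpow_natCast, ← Real.rpow_natCast,
        ← Real.rpow_mul (by norm_num)]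
      refine Real.rpow_le_rpow_of_exponent_le (by norm_num) ?_
      have e1 : (j : ℝ) ≤ E * (u + 1) := by exact_mod_cast hj₂
      have e2 : (E : ℝ) = k * a₂ + 3 * μ + 10 := by exact_mod_cast hE
      have e3 : (μ : ℝ) + 1 = 2 * k := by exact_mod_cast hμ
      have e4 : (σ : ℝ) + 5 = a₂ * μ := by exact_mod_cast hσ
      have e5 : (a₂ : ℝ) = 24 * k + 33 := by exact_mod_cast ha₂
      have hik : 0 < 1 / (k : ℝ) := by positivity
      have hik' : 1 / (k : ℝ) ≤ 1 / 2 := one_div_le_one_div_of_le (by norm_num) hk2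
      have e6 : (a₂ : ℝ) ≤ E * (1 / k) := by
        rw [mul_one_div, le_div_iff₀ hk0, e2]
        have : (0 : ℝ) ≤ μ := Nat.cast_nonneg _
        linarith
      have e7 : (E : ℝ) * (4 - 2 * (1 / k)) ≤ 2 * (k * a₂) + σ := by
        have e8 : (μ : ℝ) = 2 * k - 1 := by linarith
        rw [e8] at e2 e4
        nlinarith
      have hu0 : (0 : ℝ) ≤ u := Nat.cast_nonneg _
      have hE0 : (0 : ℝ) ≤ E := Nat.cast_nonneg _
      push_cast
      calc 2 * (j : ℝ) * (2 - 1 / k) ≤ 2 * (E * (u + 1)) * (2 - 1 / k) := by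
            gcongr; linarith
        _ = u * (E * (4 - 2 * (1 / k))) + 4 * E - 2 * (E * (1 / k)) := by ring
        _ ≤ u * (2 * (k * a₂) + σ) + 4 * E - 0 := by gcongr; positivity
        _ = _ := by ring
    calc _ ≤ 3 / 20 / 2 ^ (4 * E) * ((4 ^ j : ℕ) : ℝ) ^ (2 - 1 / (k : ℝ)) :=
          div_le_self (by positivity) (one_le_pow₀ hlog)
      _ ≤ 3 / 20 / 2 ^ (4 * E) * (2 ^ (4 * E) * ((2 : ℝ) ^ u) ^ (2 * (k * a₂) + σ)) := by gcongr
      _ = _ := by field_simp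

end Crest.Agent.S0554
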